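import Vale.Agent.Lib.P248.PairTheory

open MeasureTheory Set Module

namespace Vale.Agent.Lib.P248

lemma finrank_F : finrank ℝ F = 3 := by
  simp [F, Module.finrank_prod]

/-- Evaluation of functionals on a finite set of points. -/
noncomputable def evalMap (S : Finset F) : F →ₗ[ℝ] (↥S → ℝ) :=
  LinearMap.pi fun x => dotL x.1

@[simp] lemma evalMap_apply (S : Finset F) (L : F) (x : ↥S) : evalMap S L x = dot x.1 L := rfl

lemma evalMap_injective {S : Finset F} (hS : Submodule.span ℝ (S : Set F) = ⊤) :
    Function.Injective (evalMap S) := by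
  rw [← LinearMap.ker_eq_bot, LinearMap.ker_eq_bot']
  intro L hL
  apply eq_zero_of_span_top hS
  intro a ha
  have := congrFun hL ⟨a, ha⟩
  rw [evalMap_apply, dot_comm] at this
  exact this

lemma finrank_range_evalMap {S : Finset F} (hS : Submodule.span ℝ (S : Set F) = ⊤) :
    finrank ℝ (LinearMap.range (evalMap S)) = 3 := by
  rw [LinearMap.finrank_range_of_inj (evalMap_injective hS), finrank_F]

/-- Restriction of a function on `X` to the tight points of `n`. -/
noncomputable def restr (X : Finset F) (n : F) : (↥X → ℝ) →ₗ[ℝ] (↥(tightPts X n) → ℝ) :=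
  LinearMap.pi fun x => LinearMap.proj ⟨x.1, (mem_tightPts.1 x.2).1⟩

/-- Deviation from being affine on the tight points of `n`. -/
noncomputable def defect (X : Finset F) (n : F) :
    (↥X → ℝ) →ₗ[ℝ] ((↥(tightPts X n) → ℝ) ⧸ LinearMap.range (evalMap (tightPts X n))) :=
  (LinearMap.range (evalMap (tightPts X n))).mkQ ∘ₗ restr X n

/-- The affine functions on `X`. -/
noncomputable def affMap (X : Finset F) : (F × ℝ) →ₗ[ℝ] (↥X → ℝ) where
  toFun p := fun x => dot p.1 x.1 + p.2
  map_add' := by
    intro p q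
    funext x
    simp [dot_add_left]
    ring
  map_smul' := by
    intro c p
    funext x
    simp [dot_smul_left]
    ring

/-- The dimension count producing a nontrivial deformation. -/
theorem exists_alpha {X N : Finset F} (h : Pair X N) (N0 : Finset F) (h0 : N0 ⊆ N)
    (hcount : ∑ n ∈ N0, (tightPts X n).card + 5 ≤ X.card + 3 * N0.card) :
    ∃ α : F → ℝ, (∀ n ∈ N0, ∃ L : F, ∀ x ∈ tightPts X n, α x = dot L x) ∧
      ¬ ∃ (L : F) (a : ℝ), ∀ x ∈ X, α x = dot L x + a := by
  classical
  let Φ : (↥X → ℝ) →ₗ[ℝ] (∀ n : ↥N0,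
      ((↥(tightPts X n.1) → ℝ) ⧸ LinearMap.range (evalMap (tightPts X n.1)))) :=
    LinearMap.pi fun n => defect X n.1
  have hspan : ∀ n : ↥N0, Submodule.span ℝ ((tightPts X n.1 : Finset F) : Set F) = ⊤ :=
    fun n => h.tight_n n.1 (h0 n.2)
  have hq : ∀ n : ↥N0, finrank ℝ ((↥(tightPts X n.1) → ℝ) ⧸
      LinearMap.range (evalMap (tightPts X n.1))) + 3 = (tightPts X n.1).card := by
    intro n
    have := Submodule.finrank_quotient_add_finrank (LinearMap.range (evalMap (tightPts X n.1)))
    rw [finrank_range_evalMap (hspan n)] at this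
    simpa using this
  have htarget : finrank ℝ (∀ n : ↥N0,
      ((↥(tightPts X n.1) → ℝ) ⧸ LinearMap.range (evalMap (tightPts X n.1)))) + 3 * N0.card =
      ∑ n ∈ N0, (tightPts X n).card := by
    rw [Module.finrank_pi_fintype, ← Finset.sum_coe_sort N0 (fun n => (tightPts X n).card)]
    have : 3 * N0.card = ∑ _n : ↥N0, 3 := by simp [mul_comm]
    rw [this, ← Finset.sum_add_distrib]
    exact Finset.sum_congr rfl (fun n _ => hq n)
  have hrk := LinearMap.finrank_range_add_finrank_ker Φ
  have hrange : finrank ℝ (LinearMap.range Φ) ≤ finrank ℝ (∀ n : ↥N0,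
      ((↥(tightPts X n.1) → ℝ) ⧸ LinearMap.range (evalMap (tightPts X n.1)))) :=
    Submodule.finrank_le _
  have hV : finrank ℝ (↥X → ℝ) = X.card := by simp
  have hker : 5 ≤ finrank ℝ (LinearMap.ker Φ) := by
    rw [hV] at hrk
    omega
  have htriv : finrank ℝ (LinearMap.range (affMap X)) ≤ 4 := by
    refine (LinearMap.finrank_range_le _).trans ?_
    rw [Module.finrank_prod, finrank_F]
    simp
  have hnot : ¬ LinearMap.ker Φ ≤ LinearMap.range (affMap X) := by
    intro hle
    have := Submodule.finrank_mono hle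
    omega
  obtain ⟨α, hα, hαn⟩ := SetLike.not_le_iff_exists.1 hnot
  refine ⟨fun x => if hx : x ∈ X then α ⟨x, hx⟩ else 0, ?_, ?_⟩
  · intro n hn
    have h1 : defect X n α = 0 := by
      have := congrFun (LinearMap.mem_ker.1 hα) ⟨n, hn⟩
      simpa [Φ] using this
    have h2 : restr X n α ∈ LinearMap.range (evalMap (tightPts X n)) := by
      simpa [defect, Submodule.Quotient.mk_eq_zero] using h1
    obtain ⟨L, hL⟩ := h2
    refine ⟨L, ?_⟩
    intro x hx
    have hxX := (mem_tightPts.1 hx).1
    have := congrFun hL ⟨x, hx⟩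
    simp only [evalMap_apply, restr, LinearMap.pi_apply, LinearMap.proj_apply] at this
    simp only [hxX, dif_pos]
    rw [← this, dot_comm]
  · rintro ⟨L, a, hLa⟩
    apply hαn
    refine ⟨(L, a), ?_⟩
    funext x
    have := hLa x.1 x.2
    simp only [x.2, dif_pos] at this
    simpa [affMap] using this.symm

end Vale.Agent.Lib.P248
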