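import Vale.Agent.Lib.P248.Defs

/-!
The Borell-Brascamp-Lieb inequality in the plane for the exponent `-3`, obtained from two
applications of a one-dimensional statement (level sets and Brunn-Minkowski on the line).
-/

open MeasureTheory Set Filter Topology
open scoped ENNReal

namespace Vale.Agent.Lib.P248

namespace BBL

/-! ### Brunn-Minkowski on the line -/

lemma vol_preimage_mid (b : ℝ) (T : Set ℝ) :
    volume ((fun x : ℝ => (x + b) / 2) ⁻¹' T) = 2 * volume T := by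
  have h1 : (fun x : ℝ => (x + b) / 2) ⁻¹' T
      = (fun x : ℝ => x + b) ⁻¹' ((fun x : ℝ => (1 / 2 : ℝ) * x) ⁻¹' T) := by
    ext x
    simp only [mem_preimage]
    rw [show (1 / 2 : ℝ) * (x + b) = (x + b) / 2 by ring]
  rw [h1, measure_preimage_add_right, Real.volume_preimage_mul_left (by norm_num)]
  congr 1
  norm_num

lemma vol_preimage_mid' (a : ℝ) (T : Set ℝ) :
    volume ((fun x : ℝ => (a + x) / 2) ⁻¹' T) = 2 * volume T := by
  have h1 : (fun x : ℝ => (a + x) / 2) = fun x : ℝ => (x + a) / 2 := by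
    funext x; ring
  rw [h1, vol_preimage_mid]

lemma bm_compact {K L S : Set ℝ} (hK : IsCompact K) (hL : IsCompact L)
    (hKn : K.Nonempty) (hLn : L.Nonempty) (h : ∀ a ∈ K, ∀ b ∈ L, (a + b) / 2 ∈ S) :
    volume K + volume L ≤ 2 * volume S := by
  set a0 := sSup K with ha0def
  set b0 := sInf L with hb0def
  have ha0 : a0 ∈ K := hK.sSup_mem hKn
  have hb0 : b0 ∈ L := hL.sInf_mem hLn
  set c := (a0 + b0) / 2 with hc
  have h1 : volume K ≤ 2 * volume (S ∩ Iic c) := by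
    rw [← vol_preimage_mid b0]
    apply measure_mono
    intro a ha
    simp only [mem_preimage, mem_inter_iff, mem_Iic]
    refine ⟨h a ha b0 hb0, ?_⟩
    have := le_csSup hK.bddAbove ha
    rw [hc]
    linarith
  have h2 : volume L ≤ 2 * volume (S \ Iic c) := by
    have h3 : volume L ≤ volume (L \ {b0}) := by
      have : L ⊆ (L \ {b0}) ∪ {b0} := by
        intro x hx
        by_cases hxb : x = b0
        · right; exact hxb
        · left; exact ⟨hx, hxb⟩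
      calc volume L ≤ volume ((L \ {b0}) ∪ {b0}) := measure_mono this
        _ ≤ volume (L \ {b0}) + volume ({b0} : Set ℝ) := measure_union_le _ _
        _ = volume (L \ {b0}) := by simp
    refine h3.trans ?_
    rw [← vol_preimage_mid' a0]
    apply measure_mono
    intro b hb
    simp only [mem_preimage, Set.mem_sdiff, mem_Iic, not_le]
    refine ⟨h a0 ha0 b hb.1, ?_⟩
    have h4 := csInf_le hL.bddBelow hb.1
    have h5 : b ≠ b0 := hb.2
    have h6 : b0 < b := lt_of_le_of_ne h4 (Ne.symm h5)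
    rw [hc]
    linarith
  have h3 : volume (S ∩ Iic c) + volume (S \ Iic c) = volume S :=
    measure_inter_add_sdiff S measurableSet_Iic
  calc volume K + volume L ≤ 2 * volume (S ∩ Iic c) + 2 * volume (S \ Iic c) := add_le_add h1 h2
    _ = 2 * volume S := by rw [← mul_add, h3]

lemma bm_measurable {A B S : Set ℝ} (hA : MeasurableSet A) (hB : MeasurableSet B)
    (hAn : A.Nonempty) (hBn : B.Nonempty) (h : ∀ a ∈ A, ∀ b ∈ B, (a + b) / 2 ∈ S) :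
    volume A + volume B ≤ 2 * volume S := by
  obtain ⟨a₀, ha₀⟩ := hAn
  obtain ⟨b₀, hb₀⟩ := hBn
  apply le_of_forall_lt
  intro x hx
  have key : ∀ K ⊆ A, IsCompact K → ∀ L ⊆ B, IsCompact L →
      volume K + volume L ≤ 2 * volume S := by
    intro K hKA hK L hLB hL
    have h1 : volume K ≤ volume (insert a₀ K) := measure_mono (subset_insert _ _)
    have h2 : volume L ≤ volume (insert b₀ L) := measure_mono (subset_insert _ _)
    refine (add_le_add h1 h2).trans ?_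
    refine bm_compact (hK.insert a₀) (hL.insert b₀) (insert_nonempty _ _) (insert_nonempty _ _) ?_
    intro a ha b hb
    have ha' : a ∈ A := by
      rcases ha with rfl | ha
      · exact ha₀
      · exact hKA ha
    have hb' : b ∈ B := by
      rcases hb with rfl | hb
      · exact hb₀
      · exact hLB hb
    exact h a ha' b hb'
  by_cases h0A : volume A = 0
  · rw [h0A, zero_add] at hx
    obtain ⟨L, hLB, hL, hxL⟩ := hB.exists_lt_isCompact hx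
    have := key ∅ (empty_subset _) isCompact_empty L hLB hL
    simp only [measure_empty, zero_add] at this
    exact lt_of_lt_of_le hxL this
  by_cases h0B : volume B = 0
  · rw [h0B, add_zero] at hx
    obtain ⟨K, hKA, hK, hxK⟩ := hA.exists_lt_isCompact hx
    have := key K hKA hK ∅ (empty_subset _) isCompact_empty
    simp only [measure_empty, add_zero] at this
    exact lt_of_lt_of_le hxK this
  obtain ⟨y, hy, z, hz, hxyz⟩ := ENNReal.exists_lt_add_of_lt_add hx h0A h0B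
  obtain ⟨K, hKA, hK, hyK⟩ := hA.exists_lt_isCompact hy
  obtain ⟨L, hLB, hL, hzL⟩ := hB.exists_lt_isCompact hz
  exact lt_of_lt_of_le (lt_of_lt_of_le hxyz (add_le_add hyK.le hzL.le)) (key K hKA hK L hLB hL)

/-! ### The weight of the level-set formula -/

/-- The weight `q τ^{-q-1}`. -/
noncomputable def wt (q : ℕ) (τ : ℝ) : ℝ≥0∞ := ENNReal.ofReal ((q : ℝ) * (τ⁻¹) ^ (q + 1))

lemma measurable_wt (q : ℕ) : Measurable (wt q) := by
  unfold wt
  exact (measurable_const.mul (measurable_inv.pow_const _)).ennreal_ofReal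

lemma hasDerivAt_neg_inv_pow (q : ℕ) (hq : 1 ≤ q) {τ : ℝ} (hτ : τ ≠ 0) :
    HasDerivAt (fun t : ℝ => -(t⁻¹) ^ q) ((q : ℝ) * (τ⁻¹) ^ (q + 1)) τ := by
  have h1 : HasDerivAt (fun t : ℝ => t⁻¹) (-(τ ^ 2)⁻¹) τ := hasDerivAt_inv hτ
  have h2 : HasDerivAt (fun t : ℝ => -(t⁻¹) ^ q) (-((q : ℝ) * (τ⁻¹) ^ (q - 1) * (-(τ ^ 2)⁻¹))) τ :=
    (h1.fun_pow q).fun_neg
  have h3 : -((q : ℝ) * (τ⁻¹) ^ (q - 1) * (-(τ ^ 2)⁻¹)) = (q : ℝ) * (τ⁻¹) ^ (q + 1) := by
    obtain ⟨r, rfl⟩ : ∃ r, q = r + 1 := ⟨q - 1, by omega⟩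
    simp only [Nat.add_sub_cancel]
    rw [show r + 1 + 1 = r + 2 by ring, pow_add τ⁻¹ r 2, inv_pow τ 2]
    ring
  rwa [h3] at h2

lemma lintegral_wt (q : ℕ) (hq : 1 ≤ q) {y : ℝ} (hy : 0 < y) :
    ∫⁻ τ in Ioi y, wt q τ = ENNReal.ofReal ((y⁻¹) ^ q) := by
  have hd : ∀ x ∈ Ici y, HasDerivAt (fun t : ℝ => -(t⁻¹) ^ q) ((q : ℝ) * (x⁻¹) ^ (q + 1)) x := by
    intro x hx
    exact hasDerivAt_neg_inv_pow q hq (ne_of_gt (lt_of_lt_of_le hy hx))
  have hpos : ∀ x ∈ Ioi y, 0 ≤ (q : ℝ) * (x⁻¹) ^ (q + 1) := by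
    intro x hx
    have : 0 < x := lt_trans hy hx
    positivity
  have hlim : Tendsto (fun t : ℝ => -(t⁻¹) ^ q) atTop (𝓝 0) := by
    have h1 : Tendsto (fun t : ℝ => t⁻¹) atTop (𝓝 0) := tendsto_inv_atTop_zero
    have h2 : Tendsto (fun t : ℝ => (t⁻¹) ^ q) atTop (𝓝 (0 ^ q)) := h1.pow q
    have h3 : (0 : ℝ) ^ q = 0 := zero_pow (by omega)
    rw [h3] at h2
    simpa using h2.neg
  have hint : IntegrableOn (fun x : ℝ => (q : ℝ) * (x⁻¹) ^ (q + 1)) (Ioi y) :=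
    integrableOn_Ioi_deriv_of_nonneg' hd hpos hlim
  have hval : ∫ x in Ioi y, (q : ℝ) * (x⁻¹) ^ (q + 1) = 0 - (-(y⁻¹) ^ q) :=
    integral_Ioi_of_hasDerivAt_of_nonneg' hd hpos hlim
  unfold wt
  rw [← ofReal_integral_eq_lintegral_ofReal hint
    ((ae_restrict_iff' measurableSet_Ioi).2 (ae_of_all _ hpos)), hval]
  congr 1
  ring

lemma inner_wt (q : ℕ) (hq : 1 ≤ q) (r : ℝ) :
    ∫⁻ τ in Ioi 1, (if r < τ then wt q τ else 0) = ENNReal.ofReal (((max 1 r)⁻¹) ^ q) := by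
  have h0 : 0 < max 1 r := lt_max_of_lt_left one_pos
  rw [← lintegral_wt q hq h0]
  have h1 : (fun τ => if r < τ then wt q τ else 0) = indicator (Ioi r) (wt q) := by
    funext τ
    simp [indicator, mem_Ioi]
  rw [h1, setLIntegral_indicator measurableSet_Ioi]
  congr 2
  ext τ
  simp [and_comm]

/-! ### The level-set formula -/

lemma layer_formula (q : ℕ) (hq : 1 ≤ q) {φ : ℝ → ℝ} (hφ : Measurable φ) {M : ℝ} (hM : 0 < M) :
    ∫⁻ τ in Ioi 1, wt q τ * volume {y | φ y < M * τ}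
      = ∫⁻ y, ENNReal.ofReal (((max 1 (φ y / M))⁻¹) ^ q) := by
  have h1 : ∀ τ : ℝ, wt q τ * volume {y | φ y < M * τ}
      = ∫⁻ y, (if φ y / M < τ then wt q τ else 0) := by
    intro τ
    have hs : MeasurableSet {y | φ y < M * τ} := measurableSet_lt hφ measurable_const
    have h2 : (fun y => if φ y / M < τ then wt q τ else 0)
        = indicator {y | φ y < M * τ} (fun _ => wt q τ) := by
      funext y
      have h3 : φ y / M < τ ↔ φ y < M * τ := by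
        rw [div_lt_iff₀ hM, mul_comm]
      simp [indicator, h3]
    rw [h2, lintegral_indicator hs, setLIntegral_const]
  simp_rw [h1]
  have hmeas : Measurable (Function.uncurry
      (fun (τ y : ℝ) => if φ y / M < τ then wt q τ else 0)) := by
    apply Measurable.ite
    · exact measurableSet_lt ((hφ.comp measurable_snd).div_const M) measurable_fst
    · exact (measurable_wt q).comp measurable_fst
    · exact measurable_const
  rw [lintegral_lintegral_swap hmeas.aemeasurable]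
  apply lintegral_congr
  intro y
  exact inner_wt q hq (φ y / M)

/-- The `q`-th inverse moment. -/
noncomputable def Iq (q : ℕ) (φ : ℝ → ℝ) : ℝ≥0∞ := ∫⁻ y, ENNReal.ofReal ((φ y)⁻¹ ^ q)

lemma core (q : ℕ) (hq : 1 ≤ q) {f g k : ℝ → ℝ} (hf : Measurable f) (hg : Measurable g)
    (hk : Measurable k) {δ : ℝ} (hδ : 0 < δ) (hfδ : ∀ y, δ ≤ f y) (hgδ : ∀ y, δ ≤ g y)
    (hkpos : ∀ y, 0 < k y) (hmid : ∀ a b, k ((a + b) / 2) ≤ (f a + g b) / 2) :
    ∃ m1 m2 : ℝ, 0 < m1 ∧ 0 < m2 ∧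
      ENNReal.ofReal (m1 ^ q) * Iq q f + ENNReal.ofReal (m2 ^ q) * Iq q g
        ≤ 2 * (ENNReal.ofReal (((m1 + m2) / 2) ^ q) * Iq q k) := by
  have hbf : BddBelow (range f) := ⟨δ, by rintro _ ⟨y, rfl⟩; exact hfδ y⟩
  have hbg : BddBelow (range g) := ⟨δ, by rintro _ ⟨y, rfl⟩; exact hgδ y⟩
  set m1 := ⨅ y, f y with hm1
  set m2 := ⨅ y, g y with hm2
  have hm1δ : δ ≤ m1 := le_ciInf hfδ
  have hm2δ : δ ≤ m2 := le_ciInf hgδ
  have hm1pos : 0 < m1 := lt_of_lt_of_le hδ hm1δ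
  have hm2pos : 0 < m2 := lt_of_lt_of_le hδ hm2δ
  set m := (m1 + m2) / 2 with hm
  have hmpos : 0 < m := by positivity
  refine ⟨m1, m2, hm1pos, hm2pos, ?_⟩
  have hle : ∀ τ ∈ Ioi (1 : ℝ), wt q τ * volume {y | f y < m1 * τ} + wt q τ * volume {y | g y < m2 * τ}
      ≤ 2 * (wt q τ * volume {y | k y < m * τ}) := by
    intro τ hτ
    have hτ1 : (1 : ℝ) < τ := hτ
    have hA : {y | f y < m1 * τ}.Nonempty := by
      have h1 : m1 < m1 * τ := by nlinarith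
      obtain ⟨y, hy⟩ := exists_lt_of_ciInf_lt h1
      exact ⟨y, hy⟩
    have hB : {y | g y < m2 * τ}.Nonempty := by
      have h1 : m2 < m2 * τ := by nlinarith
      obtain ⟨y, hy⟩ := exists_lt_of_ciInf_lt h1
      exact ⟨y, hy⟩
    have hbm := bm_measurable (measurableSet_lt hf measurable_const)
      (measurableSet_lt hg measurable_const) hA hB (S := {y | k y < m * τ}) (by
        intro a ha b hb
        have ha' : f a < m1 * τ := ha
        have hb' : g b < m2 * τ := hb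
        have h2 := hmid a b
        show k ((a + b) / 2) < m * τ
        have h3 : m * τ = (m1 * τ + m2 * τ) / 2 := by rw [hm]; ring
        rw [h3]
        linarith)
    calc wt q τ * volume {y | f y < m1 * τ} + wt q τ * volume {y | g y < m2 * τ}
        = wt q τ * (volume {y | f y < m1 * τ} + volume {y | g y < m2 * τ}) := by rw [mul_add]
      _ ≤ wt q τ * (2 * volume {y | k y < m * τ}) := by gcongr
      _ = 2 * (wt q τ * volume {y | k y < m * τ}) := by ring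
  have hint := calc
    (∫⁻ τ in Ioi (1 : ℝ), wt q τ * volume {y | f y < m1 * τ})
        + (∫⁻ τ in Ioi (1 : ℝ), wt q τ * volume {y | g y < m2 * τ})
      ≤ ∫⁻ τ in Ioi (1 : ℝ), (wt q τ * volume {y | f y < m1 * τ} + wt q τ * volume {y | g y < m2 * τ}) :=
        le_lintegral_add _ _
    _ ≤ ∫⁻ τ in Ioi 1, 2 * (wt q τ * volume {y | k y < m * τ}) :=
        setLIntegral_mono' measurableSet_Ioi hle
    _ = 2 * ∫⁻ τ in Ioi 1, wt q τ * volume {y | k y < m * τ} :=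
        lintegral_const_mul' _ _ (by simp)
  rw [layer_formula q hq hf hm1pos, layer_formula q hq hg hm2pos,
    layer_formula q hq hk hmpos] at hint
  have hexact : ∀ {h : ℝ → ℝ} {M : ℝ}, 0 < M → (∀ y, M ≤ h y) →
      ∫⁻ y, ENNReal.ofReal (((max 1 (h y / M))⁻¹) ^ q) = ENNReal.ofReal (M ^ q) * Iq q h := by
    intro h M hM hh
    unfold Iq
    rw [← lintegral_const_mul' _ _ ENNReal.ofReal_ne_top]
    apply lintegral_congr
    intro y
    have h1 : 1 ≤ h y / M := (one_le_div hM).2 (hh y)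
    have h2 : 0 < h y := lt_of_lt_of_le hM (hh y)
    rw [max_eq_right h1, ← ENNReal.ofReal_mul (by positivity)]
    congr 1
    rw [inv_div, div_eq_mul_inv, mul_pow]
  have hfm : ∀ y, m1 ≤ f y := fun y => ciInf_le hbf y
  have hgm : ∀ y, m2 ≤ g y := fun y => ciInf_le hbg y
  rw [hexact hm1pos hfm, hexact hm2pos hgm] at hint
  refine hint.trans ?_
  gcongr
  unfold Iq
  rw [← lintegral_const_mul' _ _ ENNReal.ofReal_ne_top]
  apply lintegral_mono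
  intro y
  have h2 : 0 < k y := hkpos y
  change ENNReal.ofReal ((max 1 (k y / m))⁻¹ ^ q) ≤ ENNReal.ofReal (m ^ q) * ENNReal.ofReal ((k y)⁻¹ ^ q)
  rw [← ENNReal.ofReal_mul (by positivity)]
  apply ENNReal.ofReal_le_ofReal
  have h3 : (max 1 (k y / m))⁻¹ ≤ m * (k y)⁻¹ := by
    have h4 : k y / m ≤ max 1 (k y / m) := le_max_right _ _
    have h5 : 0 < k y / m := by positivity
    calc (max 1 (k y / m))⁻¹ ≤ (k y / m)⁻¹ := inv_anti₀ h5 h4
      _ = m * (k y)⁻¹ := by rw [inv_div, div_eq_mul_inv]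
  have h6 : 0 ≤ (max 1 (k y / m))⁻¹ := by
    have : 0 < max 1 (k y / m) := lt_max_of_lt_left one_pos
    positivity
  calc ((max 1 (k y / m))⁻¹) ^ q ≤ (m * (k y)⁻¹) ^ q := pow_le_pow_left₀ h6 h3 q
    _ = m ^ q * (k y)⁻¹ ^ q := mul_pow _ _ _

lemma core_real (q : ℕ) (hq : 1 ≤ q) {f g k : ℝ → ℝ} (hf : Measurable f) (hg : Measurable g)
    (hk : Measurable k) {δ : ℝ} (hδ : 0 < δ) (hfδ : ∀ y, δ ≤ f y) (hgδ : ∀ y, δ ≤ g y)
    (hkpos : ∀ y, 0 < k y) (hmid : ∀ a b, k ((a + b) / 2) ≤ (f a + g b) / 2)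
    (hkfin : Iq q k ≠ ⊤) :
    ∃ m1 m2 : ℝ, 0 < m1 ∧ 0 < m2 ∧
      m1 ^ q * (Iq q f).toReal + m2 ^ q * (Iq q g).toReal
        ≤ 2 * (((m1 + m2) / 2) ^ q * (Iq q k).toReal) := by
  obtain ⟨m1, m2, h1, h2, h⟩ := core q hq hf hg hk hδ hfδ hgδ hkpos hmid
  refine ⟨m1, m2, h1, h2, ?_⟩
  have hRfin : 2 * (ENNReal.ofReal (((m1 + m2) / 2) ^ q) * Iq q k) ≠ ⊤ :=
    ENNReal.mul_ne_top (by simp) (ENNReal.mul_ne_top ENNReal.ofReal_ne_top hkfin)
  have hm := ENNReal.toReal_mono hRfin h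
  have hLfin : ENNReal.ofReal (m1 ^ q) * Iq q f + ENNReal.ofReal (m2 ^ q) * Iq q g ≠ ⊤ :=
    ne_top_of_le_ne_top hRfin h
  have hp1 : ENNReal.ofReal (m1 ^ q) * Iq q f ≠ ⊤ := by
    intro h0
    apply hLfin
    rw [h0]
    simp
  have hp2 : ENNReal.ofReal (m2 ^ q) * Iq q g ≠ ⊤ := by
    intro h0
    apply hLfin
    rw [h0]
    simp
  rw [ENNReal.toReal_add hp1 hp2, ENNReal.toReal_mul, ENNReal.toReal_mul, ENNReal.toReal_mul,
    ENNReal.toReal_mul, ENNReal.toReal_ofReal (by positivity), ENNReal.toReal_ofReal (by positivity),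
    ENNReal.toReal_ofReal (by positivity)] at hm
  simpa using hm

/-! ### The two real inequalities -/

lemma harm_two {A B C m1 m2 : ℝ} (hA : 0 < A) (hB : 0 < B) (hC : 0 < C) (hm1 : 0 < m1)
    (hm2 : 0 < m2) (h : m1 ^ 2 * A + m2 ^ 2 * B ≤ 2 * (((m1 + m2) / 2) ^ 2 * C)) :
    2 / C ≤ 1 / A + 1 / B := by
  have h1 : (m1 + m2) ^ 2 ≤ (m1 ^ 2 * A + m2 ^ 2 * B) * (1 / A + 1 / B) := by
    have h2 : (m1 ^ 2 * A + m2 ^ 2 * B) * (1 / A + 1 / B) - (m1 + m2) ^ 2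
        = (m1 * A - m2 * B) ^ 2 / (A * B) := by
      field_simp
      ring
    have h3 : 0 ≤ (m1 * A - m2 * B) ^ 2 / (A * B) := by positivity
    linarith
  have h4 : 0 < 1 / A + 1 / B := by positivity
  have h5 : (m1 + m2) ^ 2 ≤ (2 * (((m1 + m2) / 2) ^ 2 * C)) * (1 / A + 1 / B) :=
    h1.trans (mul_le_mul_of_nonneg_right h h4.le)
  have h6 : 0 < (m1 + m2) ^ 2 := by positivity
  have h7 : (2 * (((m1 + m2) / 2) ^ 2 * C)) * (1 / A + 1 / B)
      = (m1 + m2) ^ 2 * (C / 2 * (1 / A + 1 / B)) := by ring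
  rw [h7] at h5
  have h8 : 1 ≤ C / 2 * (1 / A + 1 / B) := by
    by_contra hlt
    push Not at hlt
    nlinarith
  rw [div_le_iff₀ hC]
  nlinarith

lemma holder_three {u v m1 m2 : ℝ} (hu : 0 < u) (hv : 0 < v) (hm1 : 0 < m1) (hm2 : 0 < m2) :
    (m1 + m2) ^ 3 ≤ (m1 ^ 3 / u ^ 2 + m2 ^ 3 / v ^ 2) * (u + v) ^ 2 := by
  set r := m1 / u with hr
  set t := m2 / v with ht
  have hr0 : 0 < r := by positivity
  have ht0 : 0 < t := by positivity
  have h1 : m1 = r * u := by rw [hr]; field_simp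
  have h2 : m2 = t * v := by rw [ht]; field_simp
  have h3 : m1 ^ 3 / u ^ 2 = r ^ 3 * u := by rw [h1]; field_simp
  have h4 : m2 ^ 3 / v ^ 2 = t ^ 3 * v := by rw [h2]; field_simp
  rw [h3, h4, h1, h2]
  have h5 : (r ^ 3 * u + t ^ 3 * v) * (u + v) ^ 2 - (r * u + t * v) ^ 3
      = u * v * (r - t) ^ 2 * (u * (2 * r + t) + v * (r + 2 * t)) := by ring
  have h6 : 0 ≤ u * v * (r - t) ^ 2 * (u * (2 * r + t) + v * (r + 2 * t)) := by positivity
  linarith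

lemma sqrt_three {A B C m1 m2 : ℝ} (hA : 0 < A) (hB : 0 < B) (hC : 0 < C) (hm1 : 0 < m1)
    (hm2 : 0 < m2) (h : m1 ^ 3 * A + m2 ^ 3 * B ≤ 2 * (((m1 + m2) / 2) ^ 3 * C)) :
    (Real.sqrt C)⁻¹ ≤ ((Real.sqrt A)⁻¹ + (Real.sqrt B)⁻¹) / 2 := by
  set u := (Real.sqrt A)⁻¹ with hu
  set v := (Real.sqrt B)⁻¹ with hv
  set w := (Real.sqrt C)⁻¹ with hw
  have hu0 : 0 < u := by positivity
  have hv0 : 0 < v := by positivity
  have hw0 : 0 < w := by positivity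
  have hA' : A = 1 / u ^ 2 := by
    rw [hu, inv_pow, Real.sq_sqrt hA.le]; field_simp
  have hB' : B = 1 / v ^ 2 := by
    rw [hv, inv_pow, Real.sq_sqrt hB.le]; field_simp
  have hC' : C = 1 / w ^ 2 := by
    rw [hw, inv_pow, Real.sq_sqrt hC.le]; field_simp
  have h1 := holder_three hu0 hv0 hm1 hm2
  have h2 : m1 ^ 3 / u ^ 2 + m2 ^ 3 / v ^ 2 = m1 ^ 3 * A + m2 ^ 3 * B := by
    rw [hA', hB']; ring
  rw [h2] at h1
  have h3 : (m1 + m2) ^ 3 ≤ (2 * (((m1 + m2) / 2) ^ 3 * C)) * (u + v) ^ 2 :=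
    h1.trans (mul_le_mul_of_nonneg_right h (by positivity))
  have h4 : (2 * (((m1 + m2) / 2) ^ 3 * C)) * (u + v) ^ 2
      = (m1 + m2) ^ 3 * ((u + v) ^ 2 / (4 * w ^ 2)) := by
    rw [hC']; field_simp; ring
  rw [h4] at h3
  have h6 : 0 < (m1 + m2) ^ 3 := by positivity
  have h7 : 1 ≤ (u + v) ^ 2 / (4 * w ^ 2) := by
    by_contra hlt
    push Not at hlt
    nlinarith
  rw [one_le_div (by positivity)] at h7
  nlinarith

/-! ### Finiteness -/

lemma majorant_ne_top {E : Type*} [NormedAddCommGroup E] [NormedSpace ℝ E] [FiniteDimensional ℝ E]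
    [MeasurableSpace E] [BorelSpace E] (μ : Measure E) [μ.IsAddHaarMeasure] {c : ℝ} (hc : 0 < c)
    (hE : (Module.finrank ℝ E : ℝ) < 3) :
    ∫⁻ y : E, ENNReal.ofReal (((c * (1 + ‖y‖))⁻¹) ^ 3) ∂μ ≠ ⊤ := by
  have hi := (integrable_one_add_norm (E := E) (μ := μ) hE).const_mul ((c⁻¹) ^ 3)
  have hl := hi.lintegral_lt_top
  refine ne_of_lt (lt_of_le_of_lt (le_of_eq ?_) hl)
  apply lintegral_congr
  intro y
  congr 1
  have h1 : (0 : ℝ) < 1 + ‖y‖ := by positivity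
  rw [Real.rpow_neg h1.le, mul_inv, mul_pow]
  congr 1
  rw [inv_pow]
  congr 1
  exact (Real.rpow_natCast _ 3).symm

/-- The one-variable majorant. -/
noncomputable def K0 (c : ℝ) : ℝ≥0∞ := ∫⁻ y : ℝ, ENNReal.ofReal (((c * (1 + ‖y‖))⁻¹) ^ 3)

lemma K0_ne_top {c : ℝ} (hc : 0 < c) : K0 c ≠ ⊤ :=
  majorant_ne_top volume hc (by simp)

end BBL

open BBL

theorem I3_ne_top (ψ : ℝ × ℝ → ℝ) (c : ℝ) (hc : 0 < c) (m : Continuous ψ)
    (b : ∀ w, c * (1 + |w.1| + |w.2|) ≤ ψ w) : I3 ψ ≠ ⊤ := by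
  have h := majorant_ne_top (volume : Measure (ℝ × ℝ)) hc (by simp; norm_num)
  refine ne_top_of_le_ne_top h ?_
  unfold I3
  apply lintegral_mono
  intro w
  apply ENNReal.ofReal_le_ofReal
  have h1 : c * (1 + ‖w‖) ≤ ψ w := by
    refine le_trans ?_ (b w)
    apply mul_le_mul_of_nonneg_left _ hc.le
    have h2 : ‖w‖ ≤ |w.1| + |w.2| := by
      rw [Prod.norm_def, Real.norm_eq_abs, Real.norm_eq_abs]
      exact max_le (le_add_of_nonneg_right (abs_nonneg _)) (le_add_of_nonneg_left (abs_nonneg _))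
    linarith
  have h3 : 0 < c * (1 + ‖w‖) := by positivity
  have h4 : 0 < ψ w := lt_of_lt_of_le h3 h1
  exact pow_le_pow_left₀ (by positivity) (inv_anti₀ h3 h1) 3

theorem I3_ne_zero (ψ : ℝ × ℝ → ℝ) (m : Continuous ψ) (b : ∀ w, 0 < ψ w) : I3 ψ ≠ 0 := by
  intro h
  unfold I3 at h
  have hmeas : Measurable (fun w : ℝ × ℝ => ENNReal.ofReal ((ψ w)⁻¹ ^ 3)) :=
    ((m.measurable.inv).pow_const 3).ennreal_ofReal
  rw [lintegral_eq_zero_iff hmeas] at h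
  haveI : (ae (volume : Measure (ℝ × ℝ))).NeBot := ae_neBot.2 (NeZero.ne _)
  obtain ⟨w, hw⟩ := h.exists
  have h0 : 0 < (ψ w)⁻¹ ^ 3 := by
    have := b w
    positivity
  simp only [Pi.zero_apply, ENNReal.ofReal_eq_zero] at hw
  linarith

namespace BBL

/-- The slice integral. -/
noncomputable def Sl (ψ : ℝ × ℝ → ℝ) (a : ℝ) : ℝ≥0∞ := Iq 3 (fun y => ψ (a, y))

lemma Sl_measurable {ψ : ℝ × ℝ → ℝ} (m : Continuous ψ) : Measurable (Sl ψ) := by
  have hmeas : Measurable (fun w : ℝ × ℝ => ENNReal.ofReal ((ψ w)⁻¹ ^ 3)) :=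
    ((m.measurable.inv).pow_const 3).ennreal_ofReal
  exact hmeas.lintegral_prod_right'

lemma Sl_le {ψ : ℝ × ℝ → ℝ} {c : ℝ} (hc : 0 < c)
    (b : ∀ w, c * (1 + |w.1| + |w.2|) ≤ ψ w) (a : ℝ) : Sl ψ a ≤ K0 c := by
  unfold Sl Iq K0
  apply lintegral_mono
  intro y
  apply ENNReal.ofReal_le_ofReal
  have h1 : c * (1 + ‖y‖) ≤ ψ (a, y) := by
    refine le_trans ?_ (b (a, y))
    apply mul_le_mul_of_nonneg_left _ hc.le
    have := abs_nonneg a
    rw [Real.norm_eq_abs]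
    simp only
    linarith
  have h3 : 0 < c * (1 + ‖y‖) := by positivity
  have h4 : 0 < ψ (a, y) := lt_of_lt_of_le h3 h1
  exact pow_le_pow_left₀ (by positivity) (inv_anti₀ h3 h1) 3

lemma Sl_ne_top {ψ : ℝ × ℝ → ℝ} {c : ℝ} (hc : 0 < c)
    (b : ∀ w, c * (1 + |w.1| + |w.2|) ≤ ψ w) (a : ℝ) : Sl ψ a ≠ ⊤ :=
  ne_top_of_le_ne_top (K0_ne_top hc) (Sl_le hc b a)

lemma pos_of_bound {ψ : ℝ × ℝ → ℝ} {c : ℝ} (hc : 0 < c)
    (b : ∀ w, c * (1 + |w.1| + |w.2|) ≤ ψ w) (w : ℝ × ℝ) : 0 < ψ w := by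
  refine lt_of_lt_of_le ?_ (b w)
  positivity

lemma Sl_ne_zero {ψ : ℝ × ℝ → ℝ} {c : ℝ} (hc : 0 < c) (m : Continuous ψ)
    (b : ∀ w, c * (1 + |w.1| + |w.2|) ≤ ψ w) (a : ℝ) : Sl ψ a ≠ 0 := by
  intro h
  unfold Sl Iq at h
  have hm : Measurable (fun y : ℝ => ψ (a, y)) := (m.comp (by fun_prop)).measurable
  have hmeas : Measurable (fun y : ℝ => ENNReal.ofReal ((ψ (a, y))⁻¹ ^ 3)) :=
    ((hm.inv).pow_const 3).ennreal_ofReal
  rw [lintegral_eq_zero_iff hmeas] at h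
  haveI : (ae (volume : Measure ℝ)).NeBot := ae_neBot.2 (NeZero.ne _)
  obtain ⟨y, hy⟩ := h.exists
  have h0 : 0 < (ψ (a, y))⁻¹ ^ 3 := by
    have := pos_of_bound hc b (a, y)
    positivity
  simp only [Pi.zero_apply, ENNReal.ofReal_eq_zero] at hy
  linarith

lemma I3_eq {ψ : ℝ × ℝ → ℝ} (m : Continuous ψ) : I3 ψ = ∫⁻ a, Sl ψ a := by
  have hmeas : Measurable (fun w : ℝ × ℝ => ENNReal.ofReal ((ψ w)⁻¹ ^ 3)) :=
    ((m.measurable.inv).pow_const 3).ennreal_ofReal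
  unfold I3 Sl Iq
  rw [Measure.volume_eq_prod, lintegral_prod _ hmeas.aemeasurable]

/-- The inverse square root of the slice integral. -/
noncomputable def Ps (ψ : ℝ × ℝ → ℝ) (a : ℝ) : ℝ := (Real.sqrt (Sl ψ a).toReal)⁻¹

lemma Ps_measurable {ψ : ℝ × ℝ → ℝ} (m : Continuous ψ) : Measurable (Ps ψ) :=
  ((Sl_measurable m).ennreal_toReal.sqrt).inv

lemma Sl_toReal_pos {ψ : ℝ × ℝ → ℝ} {c : ℝ} (hc : 0 < c) (m : Continuous ψ)
    (b : ∀ w, c * (1 + |w.1| + |w.2|) ≤ ψ w) (a : ℝ) : 0 < (Sl ψ a).toReal :=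
  ENNReal.toReal_pos (Sl_ne_zero hc m b a) (Sl_ne_top hc b a)

lemma Ps_pos {ψ : ℝ × ℝ → ℝ} {c : ℝ} (hc : 0 < c) (m : Continuous ψ)
    (b : ∀ w, c * (1 + |w.1| + |w.2|) ≤ ψ w) (a : ℝ) : 0 < Ps ψ a := by
  unfold Ps
  have := Sl_toReal_pos hc m b a
  positivity

lemma Iq_two_Ps {ψ : ℝ × ℝ → ℝ} {c : ℝ} (hc : 0 < c) (m : Continuous ψ)
    (b : ∀ w, c * (1 + |w.1| + |w.2|) ≤ ψ w) : Iq 2 (Ps ψ) = I3 ψ := by
  rw [I3_eq m]
  unfold Iq
  apply lintegral_congr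
  intro a
  unfold Ps
  rw [inv_inv, Real.sq_sqrt ENNReal.toReal_nonneg, ENNReal.ofReal_toReal (Sl_ne_top hc b a)]

lemma Ps_lower {ψ : ℝ × ℝ → ℝ} {c : ℝ} (hc : 0 < c) (m : Continuous ψ)
    (b : ∀ w, c * (1 + |w.1| + |w.2|) ≤ ψ w) (a : ℝ) :
    (Real.sqrt (K0 c).toReal)⁻¹ ≤ Ps ψ a := by
  unfold Ps
  have h1 := Sl_toReal_pos hc m b a
  have h2 : (Sl ψ a).toReal ≤ (K0 c).toReal := ENNReal.toReal_mono (K0_ne_top hc) (Sl_le hc b a)
  exact inv_anti₀ (Real.sqrt_pos.2 h1) (Real.sqrt_le_sqrt h2)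

lemma K0_toReal_pos {ψ : ℝ × ℝ → ℝ} {c : ℝ} (hc : 0 < c) (m : Continuous ψ)
    (b : ∀ w, c * (1 + |w.1| + |w.2|) ≤ ψ w) : 0 < (K0 c).toReal :=
  lt_of_lt_of_le (Sl_toReal_pos hc m b 0) (ENNReal.toReal_mono (K0_ne_top hc) (Sl_le hc b 0))

lemma Ps_mid {ψ0 ψ1 ψ2 : ℝ × ℝ → ℝ} {c : ℝ} (hc : 0 < c)
    (m0 : Continuous ψ0) (m1 : Continuous ψ1) (m2 : Continuous ψ2)
    (b0 : ∀ w, c * (1 + |w.1| + |w.2|) ≤ ψ0 w)
    (b1 : ∀ w, c * (1 + |w.1| + |w.2|) ≤ ψ1 w)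
    (b2 : ∀ w, c * (1 + |w.1| + |w.2|) ≤ ψ2 w)
    (mid : ∀ w1 w2 : ℝ × ℝ, ψ0 ((1 / 2 : ℝ) • (w1 + w2)) ≤ (ψ1 w1 + ψ2 w2) / 2) (a d : ℝ) :
    Ps ψ0 ((a + d) / 2) ≤ (Ps ψ1 a + Ps ψ2 d) / 2 := by
  have hf : Measurable (fun y : ℝ => ψ1 (a, y)) := (m1.comp (by fun_prop)).measurable
  have hg : Measurable (fun y : ℝ => ψ2 (d, y)) := (m2.comp (by fun_prop)).measurable
  have hk : Measurable (fun y : ℝ => ψ0 ((a + d) / 2, y)) := (m0.comp (by fun_prop)).measurable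
  have hfδ : ∀ y, c ≤ ψ1 (a, y) := by
    intro y
    have := b1 (a, y)
    have h3 : c * 1 ≤ c * (1 + |a| + |y|) := by
      apply mul_le_mul_of_nonneg_left _ hc.le
      have := abs_nonneg a
      have := abs_nonneg y
      linarith
    simp only at this
    linarith
  have hgδ : ∀ y, c ≤ ψ2 (d, y) := by
    intro y
    have := b2 (d, y)
    have h3 : c * 1 ≤ c * (1 + |d| + |y|) := by
      apply mul_le_mul_of_nonneg_left _ hc.le
      have := abs_nonneg d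
      have := abs_nonneg y
      linarith
    simp only at this
    linarith
  have hkpos : ∀ y, 0 < ψ0 ((a + d) / 2, y) := fun y => pos_of_bound hc b0 _
  have hmid : ∀ y z, ψ0 ((a + d) / 2, (y + z) / 2) ≤ (ψ1 (a, y) + ψ2 (d, z)) / 2 := by
    intro y z
    have h4 := mid (a, y) (d, z)
    have h5 : (1 / 2 : ℝ) • ((a, y) + (d, z)) = ((a + d) / 2, (y + z) / 2) := by
      ext <;> simp <;> ring
    rwa [h5] at h4
  obtain ⟨m₁, m₂, hm₁, hm₂, h⟩ := core_real 3 (by norm_num) hf hg hk hc hfδ hgδ hkpos hmid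
    (Sl_ne_top hc b0 _)
  exact sqrt_three (Sl_toReal_pos hc m1 b1 a) (Sl_toReal_pos hc m2 b2 d)
    (Sl_toReal_pos hc m0 b0 _) hm₁ hm₂ h

end BBL

theorem bbl_plane (ψ0 ψ1 ψ2 : ℝ × ℝ → ℝ) (c : ℝ) (hc : 0 < c)
    (m0 : Continuous ψ0) (m1 : Continuous ψ1) (m2 : Continuous ψ2)
    (b0 : ∀ w, c * (1 + |w.1| + |w.2|) ≤ ψ0 w)
    (b1 : ∀ w, c * (1 + |w.1| + |w.2|) ≤ ψ1 w)
    (b2 : ∀ w, c * (1 + |w.1| + |w.2|) ≤ ψ2 w)
    (mid : ∀ w1 w2 : ℝ × ℝ, ψ0 ((1 / 2 : ℝ) • (w1 + w2)) ≤ (ψ1 w1 + ψ2 w2) / 2) :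
    2 / (I3 ψ0).toReal ≤ 1 / (I3 ψ1).toReal + 1 / (I3 ψ2).toReal := by
  have hK := K0_toReal_pos hc m1 b1
  have hδ : 0 < (Real.sqrt (K0 c).toReal)⁻¹ := by positivity
  obtain ⟨m₁, m₂, hm₁, hm₂, h⟩ := core_real 2 (by norm_num) (Ps_measurable m1) (Ps_measurable m2)
    (Ps_measurable m0) hδ (Ps_lower hc m1 b1) (Ps_lower hc m2 b2) (Ps_pos hc m0 b0)
    (Ps_mid hc m0 m1 m2 b0 b1 b2 mid)
    (by rw [Iq_two_Ps hc m0 b0]; exact I3_ne_top ψ0 c hc m0 b0)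
  rw [Iq_two_Ps hc m0 b0, Iq_two_Ps hc m1 b1, Iq_two_Ps hc m2 b2] at h
  have pos : ∀ ψ : ℝ × ℝ → ℝ, Continuous ψ → (∀ w, c * (1 + |w.1| + |w.2|) ≤ ψ w) →
      0 < (I3 ψ).toReal := fun ψ hm hb =>
    ENNReal.toReal_pos (I3_ne_zero ψ hm (pos_of_bound hc hb)) (I3_ne_top ψ c hc hm hb)
  exact harm_two (pos ψ1 m1 b1) (pos ψ2 m2 b2) (pos ψ0 m0 b0) hm₁ hm₂ h

end Vale.Agent.Lib.P248
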