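import Vale.Agent.Lib.P248.Defs

open MeasureTheory Set

namespace Vale.Agent.Lib.P248

theorem dot2_comm (x y : ℝ × ℝ) : dot2 x y = dot2 y x := by
  simp only [dot2]; ring

theorem dot_comm (x y : F) : dot x y = dot y x := by
  simp only [dot, dot2]; ring

theorem dot_add_right (y a b : F) : dot y (a + b) = dot y a + dot y b := by
  simp only [dot, dot2, Prod.fst_add, Prod.snd_add]; ring

theorem dot_add_left (y a b : F) : dot (a + b) y = dot a y + dot b y := by
  simp only [dot, dot2, Prod.fst_add, Prod.snd_add]; ring

theorem dot_smul_right (y a : F) (c : ℝ) : dot y (c • a) = c * dot y a := by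
  simp only [dot, dot2, Prod.smul_fst, Prod.smul_snd, smul_eq_mul]; ring

theorem dot_smul_left (y a : F) (c : ℝ) : dot (c • a) y = c * dot a y := by
  simp only [dot, dot2, Prod.smul_fst, Prod.smul_snd, smul_eq_mul]; ring

theorem dot_sub_right (y a b : F) : dot y (a - b) = dot y a - dot y b := by
  simp only [dot, dot2, Prod.fst_sub, Prod.snd_sub]; ring

theorem dot_sub_left (y a b : F) : dot (a - b) y = dot a y - dot b y := by
  simp only [dot, dot2, Prod.fst_sub, Prod.snd_sub]; ring

theorem dot_neg_right (y a : F) : dot y (-a) = - dot y a := by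
  simp only [dot, dot2, Prod.fst_neg, Prod.snd_neg]; ring

theorem dot_neg_left (y a : F) : dot (-a) y = - dot a y := by
  simp only [dot, dot2, Prod.fst_neg, Prod.snd_neg]; ring

@[simp] theorem dot_zero_right (y : F) : dot y 0 = 0 := by
  simp [dot, dot2]

@[simp] theorem dot_zero_left (y : F) : dot 0 y = 0 := by
  simp [dot, dot2]

theorem dot_sum_right {ι : Type*} (s : Finset ι) (y : F) (f : ι → F) :
    dot y (∑ i ∈ s, f i) = ∑ i ∈ s, dot y (f i) := by
  classical
  induction s using Finset.induction_on with
  | empty => simp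
  | insert a s ha ih => rw [Finset.sum_insert ha, Finset.sum_insert ha, dot_add_right, ih]

/-- The dot product with `y` as a linear map. -/
noncomputable def dotL (y : F) : F →ₗ[ℝ] ℝ where
  toFun := dot y
  map_add' := dot_add_right y
  map_smul' := by intro c x; simp [dot_smul_right]

@[simp] theorem dotL_apply (y x : F) : dotL y x = dot y x := rfl

theorem continuous_dot_right (y : F) : Continuous (fun x => dot y x) := by
  simp only [dot, dot2]; fun_prop

theorem continuous_dot_left (x : F) : Continuous (fun y => dot y x) := by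
  simp only [dot, dot2]; fun_prop

/-- Nondegeneracy of the dot product. -/
theorem eq_zero_of_dot_all (y : F) (h : ∀ x, dot y x = 0) : y = 0 := by
  have h1 := h ((1, 0), 0)
  have h2 := h ((0, 1), 0)
  have h3 := h ((0, 0), 1)
  simp only [dot, dot2, mul_one, mul_zero, add_zero, zero_add] at h1 h2 h3
  ext <;> simp_all

/-- A vector orthogonal to a spanning set vanishes. -/
theorem eq_zero_of_span_top {A : Set F} (hA : Submodule.span ℝ A = ⊤) (y : F)
    (h : ∀ a ∈ A, dot y a = 0) : y = 0 := by
  apply eq_zero_of_dot_all
  intro x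
  have hx : x ∈ Submodule.span ℝ A := by rw [hA]; trivial
  induction hx using Submodule.span_induction with
  | mem a ha => exact h a ha
  | zero => simp
  | add a b _ _ ha hb => rw [dot_add_right, ha, hb, add_zero]
  | smul c a _ ha => rw [dot_smul_right, ha, mul_zero]

/-- A linear inequality on a set extends to the convex hull. -/
theorem dot_le_of_mem_convexHull {S : Set F} {y : F} {c : ℝ} (h : ∀ x ∈ S, dot y x ≤ c)
    {u : F} (hu : u ∈ convexHull ℝ S) : dot y u ≤ c := by
  have hconv : Convex ℝ {u | dot y u ≤ c} := by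
    intro a ha b hb s t hs ht hst
    change dot y a ≤ c at ha
    change dot y b ≤ c at hb
    change dot y (s • a + t • b) ≤ c
    rw [dot_add_right, dot_smul_right, dot_smul_right]
    have h3 : s * c + t * c = c := by rw [← add_mul, hst, one_mul]
    nlinarith [mul_le_mul_of_nonneg_left ha hs, mul_le_mul_of_nonneg_left hb ht]
  exact convexHull_min h hconv hu

/-- Same for the other argument. -/
theorem dot_le_of_mem_convexHull_left {S : Set F} {x : F} {c : ℝ} (h : ∀ y ∈ S, dot y x ≤ c)
    {u : F} (hu : u ∈ convexHull ℝ S) : dot u x ≤ c := by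
  rw [dot_comm]
  exact dot_le_of_mem_convexHull (fun y hy => by rw [dot_comm]; exact h y hy) hu

theorem polarSet_convex (S : Set F) : Convex ℝ (polarSet S) := by
  intro a ha b hb s t hs ht hst x hx
  rw [dot_add_left, dot_smul_left, dot_smul_left]
  have h3 : s * 1 + t * 1 = 1 := by rw [← add_mul, hst, one_mul]
  nlinarith [mul_le_mul_of_nonneg_left (ha x hx) hs, mul_le_mul_of_nonneg_left (hb x hx) ht]

theorem polarSet_closed (S : Set F) : IsClosed (polarSet S) := by
  have : polarSet S = ⋂ x ∈ S, {y | dot y x ≤ 1} := by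
    ext y; simp [polarSet]
  rw [this]
  exact isClosed_biInter fun x _ => isClosed_le (continuous_dot_left x) continuous_const

theorem polarSet_convexHull (S : Set F) : polarSet (convexHull ℝ S) = polarSet S := by
  apply Subset.antisymm
  · intro y hy x hx
    exact hy x (subset_convexHull ℝ S hx)
  · intro y hy x hx
    exact dot_le_of_mem_convexHull hy hx

theorem mem_tightPts {X : Finset F} {n x : F} : x ∈ tightPts X n ↔ x ∈ X ∧ dot n x = 1 := by
  classical
  simp only [tightPts, Finset.mem_filter]

theorem mem_tightNrm {N : Finset F} {n x : F} : n ∈ tightNrm N x ↔ n ∈ N ∧ dot n x = 1 := by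
  classical
  simp only [tightNrm, Finset.mem_filter]

/-- Functionals on `F` are given by the dot product. -/
theorem exists_dot_eq (f : F →ₗ[ℝ] ℝ) : ∃ y : F, ∀ x, f x = dot y x := by
  refine ⟨((f ((1, 0), 0), f ((0, 1), 0)), f ((0, 0), 1)), ?_⟩
  rintro ⟨⟨a, b⟩, c⟩
  have : (((a, b), c) : F) = a • ((1, 0), 0) + b • ((0, 1), 0) + c • ((0, 0), 1) := by
    simp
  rw [this]
  simp only [map_add, map_smul, smul_eq_mul, dot, dot2]
  simp
  ring

end Vale.Agent.Lib.P248
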