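import Vale.Agent.Lib.P248.PairTheory

open MeasureTheory Set

namespace Vale.Agent.Lib.P248

/-- Projection of the polytope to the plane. -/
def Dset (X : Finset F) : Set (ℝ × ℝ) := convexHull ℝ (Prod.fst '' (X : Set F))

/-- Projection of a facet to the plane. -/
noncomputable def Cset (X : Finset F) (n : F) : Set (ℝ × ℝ) :=
  convexHull ℝ (Prod.fst '' (tightPts X n : Set F))

theorem fst_convexHull (s : Set F) :
    Prod.fst '' convexHull ℝ s = convexHull ℝ (Prod.fst '' s) :=
  (LinearMap.fst ℝ (ℝ × ℝ) ℝ).image_convexHull s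

theorem mem_Dset_iff {X : Finset F} {q : ℝ × ℝ} :
    q ∈ Dset X ↔ ∃ y, (q, y) ∈ convexHull ℝ (X : Set F) := by
  unfold Dset
  rw [← fst_convexHull]
  constructor
  · rintro ⟨u, hu, rfl⟩
    exact ⟨u.2, hu⟩
  · rintro ⟨y, hy⟩
    exact ⟨_, hy, rfl⟩

theorem Pair.isCompact_conv {X N : Finset F} (_h : Pair X N) :
    IsCompact (convexHull ℝ (X : Set F)) := X.finite_toSet.isCompact_convexHull ℝ

theorem abs_fst_snd_small (ρ : ℝ) (hρ : 0 < ρ) (q : ℝ × ℝ) (hq : ‖q‖ < ρ / 2) :
    |q.1| + |q.2| ≤ ρ := by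
  have h1 : |q.1| ≤ ‖q‖ := by
    rw [← Real.norm_eq_abs]; exact norm_fst_le q
  have h2 : |q.2| ≤ ‖q‖ := by
    rw [← Real.norm_eq_abs]; exact norm_snd_le q
  linarith

theorem zero_mem_interior_Dset {X N : Finset F} (h : Pair X N) : (0 : ℝ × ℝ) ∈ interior (Dset X) := by
  obtain ⟨ρ, hρ, hb⟩ := h.ball
  rw [mem_interior]
  refine ⟨Metric.ball 0 (ρ / 2), ?_, Metric.isOpen_ball, by simp [hρ]⟩
  intro q hq
  rw [mem_Dset_iff]
  refine ⟨0, hb _ ?_⟩
  have := abs_fst_snd_small ρ hρ q (by simpa using hq)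
  simpa using this

theorem dot2_le_of_mem_Dset {X N : Finset F} (h : Pair X N) (n : F) (hn : n ∈ N) (h2 : n.2 = 0)
    {q : ℝ × ℝ} (hq : q ∈ Dset X) : dot2 n.1 q ≤ 1 := by
  obtain ⟨y, hy⟩ := mem_Dset_iff.1 hq
  have := dot_le_of_mem_convexHull (fun x hx => h.le x hx n hn) hy
  simpa [dot, h2] using this

/-- Points of the interior of the projection can be pushed a little in any direction. -/
theorem exists_pos_add_mem {D : Set (ℝ × ℝ)} {q : ℝ × ℝ} (hq : q ∈ interior D) (v : ℝ × ℝ) :
    ∃ ε : ℝ, 0 < ε ∧ q + ε • v ∈ D := by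
  have hc : ContinuousAt (fun ε : ℝ => q + ε • v) 0 := by fun_prop
  have h1 : interior D ∈ nhds (q + (0 : ℝ) • v) := by
    simpa using isOpen_interior.mem_nhds hq
  have h2 := hc.eventually_mem h1
  have h3 : ∀ᶠ ε in nhdsWithin (0 : ℝ) (Ioi 0), q + ε • v ∈ interior D :=
    nhdsWithin_le_nhds h2
  obtain ⟨ε, h4, h5⟩ := (h3.and self_mem_nhdsWithin).exists
  exact ⟨ε, h5, interior_subset h4⟩

/-- Every point of the interior of the projection lies under a facet of the requested side. -/
theorem cover {X N : Finset F} (h : Pair X N) (σ : ℝ) (hσ : σ ≠ 0) (q : ℝ × ℝ)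
    (hq : q ∈ interior (Dset X)) : ∃ n ∈ N, 0 < σ * n.2 ∧ q ∈ Cset X n := by
  classical
  have hK := h.isCompact_conv
  set K := convexHull ℝ (X : Set F) with hKdef
  have hT : IsCompact (Prod.snd '' (K ∩ Prod.fst ⁻¹' {q})) :=
    (hK.inter_right (isClosed_singleton.preimage continuous_fst)).image continuous_snd
  have hTne : (Prod.snd '' (K ∩ Prod.fst ⁻¹' {q})).Nonempty := by
    obtain ⟨y, hy⟩ := mem_Dset_iff.1 (interior_subset hq)
    exact ⟨y, (q, y), ⟨hy, rfl⟩, rfl⟩
  obtain ⟨y0, hy0, hmax⟩ := hT.exists_isMaxOn hTne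
    (f := fun y => σ * y) (by fun_prop)
  obtain ⟨b, ⟨hbK, hbq⟩, hby⟩ := hy0
  have hbq' : b.1 = q := hbq
  have hb : b = (q, y0) := by
    ext <;> simp [hbq', hby]
  subst hb
  -- the fibre is a maximum
  have hmaxK : ∀ y, (q, y) ∈ K → σ * y ≤ σ * y0 := by
    intro y hy
    exact hmax ⟨(q, y), ⟨hy, rfl⟩, rfl⟩
  have hle : ∀ n ∈ N, dot n (q, y0) ≤ 1 := fun n hn =>
    dot_le_of_mem_convexHull (fun x hx => h.le x hx n hn) hbK
  -- a tight normal exists
  obtain ⟨n, hn, htight⟩ : ∃ n ∈ N, dot n (q, y0) = 1 := by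
    by_contra hcon
    push Not at hcon
    have hlt : ∀ n ∈ N, dot n (q, y0) < 1 := fun n hn => lt_of_le_of_ne (hle n hn) (hcon n hn)
    have hev : ∀ᶠ ε in nhdsWithin (0 : ℝ) (Ioi 0), ∀ n ∈ N, dot n (q, y0 + ε * σ) ≤ 1 := by
      rw [Filter.eventually_all_finset]
      intro n hn
      have hc : Continuous (fun ε : ℝ => dot n (q, y0 + ε * σ)) := by
        simp only [dot, dot2]; fun_prop
      have h1 : ∀ᶠ ε in nhds (0 : ℝ), dot n (q, y0 + ε * σ) < 1 := by
        apply hc.continuousAt.eventually_lt continuousAt_const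
        simpa using hlt n hn
      filter_upwards [nhdsWithin_le_nhds h1] with ε hε using hε.le
    obtain ⟨ε, hε, hε0⟩ := (hev.and self_mem_nhdsWithin).exists
    have hε0' : (0 : ℝ) < ε := hε0
    have hmem : (q, y0 + ε * σ) ∈ K := h.conv_x _ hε
    have := hmaxK _ hmem
    have h3 : 0 < ε * (σ * σ) := mul_pos hε0' (mul_self_pos.2 hσ)
    nlinarith
  refine ⟨n, hn, ?_, ?_⟩
  · -- sign of the normal
    by_contra hneg
    push Not at hneg
    rcases eq_or_ne n.2 0 with hn0 | hn0
    · -- vertical normal contradicts interior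
      obtain ⟨ε, hε, hmem⟩ := exists_pos_add_mem hq n.1
      have h1 := dot2_le_of_mem_Dset h n hn hn0 hmem
      have h2 : dot2 n.1 q = 1 := by simpa [dot, hn0] using htight
      have h3 : dot2 n.1 (q + ε • n.1) = dot2 n.1 q + ε * dot2 n.1 n.1 := by
        simp only [dot2, Prod.fst_add, Prod.snd_add, Prod.smul_fst, Prod.smul_snd, smul_eq_mul]
        ring
      rw [h3, h2] at h1
      have h4 : dot2 n.1 n.1 = 0 := by
        have h5 : 0 ≤ dot2 n.1 n.1 := by simp only [dot2]; nlinarith [sq_nonneg n.1.1, sq_nonneg n.1.2]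
        nlinarith
      have h5 : n.1.1 = 0 ∧ n.1.2 = 0 := by
        simp only [dot2] at h4
        constructor <;> nlinarith [sq_nonneg n.1.1, sq_nonneg n.1.2]
      simp only [dot2, h5.1, h5.2] at h2
      norm_num at h2
    · -- the normal points the wrong way
      have hneg' : σ * n.2 < 0 := lt_of_le_of_ne hneg (mul_ne_zero hσ hn0)
      obtain ⟨ρ, hρ, hball⟩ := h.ball
      -- push `q` outwards
      obtain ⟨ε, hε, hmem⟩ := exists_pos_add_mem hq q
      obtain ⟨y', hy'⟩ := mem_Dset_iff.1 hmem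
      have hA : ((0 : ℝ × ℝ), ρ) ∈ K := hball _ (by simp [abs_of_pos hρ])
      have hB : ((0 : ℝ × ℝ), -ρ) ∈ K := hball _ (by simp [abs_of_pos hρ])
      have hconv := convex_convexHull ℝ (X : Set F)
      have ha : (0 : ℝ) ≤ 1 / (1 + ε) := by positivity
      have hb : (0 : ℝ) ≤ ε / (1 + ε) := by positivity
      have hab : 1 / (1 + ε) + ε / (1 + ε) = 1 := by field_simp
      have hP1 := hconv hy' hA ha hb hab
      have hP2 := hconv hy' hB ha hb hab
      have e1 : (1 / (1 + ε)) • ((q + ε • q, y') : F) + (ε / (1 + ε)) • (((0 : ℝ × ℝ), ρ) : F) =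
          (q, (y' + ε * ρ) / (1 + ε)) := by
        ext <;> simp <;> field_simp <;> ring
      have e2 : (1 / (1 + ε)) • ((q + ε • q, y') : F) + (ε / (1 + ε)) • (((0 : ℝ × ℝ), -ρ) : F) =
          (q, (y' - ε * ρ) / (1 + ε)) := by
        ext <;> simp <;> field_simp <;> ring
      rw [e1] at hP1
      rw [e2] at hP2
      have hm1 := hmaxK _ hP1
      have hm2 := hmaxK _ hP2
      have hdiff : (y' + ε * ρ) / (1 + ε) - (y' - ε * ρ) / (1 + ε) = 2 * (ε * ρ / (1 + ε)) := by
        field_simp; ring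
      have hpos : 0 < ε * ρ / (1 + ε) := by positivity
      -- the point on the wrong side violates the inequality
      have key : ∀ y, (q, y) ∈ K → n.2 * (y - y0) ≤ 0 := by
        intro y hy
        have h1 := dot_le_of_mem_convexHull (fun x hx => h.le x hx n hn) hy
        have h2 : dot n (q, y) = dot n (q, y0) + n.2 * (y - y0) := by
          simp only [dot]; ring
        rw [h2, htight] at h1
        linarith
      have k1 := key _ hP1
      have k2 := key _ hP2
      -- conclude from the signs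
      have hs : 0 < σ ^ 2 := by positivity
      rcases lt_or_gt_of_ne hσ with hσneg | hσpos
      · -- σ < 0 : then n.2 > 0 and heights are bounded below by y0
        have hn2 : 0 < n.2 := by
          by_contra hc
          push Not at hc
          nlinarith [mul_nonneg_of_nonpos_of_nonpos hσneg.le hc]
        have h5 : (y' - ε * ρ) / (1 + ε) ≥ y0 := by
          by_contra hc
          push Not at hc
          nlinarith [mul_lt_mul_of_neg_left hc hσneg]
        nlinarith [mul_pos hn2 hpos]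
      · have hn2 : n.2 < 0 := by
          by_contra hc
          push Not at hc
          nlinarith [mul_nonneg hσpos.le hc]
        have h5 : (y' + ε * ρ) / (1 + ε) ≤ y0 := by
          by_contra hc
          push Not at hc
          nlinarith [mul_lt_mul_of_pos_left hc hσpos]
        nlinarith [mul_pos_of_neg_of_neg hn2 (by linarith : -(ε * ρ / (1 + ε)) < 0)]
  · -- the point lies in the projected facet
    have hface := mem_convexHull_tight (fun x hx => h.le x hx n hn) hbK htight
    unfold Cset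
    rw [← fst_convexHull]
    exact ⟨_, hface, rfl⟩

end Vale.Agent.Lib.P248
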