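import Vale.Agent.Lib.P248.Chord1

open MeasureTheory Set

namespace Vale.Agent.Lib.P248

/-- Moved normal of a facet. -/
def mv (n l : F) (t : ℝ) : F :=
  ((n.1.1 - t * (n.2 * l.1.1 - l.2 * n.1.1), n.1.2 - t * (n.2 * l.1.2 - l.2 * n.1.2)), n.2)

/-- Moved right hand side of a facet. -/
def cst (l : F) (t : ℝ) : ℝ := 1 + t * l.2

/-- Rate at which the slack of `x` changes. -/
def Dn (n l : F) (α : F → ℝ) (x : F) : ℝ :=
  n.2 * dot2 l.1 x.1 + l.2 * (1 - dot2 n.1 x.1) - n.2 * α x

/-- Moved point. -/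
def mvd (α : F → ℝ) (t : ℝ) (x : F) : F := (x.1, x.2 + t * α x)

theorem mv_spec (n l : F) (α : F → ℝ) (t : ℝ) (x : F) :
    dot (mv n l t) (mvd α t x) - cst l t = -(1 - dot n x) - t * Dn n l α x := by
  simp only [dot, dot2, mv, cst, Dn, mvd]; ring

@[simp] theorem mv_snd (n l : F) (t : ℝ) : (mv n l t).2 = n.2 := rfl

theorem Dn_tight (n l : F) (α : F → ℝ) (x : F) (h1 : dot n x = 1) (h2 : α x = dot l x) :
    Dn n l α x = 0 := by
  simp only [dot, dot2] at h1 h2
  simp only [Dn, dot2, h2]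
  have : 1 - (n.1.1 * x.1.1 + n.1.2 * x.1.2) = n.2 * x.2 := by linarith
  rw [this]; ring

/-- Chord data: a height change compatible with all non vertical facets, normalised so that
the chord ends at `t = 1` and `t = -1`. -/
structure Chord (X N : Finset F) (α : F → ℝ) (L : F → F) : Prop where
  eq : ∀ n ∈ N, n.2 ≠ 0 → ∀ x ∈ tightPts X n, α x = dot (L n) x
  bd : ∀ n ∈ N, n.2 ≠ 0 → ∀ x ∈ X, |Dn n (L n) α x| ≤ 1 - dot n x
  tp : ∃ n ∈ N, n.2 ≠ 0 ∧ ∃ x ∈ X, dot n x ≠ 1 ∧ Dn n (L n) α x = -(1 - dot n x)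
  tm : ∃ n ∈ N, n.2 ≠ 0 ∧ ∃ x ∈ X, dot n x ≠ 1 ∧ Dn n (L n) α x = 1 - dot n x
  nt : ¬ ∃ (l : F) (a : ℝ), ∀ x ∈ X, α x = dot l x + a

theorem Dn_neg (n l : F) (α : F → ℝ) (x : F) :
    Dn n (-l) (fun x => -α x) x = - Dn n l α x := by
  simp only [Dn, dot2, Prod.fst_neg, Prod.snd_neg, Prod.fst_neg]; ring

theorem Chord.neg {X N : Finset F} {α : F → ℝ} {L : F → F} (c : Chord X N α L) :
    Chord X N (fun x => -α x) (fun n => - L n) where
  eq := by
    intro n hn h2 x hx
    rw [c.eq n hn h2 x hx, dot_neg_left]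
  bd := by
    intro n hn h2 x hx
    rw [Dn_neg, abs_neg]
    exact c.bd n hn h2 x hx
  tp := by
    obtain ⟨n, hn, h2, x, hx, h1, h3⟩ := c.tm
    refine ⟨n, hn, h2, x, hx, h1, ?_⟩
    rw [Dn_neg, h3]
  tm := by
    obtain ⟨n, hn, h2, x, hx, h1, h3⟩ := c.tp
    refine ⟨n, hn, h2, x, hx, h1, ?_⟩
    rw [Dn_neg, h3]; ring
  nt := by
    rintro ⟨l, a, h⟩
    apply c.nt
    refine ⟨-l, -a, ?_⟩
    intro x hx
    have := h x hx
    rw [dot_neg_left]
    linarith

/-- The moved normal is a supporting functional of the moved polytope. -/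
theorem Chord.mv_le {X N : Finset F} {α : F → ℝ} {L : F → F} (c : Chord X N α L)
    (n : F) (hn : n ∈ N) (h2 : n.2 ≠ 0) (t : ℝ) (ht : |t| ≤ 1) (x : F) (hx : x ∈ X) :
    dot (mv n (L n) t) (mvd α t x) ≤ cst (L n) t := by
  have h1 := mv_spec n (L n) α t x
  have hb := c.bd n hn h2 x hx
  have h3 : -(t * Dn n (L n) α x) ≤ 1 - dot n x := by
    calc -(t * Dn n (L n) α x) ≤ |t * Dn n (L n) α x| := neg_le_abs _
      _ = |t| * |Dn n (L n) α x| := abs_mul _ _
      _ ≤ 1 * |Dn n (L n) α x| := by gcongr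
      _ ≤ 1 - dot n x := by linarith
  linarith

theorem Chord.mv_eq {X N : Finset F} {α : F → ℝ} {L : F → F} (c : Chord X N α L)
    (n : F) (hn : n ∈ N) (h2 : n.2 ≠ 0) (t : ℝ) (x : F) (hx : x ∈ tightPts X n) :
    dot (mv n (L n) t) (mvd α t x) = cst (L n) t := by
  have h1 := mv_spec n (L n) α t x
  have hx1 := (mem_tightPts.1 hx).2
  have h3 := Dn_tight n (L n) α x hx1 (c.eq n hn h2 x hx)
  rw [h3, hx1] at h1
  linarith

/-- The moved polytope. -/
def Kt (X : Finset F) (α : F → ℝ) (t : ℝ) : Set F := convexHull ℝ (mvd α t '' (X : Set F))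

theorem Kt_zero (X : Finset F) (α : F → ℝ) : Kt X α 0 = convexHull ℝ (X : Set F) := by
  unfold Kt
  congr 1
  ext u
  constructor
  · rintro ⟨x, hx, rfl⟩
    simpa [mvd] using hx
  · intro hu
    exact ⟨u, hu, by simp [mvd]⟩

theorem Kt_compact (X : Finset F) (α : F → ℝ) (t : ℝ) : IsCompact (Kt X α t) :=
  (X.finite_toSet.image _).isCompact_convexHull ℝ

theorem fst_Kt (X : Finset F) (α : F → ℝ) (t : ℝ) (q : ℝ × ℝ) (y : ℝ) (h : (q, y) ∈ Kt X α t) :
    q ∈ Dset X := by
  unfold Kt at h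
  have h1 : (q, y).1 ∈ Prod.fst '' convexHull ℝ (mvd α t '' (X : Set F)) := ⟨_, h, rfl⟩
  rw [fst_convexHull, Set.image_image] at h1
  simpa [Dset, mvd] using h1

/-- Height of the moved plane over `q`. -/
noncomputable def top (n l : F) (t : ℝ) (q : ℝ × ℝ) : ℝ := (cst l t - dot2 (mv n l t).1 q) / n.2

theorem dot_mv_top (n l : F) (h2 : n.2 ≠ 0) (t : ℝ) (q : ℝ × ℝ) :
    dot (mv n l t) (q, top n l t q) = cst l t := by
  simp only [dot, top, mv_snd]
  field_simp
  ring

theorem eq_top_of_dot (n l : F) (h2 : n.2 ≠ 0) (t : ℝ) (u : F)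
    (hu : dot (mv n l t) u = cst l t) : u.2 = top n l t u.1 := by
  simp only [top, dot, mv_snd] at *
  field_simp
  linarith

theorem top_linear (n l : F) (h2 : n.2 ≠ 0) (q : ℝ × ℝ) :
    top n l 0 q = (top n l 1 q + top n l (-1) q) / 2 := by
  simp only [top, cst, mv, dot2]
  field_simp
  ring

/-- Over a point of the projected facet the plane is attained. -/
theorem Chord.top_mem {X N : Finset F} {α : F → ℝ} {L : F → F} (c : Chord X N α L)
    (n : F) (hn : n ∈ N) (h2 : n.2 ≠ 0) (t : ℝ) (q : ℝ × ℝ) (hq : q ∈ Cset X n) :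
    (q, top n (L n) t q) ∈ Kt X α t := by
  unfold Cset at hq
  have himg : Prod.fst '' (tightPts X n : Set F) = Prod.fst '' (mvd α t '' (tightPts X n : Set F)) := by
    rw [Set.image_image]
    rfl
  rw [himg, ← fst_convexHull] at hq
  obtain ⟨u, hu, rfl⟩ := hq
  have hdot : dot (mv n (L n) t) u = cst (L n) t := by
    have hc : Convex ℝ {u | dot (mv n (L n) t) u = cst (L n) t} := by
      intro a ha b hb s r hs hr hsr
      change dot (mv n (L n) t) a = cst (L n) t at ha
      change dot (mv n (L n) t) b = cst (L n) t at hb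
      change dot (mv n (L n) t) (s • a + r • b) = cst (L n) t
      rw [dot_add_right, dot_smul_right, dot_smul_right, ha, hb, ← add_mul, hsr, one_mul]
    have hsub : mvd α t '' (tightPts X n : Set F) ⊆ {u | dot (mv n (L n) t) u = cst (L n) t} := by
      rintro _ ⟨x, hx, rfl⟩
      exact c.mv_eq n hn h2 t x hx
    exact convexHull_min hsub hc hu
  have h3 := eq_top_of_dot n (L n) h2 t u hdot
  have hsubK : convexHull ℝ (mvd α t '' (tightPts X n : Set F)) ⊆ Kt X α t := by
    apply convexHull_mono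
    apply Set.image_mono
    intro x hx
    exact (mem_tightPts.1 (Finset.mem_coe.1 hx)).1
  have h4 : u = (u.1, top n (L n) t u.1) := by
    ext
    · rfl
    · rfl
    · exact h3
  rw [← h4]
  exact hsubK hu

/-- The moved polytope lies under the moved plane. -/
theorem Chord.dot_le_K {X N : Finset F} {α : F → ℝ} {L : F → F} (c : Chord X N α L)
    (n : F) (hn : n ∈ N) (h2 : n.2 ≠ 0) (t : ℝ) (ht : |t| ≤ 1) (u : F) (hu : u ∈ Kt X α t) :
    dot (mv n (L n) t) u ≤ cst (L n) t := by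
  apply dot_le_of_mem_convexHull _ hu
  rintro _ ⟨x, hx, rfl⟩
  exact c.mv_le n hn h2 t ht x hx

/-- Description of a fibre of the moved polytope. -/
theorem Chord.slice {X N : Finset F} {α : F → ℝ} {L : F → F} (c : Chord X N α L)
    (n n' : F) (hn : n ∈ N) (hn' : n' ∈ N) (h2 : 0 < n.2) (h2' : n'.2 < 0) (t : ℝ) (ht : |t| ≤ 1)
    (q : ℝ × ℝ) (hq : q ∈ Cset X n) (hq' : q ∈ Cset X n') (y : ℝ) :
    (q, y) ∈ Kt X α t ↔ top n' (L n') t q ≤ y ∧ y ≤ top n (L n) t q := by
  constructor
  · intro hy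
    constructor
    · have h1 := c.dot_le_K n' hn' h2'.ne t ht _ hy
      have h3 := dot_mv_top n' (L n') h2'.ne t q
      simp only [dot, mv_snd] at h1 h3
      nlinarith
    · have h1 := c.dot_le_K n hn h2.ne' t ht _ hy
      have h3 := dot_mv_top n (L n) h2.ne' t q
      simp only [dot, mv_snd] at h1 h3
      nlinarith
  · rintro ⟨h1, h3⟩
    have hA := c.top_mem n hn h2.ne' t q hq
    have hB := c.top_mem n' hn' h2'.ne t q hq'
    have hconv : Convex ℝ (Kt X α t) := convex_convexHull ℝ _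
    by_cases heq : top n (L n) t q = top n' (L n') t q
    · have : y = top n (L n) t q := by linarith
      rw [this]; exact hA
    · have hlt : top n' (L n') t q < top n (L n) t q := lt_of_le_of_ne (by linarith) (Ne.symm heq)
      set T := top n (L n) t q
      set B := top n' (L n') t q
      have hpos : 0 < T - B := by linarith
      have ha : 0 ≤ (y - B) / (T - B) := div_nonneg (by linarith) hpos.le
      have hb : 0 ≤ (T - y) / (T - B) := div_nonneg (by linarith) hpos.le
      have hab : (y - B) / (T - B) + (T - y) / (T - B) = 1 := by field_simp; ring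
      have := hconv hA hB ha hb hab
      have e : ((y - B) / (T - B)) • ((q, T) : F) + ((T - y) / (T - B)) • ((q, B) : F) = (q, y) := by
        have e2 : ((y - B) / (T - B)) • q + ((T - y) / (T - B)) • q = q := by
          rw [← add_smul, hab, one_smul]
        ext
        · have := congrArg Prod.fst e2
          simpa using this
        · have := congrArg Prod.snd e2
          simpa using this
        · simp only [Prod.snd_add, Prod.smul_snd, smul_eq_mul]
          field_simp
          ring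
      rw [e] at this
      exact this

/-- If the relation between rate and slack is proportional then the height change is trivial. -/
theorem trivial_of_ratio {X : Finset F} {α : F → ℝ} (n l : F) (h2 : n.2 ≠ 0) (ρ : ℝ)
    (hD : ∀ x ∈ X, Dn n l α x = ρ * (1 - dot n x)) :
    ∃ (l' : F) (a : ℝ), ∀ x ∈ X, α x = dot l' x + a := by
  refine ⟨((l.1.1 - (l.2 - ρ) / n.2 * n.1.1, l.1.2 - (l.2 - ρ) / n.2 * n.1.2), ρ),
    (l.2 - ρ) / n.2, ?_⟩
  intro x hx
  have := hD x hx
  simp only [Dn, dot, dot2] at *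
  field_simp
  linarith

end Vale.Agent.Lib.P248
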