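import Vale.Agent.Lib.P248.Chord2

open MeasureTheory Set

namespace Vale.Agent.Lib.P248

/-- Existence of a point off a facet. -/
theorem exists_off_facet {X N : Finset F} (h : Pair X N) (n : F) (_hn : n ∈ N) :
    ∃ x ∈ X, dot n x ≠ 1 := by
  by_contra hcon
  push Not at hcon
  obtain ⟨ρ, hρ, hb⟩ := h.ball
  have h0 : (0 : F) ∈ convexHull ℝ (X : Set F) := hb 0 (by simp [hρ.le])
  have h1 : dot n 0 ≤ 0 := by simp
  have h2 : ∀ x ∈ (X : Set F), -dot n x ≤ -1 := fun x hx => by rw [hcon x hx]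
  have h3 := dot_le_of_mem_convexHull (y := -n) (c := -1)
    (fun x hx => by rw [dot_neg_left]; exact h2 x hx) h0
  simp at h3
  linarith

open Classical in
/-- Normalisation of a nontrivial height change. -/
theorem exists_chord {X N : Finset F} (h : Pair X N) (α : F → ℝ)
    (hα : ∀ n ∈ N, n.2 ≠ 0 → ∃ L : F, ∀ x ∈ tightPts X n, α x = dot L x)
    (hnt : ¬ ∃ (L : F) (a : ℝ), ∀ x ∈ X, α x = dot L x + a) :
    ∃ α' L', Chord X N α' L' := by
  -- choose the functionals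
  have hchoice : ∀ n : F, ∃ l : F, n ∈ N → n.2 ≠ 0 → ∀ x ∈ tightPts X n, α x = dot l x := by
    intro n
    by_cases hn : n ∈ N ∧ n.2 ≠ 0
    · obtain ⟨l, hl⟩ := hα n hn.1 hn.2
      exact ⟨l, fun _ _ => hl⟩
    · exact ⟨0, fun h1 h2 => absurd ⟨h1, h2⟩ hn⟩
  choose L hL using hchoice
  have hD0 : ∀ n ∈ N, n.2 ≠ 0 → ∀ x ∈ X, dot n x = 1 → Dn n (L n) α x = 0 := by
    intro n hn h2 x hx h1
    exact Dn_tight n (L n) α x h1 (hL n hn h2 x (mem_tightPts.2 ⟨hx, h1⟩))
  -- the pairs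
  let P : Finset (F × F) := ((N.filter (fun n => n.2 ≠ 0)) ×ˢ X).filter (fun p => dot p.1 p.2 ≠ 1)
  have hmemP : ∀ p, p ∈ P ↔ (p.1 ∈ N ∧ p.1.2 ≠ 0) ∧ p.2 ∈ X ∧ dot p.1 p.2 ≠ 1 := by
    intro p
    simp only [P, Finset.mem_filter, Finset.mem_product]
    tauto
  have hS : ∀ p ∈ P, 0 < 1 - dot p.1 p.2 := by
    intro p hp
    obtain ⟨⟨h1, _⟩, h3, h4⟩ := (hmemP p).1 hp
    have := h.le p.2 h3 p.1 h1
    have h5 : dot p.1 p.2 < 1 := lt_of_le_of_ne this h4
    linarith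
  -- a non vertical facet
  obtain ⟨n0, hn0, hn0pos, _⟩ := cover h 1 one_ne_zero 0 (zero_mem_interior_Dset h)
  have hn02 : n0.2 ≠ 0 := by
    intro he
    rw [he] at hn0pos
    simp at hn0pos
  obtain ⟨x0, hx0, hx01⟩ := exists_off_facet h n0 hn0
  have hPne : P.Nonempty := ⟨(n0, x0), (hmemP _).2 ⟨⟨hn0, hn02⟩, hx0, hx01⟩⟩
  let r : F × F → ℝ := fun p => Dn p.1 (L p.1) α p.2 / (1 - dot p.1 p.2)
  obtain ⟨pmax, hpmax, hmax⟩ := Finset.exists_max_image P r hPne
  obtain ⟨pmin, hpmin, hmin⟩ := Finset.exists_min_image P r hPne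
  have hDeq : ∀ p ∈ P, Dn p.1 (L p.1) α p.2 = r p * (1 - dot p.1 p.2) := by
    intro p hp
    have := hS p hp
    simp only [r]
    field_simp
  -- the spread is positive
  have hspread : r pmin < r pmax := by
    by_contra hcon
    push Not at hcon
    apply hnt
    apply trivial_of_ratio n0 (L n0) hn02 (r pmin)
    intro x hx
    by_cases hx1 : dot n0 x = 1
    · rw [hD0 n0 hn0 hn02 x hx hx1, hx1]; ring
    · have hmemp : (n0, x) ∈ P := (hmemP _).2 ⟨⟨hn0, hn02⟩, hx, hx1⟩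
      have h1 := hmax _ hmemp
      have h2 := hmin _ hmemp
      have : r (n0, x) = r pmin := le_antisymm (h1.trans hcon) h2
      have h3 := hDeq _ hmemp
      simp only at h3
      rw [h3, this]
  set c : ℝ := (r pmax - r pmin) / 2 with hc
  set m : ℝ := (r pmax + r pmin) / 2 with hm
  have hcpos : 0 < c := by rw [hc]; linarith
  let α' : F → ℝ := fun x => (α x - m * x.2) / c
  let L' : F → F := fun n => c⁻¹ • (L n - (((0 : ℝ), (0 : ℝ)), m))
  have hDn' : ∀ n x, Dn n (L' n) α' x = (Dn n (L n) α x - m * (1 - dot n x)) / c := by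
    intro n x
    simp only [Dn, L', α', dot, dot2, Prod.smul_fst, Prod.smul_snd, Prod.fst_sub, Prod.snd_sub,
      smul_eq_mul, Prod.fst_zero, Prod.snd_zero]
    field_simp
    ring
  refine ⟨α', L', ?_, ?_, ?_, ?_, ?_⟩
  · intro n hn h2 x hx
    have := hL n hn h2 x hx
    simp only [α', L', dot_smul_left, dot_sub_left, this]
    simp only [dot, dot2]
    field_simp
    ring
  · intro n hn h2 x hx
    rw [hDn', abs_div, abs_of_pos hcpos, div_le_iff₀ hcpos]
    by_cases hx1 : dot n x = 1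
    · rw [hD0 n hn h2 x hx hx1, hx1]; simp
    · have hmemp : (n, x) ∈ P := (hmemP _).2 ⟨⟨hn, h2⟩, hx, hx1⟩
      have h3 := hDeq _ hmemp
      simp only at h3
      have hS' := hS _ hmemp
      simp only at hS'
      have h1 := hmax _ hmemp
      have h4 := hmin _ hmemp
      rw [h3]
      have e : r (n, x) * (1 - dot n x) - m * (1 - dot n x) = (r (n, x) - m) * (1 - dot n x) := by ring
      rw [e, abs_mul, abs_of_pos hS', mul_comm]
      apply mul_le_mul_of_nonneg_left _ hS'.le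
      rw [abs_le, hm, hc]
      constructor <;> linarith
  · obtain ⟨hnN, hn2⟩ := ((hmemP pmin).1 hpmin).1
    obtain ⟨hxX, hx1⟩ := ((hmemP pmin).1 hpmin).2
    refine ⟨pmin.1, hnN, hn2, pmin.2, hxX, hx1, ?_⟩
    rw [hDn', hDeq _ hpmin]
    have hS' := hS _ hpmin
    have : r pmin - m = - c := by rw [hm, hc]; ring
    have e : r pmin * (1 - dot pmin.1 pmin.2) - m * (1 - dot pmin.1 pmin.2) =
        (r pmin - m) * (1 - dot pmin.1 pmin.2) := by ring
    rw [e, this]
    field_simp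
  · obtain ⟨hnN, hn2⟩ := ((hmemP pmax).1 hpmax).1
    obtain ⟨hxX, hx1⟩ := ((hmemP pmax).1 hpmax).2
    refine ⟨pmax.1, hnN, hn2, pmax.2, hxX, hx1, ?_⟩
    rw [hDn', hDeq _ hpmax]
    have : r pmax - m = c := by rw [hm, hc]; ring
    have e : r pmax * (1 - dot pmax.1 pmax.2) - m * (1 - dot pmax.1 pmax.2) =
        (r pmax - m) * (1 - dot pmax.1 pmax.2) := by ring
    rw [e, this]
    field_simp
  · rintro ⟨l, a, hla⟩
    apply hnt
    refine ⟨c • l + (((0 : ℝ), (0 : ℝ)), m), c * a, ?_⟩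
    intro x hx
    have := hla x hx
    simp only [α'] at this
    rw [div_eq_iff hcpos.ne'] at this
    simp only [dot, dot2, Prod.fst_add, Prod.snd_add, Prod.smul_fst, Prod.smul_snd, smul_eq_mul,
      Prod.fst_zero, Prod.snd_zero] at this ⊢
    nlinarith

end Vale.Agent.Lib.P248
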