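import Vale.Agent.Lib.P248.Chord3

open MeasureTheory Set

namespace Vale.Agent.Lib.P248

/-- Vertices are extreme. -/
theorem Pair.extreme {X N : Finset F} (h : Pair X N) {x : F} (hx : x ∈ X) :
    x ∈ Set.extremePoints ℝ (convexHull ℝ (X : Set F)) := by
  rw [mem_extremePoints]
  refine ⟨subset_convexHull ℝ _ hx, ?_⟩
  intro x1 hx1 x2 hx2 hseg
  obtain ⟨a, b, ha, hb, hab, rfl⟩ := hseg
  have hle1 : ∀ m ∈ N, dot m x1 ≤ 1 := fun m hm =>
    dot_le_of_mem_convexHull (fun x hx => h.le x hx m hm) hx1
  have hle2 : ∀ m ∈ N, dot m x2 ≤ 1 := fun m hm =>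
    dot_le_of_mem_convexHull (fun x hx => h.le x hx m hm) hx2
  have key : ∀ m ∈ tightNrm N (a • x1 + b • x2), dot m x1 = 1 ∧ dot m x2 = 1 := by
    intro m hm
    obtain ⟨hm1, hm2⟩ := mem_tightNrm.1 hm
    rw [dot_add_right, dot_smul_right, dot_smul_right] at hm2
    have h1 := hle1 m hm1
    have h2 := hle2 m hm1
    have h3 : a * (1 - dot m x1) + b * (1 - dot m x2) = 0 := by nlinarith
    have h4 : a * (1 - dot m x1) = 0 := by
      nlinarith [mul_nonneg ha.le (sub_nonneg.2 h1), mul_nonneg hb.le (sub_nonneg.2 h2)]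
    have h5 : b * (1 - dot m x2) = 0 := by
      nlinarith [mul_nonneg ha.le (sub_nonneg.2 h1), mul_nonneg hb.le (sub_nonneg.2 h2)]
    constructor
    · rcases mul_eq_zero.1 h4 with h6 | h6
      · exact absurd h6 ha.ne'
      · linarith
    · rcases mul_eq_zero.1 h5 with h6 | h6
      · exact absurd h6 hb.ne'
      · linarith
  have hspan := h.tight_x _ hx
  constructor
  · have : x1 - (a • x1 + b • x2) = 0 := by
      apply eq_zero_of_span_top hspan
      intro m hm
      have hm' := Finset.mem_coe.1 hm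
      rw [dot_comm, dot_sub_right, (key m hm').1, (mem_tightNrm.1 hm').2]; ring
    exact sub_eq_zero.1 this
  · have : x2 - (a • x1 + b • x2) = 0 := by
      apply eq_zero_of_span_top hspan
      intro m hm
      have hm' := Finset.mem_coe.1 hm
      rw [dot_comm, dot_sub_right, (key m hm').2, (mem_tightNrm.1 hm').2]; ring
    exact sub_eq_zero.1 this

/-- Vertices lie in any generating set. -/
theorem Pair.mem_of_conv_eq {X N : Finset F} (h : Pair X N) {S : Set F}
    (hc : convexHull ℝ (X : Set F) = convexHull ℝ S) {x : F} (hx : x ∈ X) : x ∈ S := by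
  have := h.extreme hx
  rw [hc] at this
  exact extremePoints_convexHull_subset this

/-- No three distinct vertices are collinear. -/
theorem Pair.no_collinear {X N : Finset F} (h : Pair X N) {a1 a2 a3 : F} (h1 : a1 ∈ X) (h2 : a2 ∈ X)
    (h3 : a3 ∈ X) (h12 : a1 ≠ a2) (h13 : a1 ≠ a3) (h23 : a2 ≠ a3) (c2 c3 : ℝ)
    (hc : c2 • (a2 - a1) + c3 • (a3 - a1) = 0) (hne : c2 ≠ 0 ∨ c3 ≠ 0) : False := by
  have hd2 : a2 - a1 ≠ 0 := sub_ne_zero.2 h12.symm
  have hd3 : a3 - a1 ≠ 0 := sub_ne_zero.2 h13.symm
  have hc3 : c3 ≠ 0 := by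
    rintro rfl
    have hc2 : c2 ≠ 0 := by
      rcases hne with h | h
      · exact h
      · exact absurd rfl h
    simp only [zero_smul, add_zero] at hc
    rcases smul_eq_zero.1 hc with h | h
    · exact hc2 h
    · exact hd2 h
  have hc2 : c2 ≠ 0 := by
    rintro rfl
    simp only [zero_smul, zero_add] at hc
    rcases smul_eq_zero.1 hc with h | h
    · exact hc3 h
    · exact hd3 h
  set κ : ℝ := -c2 / c3 with hκ
  have hκ0 : κ ≠ 0 := div_ne_zero (neg_ne_zero.2 hc2) hc3
  have hrel : a3 - a1 = κ • (a2 - a1) := by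
    have h4 : c3 • (a3 - a1) = (-c2) • (a2 - a1) := by
      rw [neg_smul]; exact eq_neg_of_add_eq_zero_right hc
    have h5 : (c3⁻¹ * c3) • (a3 - a1) = (c3⁻¹ * (-c2)) • (a2 - a1) := by
      rw [mul_smul, h4, mul_smul]
    rw [inv_mul_cancel₀ hc3, one_smul] at h5
    rw [h5, hκ]
    congr 1
    field_simp
  rcases lt_or_gt_of_ne hκ0 with hneg | hpos
  · -- a1 lies between a2 and a3
    have hE := h.extreme h1
    have hseg : a1 ∈ openSegment ℝ a3 a2 := by
      have hne0 : (1 - κ) ≠ 0 := by linarith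
      refine ⟨1 / (1 - κ), -κ / (1 - κ), by apply div_pos <;> linarith,
        div_pos (by linarith) (by linarith), by field_simp; ring, ?_⟩
      have : a3 = a1 + κ • (a2 - a1) := by rw [← hrel]; abel
      rw [this]
      have hne1 : (1 - κ) ≠ 0 := by linarith
      simp only [smul_add, smul_sub, smul_smul]
      have e1 : 1 / (1 - κ) * κ = κ / (1 - κ) := by field_simp
      rw [e1]
      have e3 : -κ / (1 - κ) = - (κ / (1 - κ)) := by ring
      rw [e3, neg_smul]
      have e2 : (1 / (1 - κ)) • a1 - (κ / (1 - κ)) • a1 = a1 := by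
        rw [← sub_smul]
        have : 1 / (1 - κ) - κ / (1 - κ) = 1 := by field_simp
        rw [this, one_smul]
      calc (1 / (1 - κ)) • a1 + ((κ / (1 - κ)) • a2 - (κ / (1 - κ)) • a1) + -((κ / (1 - κ)) • a2)
          = (1 / (1 - κ)) • a1 - (κ / (1 - κ)) • a1 := by abel
        _ = a1 := e2
    have := ((mem_extremePoints.1 hE).2 a3 (subset_convexHull ℝ _ h3) a2 (subset_convexHull ℝ _ h2) hseg).1
    exact h13 this.symm
  · by_cases hκ1 : κ < 1
    · -- a3 lies between a1 and a2
      have hE := h.extreme h3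
      have hseg : a3 ∈ openSegment ℝ a1 a2 := by
        refine ⟨1 - κ, κ, by linarith, hpos, by ring, ?_⟩
        have : a3 = a1 + κ • (a2 - a1) := by rw [← hrel]; abel
        rw [this]
        simp only [smul_sub, sub_smul, one_smul]
        abel
      have := ((mem_extremePoints.1 hE).2 a1 (subset_convexHull ℝ _ h1) a2 (subset_convexHull ℝ _ h2) hseg).1
      exact h13 this
    · by_cases hκ2 : κ = 1
      · rw [hκ2, one_smul] at hrel
        exact h23 (sub_left_injective hrel).symm
      · -- a2 lies between a1 and a3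
        have hκ3 : 1 < κ := lt_of_le_of_ne (not_lt.1 hκ1) (Ne.symm hκ2)
        have hE := h.extreme h2
        have hseg : a2 ∈ openSegment ℝ a1 a3 := by
          refine ⟨1 - 1 / κ, 1 / κ, ?_, by positivity, by ring, ?_⟩
          · rw [sub_pos, div_lt_one hpos]; exact hκ3
          · have : a3 = a1 + κ • (a2 - a1) := by rw [← hrel]; abel
            rw [this]
            have e1 : (1 / κ) • κ • (a2 - a1) = a2 - a1 := by
              rw [smul_smul]
              have : 1 / κ * κ = 1 := by field_simp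
              rw [this, one_smul]
            rw [smul_add, e1, sub_smul, one_smul]
            abel
        have := ((mem_extremePoints.1 hE).2 a1 (subset_convexHull ℝ _ h1) a3 (subset_convexHull ℝ _ h3) hseg).1
        exact h12 this

/-- A positive combination of projected vertices, not all on a line, is interior. -/
theorem interior_of_avg {X N : Finset F} (h : Pair X N) (A : Finset F) (hA : A ⊆ X)
    (w : F → ℝ) (hw : ∀ x ∈ A, 0 < w x) (hw1 : ∑ x ∈ A, w x = 1) (q : ℝ × ℝ)
    (hq : q = ∑ x ∈ A, w x • x.1)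
    (hspan : ∀ (v : ℝ × ℝ) (κ : ℝ), (∀ x ∈ A, dot2 v x.1 = κ) → v = 0) :
    q ∈ interior (Dset X) := by
  by_contra hnot
  have hconv : Convex ℝ (Dset X) := convex_convexHull ℝ _
  obtain ⟨f, hf⟩ := geometric_hahn_banach_open_point hconv.interior isOpen_interior hnot
  set v : ℝ × ℝ := (f (1, 0), f (0, 1)) with hv
  have hfv : ∀ a : ℝ × ℝ, f a = dot2 v a := by
    rintro ⟨a, b⟩
    have : ((a, b) : ℝ × ℝ) = a • ((1, 0) : ℝ × ℝ) + b • ((0, 1) : ℝ × ℝ) := by simp
    rw [this, map_add, map_smul, map_smul]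
    simp [dot2, hv]
    ring
  have h0int := zero_mem_interior_Dset h
  have hclosure : closure (interior (Dset X)) = closure (Dset X) :=
    hconv.closure_interior_eq_closure_of_nonempty_interior ⟨0, h0int⟩
  have hle : ∀ a ∈ Dset X, f a ≤ f q := by
    intro a ha
    have ha2 : a ∈ closure (interior (Dset X)) := by
      rw [hclosure]; exact subset_closure ha
    have hcl : IsClosed {a | f a ≤ f q} := isClosed_le f.continuous continuous_const
    exact closure_minimal (fun b hb => (hf b hb).le) hcl ha2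
  have hfq : f q = ∑ x ∈ A, w x * f x.1 := by
    rw [hq, map_sum]
    exact Finset.sum_congr rfl (fun x _ => by rw [map_smul, smul_eq_mul])
  have hmem : ∀ x ∈ A, x.1 ∈ Dset X := by
    intro x hx
    apply subset_convexHull
    exact ⟨x, hA hx, rfl⟩
  have hsum : ∑ x ∈ A, w x * (f q - f x.1) = 0 := by
    have : ∑ x ∈ A, w x * (f q - f x.1) = (∑ x ∈ A, w x) * f q - ∑ x ∈ A, w x * f x.1 := by
      rw [Finset.sum_mul, ← Finset.sum_sub_distrib]
      exact Finset.sum_congr rfl (fun x _ => by ring)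
    rw [this, hw1, ← hfq]; ring
  have hz := (Finset.sum_eq_zero_iff_of_nonneg (fun x hx =>
    mul_nonneg (hw x hx).le (sub_nonneg.2 (hle _ (hmem x hx))))).1 hsum
  have hv0 : v = 0 := by
    apply hspan v (f q)
    intro x hx
    have := hz x hx
    rcases mul_eq_zero.1 this with h1 | h1
    · exact absurd h1 (hw x hx).ne'
    · rw [← hfv]; linarith
  have hf0 : f q = 0 := by rw [hfv, hv0]; simp [dot2]
  have := hf 0 h0int
  rw [hf0, map_zero] at this
  exact lt_irrefl _ this

end Vale.Agent.Lib.P248
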