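import Vale.Agent.Lib.P248.Chord4

open MeasureTheory Set

namespace Vale.Agent.Lib.P248

/-- The plane dot product as a linear map. -/
noncomputable def dot2L (f : ℝ × ℝ) : (ℝ × ℝ) →ₗ[ℝ] ℝ where
  toFun := dot2 f
  map_add' := by intro a b; simp only [dot2, Prod.fst_add, Prod.snd_add]; ring
  map_smul' := by
    intro c a
    simp only [dot2, Prod.smul_fst, Prod.smul_snd, smul_eq_mul, RingHom.id_apply]
    ring

@[simp] theorem dot2L_apply (f q : ℝ × ℝ) : dot2L f q = dot2 f q := rfl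

/-- The average of the projections. -/
noncomputable def avg (A : Finset F) : ℝ × ℝ := ∑ x ∈ A, ((A.card : ℝ)⁻¹) • x.1

theorem dot2_avg (A : Finset F) (f : ℝ × ℝ) :
    dot2 f (avg A) = (A.card : ℝ)⁻¹ * ∑ x ∈ A, dot2 f x.1 := by
  have : dot2 f (avg A) = dot2L f (avg A) := rfl
  rw [this, avg, map_sum, Finset.mul_sum]
  apply Finset.sum_congr rfl
  intro x _
  rw [map_smul, smul_eq_mul, dot2L_apply]

theorem avg_eq_of_le (A : Finset F) (hA : A.Nonempty) (f : ℝ × ℝ) (κ : ℝ)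
    (hle : ∀ x ∈ A, dot2 f x.1 ≤ κ) (hge : κ ≤ dot2 f (avg A)) : ∀ x ∈ A, dot2 f x.1 = κ := by
  have hc : (0 : ℝ) < A.card := by exact_mod_cast hA.card_pos
  rw [dot2_avg, inv_mul_eq_div, le_div_iff₀ hc] at hge
  have hsum : ∑ x ∈ A, dot2 f x.1 = ∑ _x ∈ A, κ := by
    apply le_antisymm
    · exact Finset.sum_le_sum hle
    · rw [Finset.sum_const, nsmul_eq_mul]; linarith
  exact (Finset.sum_eq_sum_iff_of_le hle).1 hsum

theorem interior_avg {X N : Finset F} (h : Pair X N) (A : Finset F) (hA : A ⊆ X) (hne : A.Nonempty)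
    (hspan : ∀ (v : ℝ × ℝ) (κ : ℝ), (∀ x ∈ A, dot2 v x.1 = κ) → v = 0) :
    avg A ∈ interior (Dset X) := by
  have hc : (0 : ℝ) < A.card := by exact_mod_cast hne.card_pos
  apply interior_of_avg h A hA (fun _ => (A.card : ℝ)⁻¹) (fun x _ => by positivity) _ _ rfl hspan
  rw [Finset.sum_const, nsmul_eq_mul]
  field_simp

theorem moved_le {X X' N' : Finset F} {α : F → ℝ} (h' : Pair X' N')
    (hconv : convexHull ℝ (X' : Set F) = convexHull ℝ (mvd α 1 '' (X : Set F))) {n' : F}
    (hn' : n' ∈ N') {u : F} (hu : u ∈ convexHull ℝ (mvd α 1 '' (X : Set F))) : dot n' u ≤ 1 := by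
  rw [← hconv] at hu
  exact dot_le_of_mem_convexHull (fun y hy => h'.le y hy n' hn') hu

open Classical in
/-- The points tight for a normal after the move. -/
noncomputable def tightM (X : Finset F) (α : F → ℝ) (n' : F) : Finset F :=
  X.filter (fun x => dot n' (mvd α 1 x) = 1)

theorem mem_tightM {X : Finset F} {α : F → ℝ} {n' x : F} :
    x ∈ tightM X α n' ↔ x ∈ X ∧ dot n' (mvd α 1 x) = 1 := by
  classical
  simp only [tightM, Finset.mem_filter]

theorem span_moved {X X' N' : Finset F} {α : F → ℝ} (h' : Pair X' N')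
    (hconv : convexHull ℝ (X' : Set F) = convexHull ℝ (mvd α 1 '' (X : Set F))) {n' : F}
    (hn' : n' ∈ N') : Submodule.span ℝ (mvd α 1 '' (tightM X α n' : Set F)) = ⊤ := by
  rw [eq_top_iff, ← h'.tight_n n' hn']
  apply Submodule.span_mono
  intro x' hx'
  obtain ⟨hx1, hx2⟩ := mem_tightPts.1 (Finset.mem_coe.1 hx')
  obtain ⟨x, hx, rfl⟩ := h'.mem_of_conv_eq hconv hx1
  exact ⟨x, Finset.mem_coe.2 (mem_tightM.2 ⟨hx, hx2⟩), rfl⟩

theorem nonempty_of_span {α : F → ℝ} {A : Finset F}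
    (hs : Submodule.span ℝ (mvd α 1 '' (A : Set F)) = ⊤) : A.Nonempty := by
  by_contra hne
  rw [Finset.not_nonempty_iff_eq_empty] at hne
  subst hne
  simp at hs

/-- Rigidity for a set spanning through a non vertical plane. -/
theorem nonvert_span {T : Set F} {n : F} (hspan : Submodule.span ℝ T = ⊤)
    (hT : ∀ x ∈ T, dot n x = 1) (h2 : n.2 ≠ 0) (v : ℝ × ℝ) (κ : ℝ)
    (hv : ∀ x ∈ T, dot2 v x.1 = κ) : v = 0 ∧ κ = 0 := by
  have h0 : ((v, 0) : F) - κ • n = 0 := by
    apply eq_zero_of_span_top hspan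
    intro x hx
    rw [dot_sub_left, dot_smul_left, hT x hx, mul_one]
    have : dot ((v, 0) : F) x = dot2 v x.1 := by simp [dot]
    rw [this, hv x hx, sub_self]
  have h1 : (((v, 0) : F) - κ • n).2 = 0 := by rw [h0]; rfl
  simp only [Prod.snd_sub, Prod.smul_snd, smul_eq_mul, zero_sub, neg_eq_zero] at h1
  have hκ : κ = 0 := by
    rcases mul_eq_zero.1 h1 with h | h
    · exact h
    · exact absurd h h2
  subst hκ
  refine ⟨?_, rfl⟩
  have h3 : (((v, 0) : F) - (0 : ℝ) • n).1 = 0 := by rw [h0]; rfl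
  simpa using h3

/-- Description of the normals of the moved polytope, non vertical case. -/
theorem nonvertical_case {X N X' N' : Finset F} {α : F → ℝ} {L : F → F} (h : Pair X N)
    (c : Chord X N α L) (h' : Pair X' N')
    (hconv : convexHull ℝ (X' : Set F) = convexHull ℝ (mvd α 1 '' (X : Set F))) {n' : F}
    (hn' : n' ∈ N') (h2 : n'.2 ≠ 0) :
    ∃ n ∈ N, n.2 ≠ 0 ∧ ∃ ρ : ℝ, 0 < ρ ∧ mv n (L n) 1 = ρ • n' ∧ cst (L n) 1 = ρ := by
  classical
  set A := tightM X α n' with hAdef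
  have hspan := span_moved (α := α) (X := X) h' hconv hn'
  rw [← hAdef] at hspan
  have hAX : A ⊆ X := Finset.filter_subset _ _
  have hAne : A.Nonempty := nonempty_of_span hspan
  have htight : ∀ x ∈ mvd α 1 '' (A : Set F), dot n' x = 1 := by
    rintro _ ⟨x, hx, rfl⟩
    exact (mem_tightM.1 (Finset.mem_coe.1 hx)).2
  have hsp : ∀ (v : ℝ × ℝ) (κ : ℝ), (∀ x ∈ A, dot2 v x.1 = κ) → v = 0 := by
    intro v κ hv
    refine (nonvert_span hspan htight h2 v κ ?_).1
    rintro _ ⟨x, hx, rfl⟩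
    exact hv x hx
  have hq : avg A ∈ interior (Dset X) := interior_avg h A hAX hAne hsp
  obtain ⟨n, hn, hpos, hqn⟩ := cover h n'.2 h2 _ hq
  have hn2 : n.2 ≠ 0 := by
    intro he
    rw [he] at hpos
    simp at hpos
  have hρ : 0 < n.2 / n'.2 := by
    have : n.2 / n'.2 = (n'.2 * n.2) / n'.2 ^ 2 := by field_simp
    rw [this]
    positivity
  set ρ := n.2 / n'.2 with hρdef
  set m := mv n (L n) 1 with hm
  set c0 := cst (L n) 1 with hc0
  set Ξ := m - ρ • n' with hΞ
  have hΞ2 : Ξ.2 = 0 := by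
    simp only [hΞ, Prod.snd_sub, Prod.smul_snd, smul_eq_mul, hm, mv_snd, hρdef]
    field_simp
    ring
  have hdot : ∀ u : F, dot Ξ u = dot2 Ξ.1 u.1 := by
    intro u
    simp [dot, hΞ2]
  have hexp : ∀ u : F, dot Ξ u = dot m u - ρ * dot n' u := by
    intro u
    rw [hΞ, dot_sub_left, dot_smul_left]
  set κ := c0 - ρ with hκ
  have hle : ∀ x ∈ A, dot2 Ξ.1 x.1 ≤ κ := by
    intro x hx
    have h1 := hdot (mvd α 1 x)
    have h3 := c.mv_le n hn hn2 1 (by simp) x (hAX hx)
    have h4 := (mem_tightM.1 hx).2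
    rw [hexp, h4] at h1
    have h5 : (mvd α 1 x).1 = x.1 := rfl
    rw [h5] at h1
    rw [← h1, hκ]
    linarith
  have hge : κ ≤ dot2 Ξ.1 (avg A) := by
    have hu := c.top_mem n hn hn2 1 _ hqn
    have h1 := dot_mv_top n (L n) hn2 1 (avg A)
    have h3 := moved_le h' hconv hn' hu
    have h4 := hdot (avg A, top n (L n) 1 (avg A))
    rw [hexp, h1] at h4
    simp only at h4
    rw [← h4, hκ]
    nlinarith
  have heq := avg_eq_of_le A hAne Ξ.1 κ hle hge
  have hzero : Ξ.1 = 0 ∧ κ = 0 := by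
    apply nonvert_span hspan htight h2
    rintro _ ⟨x, hx, rfl⟩
    exact heq x hx
  have hΞ0 : Ξ = 0 := Prod.ext hzero.1 hΞ2
  refine ⟨n, hn, hn2, ρ, hρ, sub_eq_zero.1 hΞ0, ?_⟩
  have := hzero.2
  rw [hκ] at this
  linarith

/-- Description of the normals of the moved polytope, vertical case. -/
theorem vertical_case {X N X' N' : Finset F} {α : F → ℝ} (h : Pair X N) (h' : Pair X' N')
    (hconv : convexHull ℝ (X' : Set F) = convexHull ℝ (mvd α 1 '' (X : Set F))) {n' : F}
    (hn' : n' ∈ N') (h2 : n'.2 = 0) : n' ∈ N := by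
  classical
  have hdot : ∀ x, dot n' (mvd α 1 x) = dot n' x := by
    intro x
    simp [dot, mvd, h2]
  apply h.mem_N_of_tight n'
  · intro x hx
    rw [← hdot]
    exact moved_le h' hconv hn' (subset_convexHull ℝ _ ⟨x, hx, rfl⟩)
  · have hspan := span_moved (α := α) (X := X) h' hconv hn'
    have hA : tightM X α n' = tightPts X n' := by
      ext x
      rw [mem_tightM, mem_tightPts, hdot]
    rw [hA] at hspan
    set A := tightPts X n' with hAdef
    have hcard : 2 < A.card := by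
      have h1 : (Set.finrank ℝ (↑(A.image (mvd α 1)) : Set F)) ≤ (A.image (mvd α 1)).card :=
        finrank_span_finset_le_card _
      have h3 : Set.finrank ℝ (↑(A.image (mvd α 1)) : Set F) = 3 := by
        unfold Set.finrank
        rw [Finset.coe_image, hspan]
        simp [Module.finrank_prod]
      have h4 : (A.image (mvd α 1)).card ≤ A.card := Finset.card_image_le
      omega
    obtain ⟨a1, a2, a3, h1, h3, h4, h12, h13, h23⟩ := Finset.two_lt_card_iff.1 hcard
    have ht1 := mem_tightPts.1 h1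
    have ht2 := mem_tightPts.1 h3
    have ht3 := mem_tightPts.1 h4
    have hli : LinearIndependent ℝ ![a1, a2, a3] := by
      rw [Fintype.linearIndependent_iff]
      intro g hg
      rw [Fin.sum_univ_three] at hg
      simp only [Matrix.cons_val_zero, Matrix.cons_val_one, Matrix.cons_val_two, Matrix.head_cons,
        Matrix.tail_cons] at hg
      have hd := congrArg (dot n') hg
      simp only [dot_add_right, dot_smul_right, ht1.2, ht2.2, ht3.2, dot_zero_right, mul_one] at hd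
      have hc : g 1 • (a2 - a1) + g 2 • (a3 - a1) = 0 := by
        have e : g 1 • (a2 - a1) + g 2 • (a3 - a1) = g 0 • a1 + g 1 • a2 + g 2 • a3 -
            (g 0 + g 1 + g 2) • a1 := by
          simp only [smul_sub, add_smul]
          abel
        rw [e, hg, hd]
        simp
      have h12' : g 1 = 0 ∧ g 2 = 0 := by
        by_contra hcon
        apply h.no_collinear ht1.1 ht2.1 ht3.1 h12 h13 h23 (g 1) (g 2) hc
        by_contra hcon2
        push Not at hcon2
        exact hcon hcon2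
      have h0 : g 0 = 0 := by linarith [h12'.1, h12'.2]
      intro i
      fin_cases i
      · exact h0
      · exact h12'.1
      · exact h12'.2
    have htop := hli.span_eq_top_of_card_eq_finrank' (by simp [Module.finrank_prod])
    rw [eq_top_iff, ← htop]
    apply Submodule.span_mono
    rintro _ ⟨i, rfl⟩
    fin_cases i
    · exact Finset.mem_coe.2 h1
    · exact Finset.mem_coe.2 h3
    · exact Finset.mem_coe.2 h4

/-- Over a point of the projected facet the plane is attained inside the moved facet. -/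
theorem Chord.top_mem_face {X N : Finset F} {α : F → ℝ} {L : F → F} (c : Chord X N α L)
    (n : F) (hn : n ∈ N) (h2 : n.2 ≠ 0) (t : ℝ) (q : ℝ × ℝ) (hq : q ∈ Cset X n) :
    (q, top n (L n) t q) ∈ convexHull ℝ (mvd α t '' (tightPts X n : Set F)) := by
  unfold Cset at hq
  have himg : Prod.fst '' (tightPts X n : Set F) = Prod.fst '' (mvd α t '' (tightPts X n : Set F)) := by
    rw [Set.image_image]
    rfl
  rw [himg, ← fst_convexHull] at hq
  obtain ⟨u, hu, rfl⟩ := hq
  have hdot : dot (mv n (L n) t) u = cst (L n) t := by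
    have hc : Convex ℝ {u | dot (mv n (L n) t) u = cst (L n) t} := by
      intro a ha b hb s r hs hr hsr
      change dot (mv n (L n) t) a = cst (L n) t at ha
      change dot (mv n (L n) t) b = cst (L n) t at hb
      change dot (mv n (L n) t) (s • a + r • b) = cst (L n) t
      rw [dot_add_right, dot_smul_right, dot_smul_right, ha, hb, ← add_mul, hsr, one_mul]
    have hsub : mvd α t '' (tightPts X n : Set F) ⊆ {u | dot (mv n (L n) t) u = cst (L n) t} := by
      rintro _ ⟨x, hx, rfl⟩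
      exact c.mv_eq n hn h2 t x hx
    exact convexHull_min hsub hc hu
  have h3 := eq_top_of_dot n (L n) h2 t u hdot
  have h4 : u = (u.1, top n (L n) t u.1) := by
    ext
    · rfl
    · rfl
    · exact h3
  rw [← h4]
  exact hu

/-- First way of losing a vertex. -/
theorem case_a {X N X' N' : Finset F} {α : F → ℝ} {L : F → F} (c : Chord X N α L)
    (h' : Pair X' N')
    (hconv : convexHull ℝ (X' : Set F) = convexHull ℝ (mvd α 1 '' (X : Set F)))
    {n0 x0 : F} (hn0 : n0 ∈ N) (h2 : n0.2 ≠ 0) (hx0 : x0 ∈ X) (h1 : dot n0 x0 ≠ 1)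
    (ht : dot (mv n0 (L n0) 1) (mvd α 1 x0) = cst (L n0) 1) (hq : x0.1 ∈ Cset X n0) :
    X'.card < X.card := by
  classical
  have hE0 : mvd α 1 x0 ∈ convexHull ℝ (mvd α 1 '' (tightPts X n0 : Set F)) := by
    have h3 := c.top_mem_face n0 hn0 h2 1 x0.1 hq
    have h4 := eq_top_of_dot n0 (L n0) h2 1 _ ht
    have h5 : mvd α 1 x0 = (x0.1, top n0 (L n0) 1 x0.1) := by
      ext
      · rfl
      · rfl
      · exact h4
    rw [h5]
    exact h3
  have hsubset : convexHull ℝ (mvd α 1 '' (tightPts X n0 : Set F)) ⊆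
      convexHull ℝ (mvd α 1 '' (X : Set F)) := by
    apply convexHull_mono
    apply Set.image_mono
    intro x hx
    exact (mem_tightPts.1 (Finset.mem_coe.1 hx)).1
  have hsub : X' ⊆ (X.erase x0).image (mvd α 1) := by
    intro x' hx'
    obtain ⟨x, hx, rfl⟩ := h'.mem_of_conv_eq hconv hx'
    by_cases hxx : x = x0
    · subst hxx
      have hext := h'.extreme hx'
      rw [hconv] at hext
      have h3 := inter_extremePoints_subset_extremePoints_of_subset hsubset ⟨hE0, hext⟩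
      obtain ⟨x1, hx1, hx1eq⟩ := extremePoints_convexHull_subset h3
      obtain ⟨hx1X, hx11⟩ := mem_tightPts.1 (Finset.mem_coe.1 hx1)
      refine Finset.mem_image.2 ⟨x1, Finset.mem_erase.2 ⟨?_, hx1X⟩, hx1eq⟩
      rintro rfl
      exact h1 hx11
    · exact Finset.mem_image_of_mem _ (Finset.mem_erase.2 ⟨hxx, hx⟩)
  calc X'.card ≤ ((X.erase x0).image (mvd α 1)).card := Finset.card_le_card hsub
    _ ≤ (X.erase x0).card := Finset.card_image_le
    _ < X.card := Finset.card_erase_lt_of_mem hx0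

/-- Second way of losing a normal. -/
theorem case_b {X N : Finset F} {α : F → ℝ} {L : F → F} (h : Pair X N) (c : Chord X N α L)
    {n0 x0 : F} (hn0 : n0 ∈ N) (h2 : n0.2 ≠ 0) (hx0 : x0 ∈ X)
    (ht : dot (mv n0 (L n0) 1) (mvd α 1 x0) = cst (L n0) 1) (hq : x0.1 ∉ Cset X n0) :
    ∃ n2 ∈ N, n2 ≠ n0 ∧ n2.2 ≠ 0 ∧ ∃ ρ : ℝ, 0 < ρ ∧
      mv n2 (L n2) 1 = ρ • mv n0 (L n0) 1 ∧ cst (L n2) 1 = ρ * cst (L n0) 1 := by
  classical
  set T0 := tightPts X n0 with hT0
  have hspan : Submodule.span ℝ (T0 : Set F) = ⊤ := h.tight_n n0 hn0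
  have hT0X : T0 ⊆ X := fun x hx => (mem_tightPts.1 hx).1
  have htight : ∀ x ∈ (T0 : Set F), dot n0 x = 1 := fun x hx => (mem_tightPts.1 hx).2
  have hT0ne : T0.Nonempty := by
    by_contra hne
    rw [Finset.not_nonempty_iff_eq_empty] at hne
    rw [hne] at hspan
    simp at hspan
  have hsp : ∀ (v : ℝ × ℝ) (κ : ℝ), (∀ x ∈ T0, dot2 v x.1 = κ) → v = 0 := by
    intro v κ hv
    exact (nonvert_span hspan htight h2 v κ hv).1
  have hq0 : avg T0 ∈ interior (Dset X) := interior_avg h T0 hT0X hT0ne hsp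
  have hcl : IsClosed (Cset X n0) :=
    (((tightPts X n0).finite_toSet.image Prod.fst).isCompact_convexHull ℝ).isClosed
  -- a point of the open segment outside the facet
  have hcont : Continuous (fun ε : ℝ => (1 - ε) • avg T0 + ε • x0.1) := by fun_prop
  have hev : ∀ᶠ ε in nhds (1 : ℝ), (1 - ε) • avg T0 + ε • x0.1 ∈ (Cset X n0)ᶜ := by
    apply hcont.continuousAt.eventually_mem
    apply hcl.isOpen_compl.mem_nhds
    simpa using hq
  have hev2 : ∀ᶠ ε in nhds (1 : ℝ), 0 < ε := Ioi_mem_nhds one_pos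
  obtain ⟨ε, ⟨hε1, hε2⟩, hε3⟩ :=
    ((hev.and hev2).filter_mono nhdsWithin_le_nhds |>.and
      (self_mem_nhdsWithin (a := (1 : ℝ)) (s := Iio 1))).exists
  have hε3' : ε < 1 := hε3
  set q := (1 - ε) • avg T0 + ε • x0.1 with hqdef
  have hqint : q ∈ interior (Dset X) := by
    apply (convex_convexHull ℝ _).combo_interior_self_mem_interior hq0
      (subset_convexHull ℝ _ ⟨x0, hx0, rfl⟩) (by linarith) hε2.le (by ring)
  obtain ⟨n2, hn2, hpos, hqn⟩ := cover h n0.2 h2 q hqint
  have hn22 : n2.2 ≠ 0 := by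
    intro he
    rw [he] at hpos
    simp at hpos
  have hne : n2 ≠ n0 := by
    rintro rfl
    exact hε1 hqn
  have hρ : 0 < n2.2 / n0.2 := by
    have : n2.2 / n0.2 = (n0.2 * n2.2) / n0.2 ^ 2 := by field_simp
    rw [this]
    positivity
  set ρ := n2.2 / n0.2 with hρdef
  set m := mv n0 (L n0) 1 with hm
  set c0 := cst (L n0) 1 with hc0
  set m2 := mv n2 (L n2) 1 with hm2
  set c2 := cst (L n2) 1 with hc2
  set Ξ := m2 - ρ • m with hΞ
  have hΞ2 : Ξ.2 = 0 := by
    simp only [hΞ, Prod.snd_sub, Prod.smul_snd, smul_eq_mul, hm, hm2, mv_snd, hρdef]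
    field_simp
    ring
  have hdot : ∀ u : F, dot Ξ u = dot2 Ξ.1 u.1 := by
    intro u
    simp [dot, hΞ2]
  have hexp : ∀ u : F, dot Ξ u = dot m2 u - ρ * dot m u := by
    intro u
    rw [hΞ, dot_sub_left, dot_smul_left]
  set κ := c2 - ρ * c0 with hκ
  have hfst : ∀ x : F, (mvd α 1 x).1 = x.1 := fun _ => rfl
  have hle0 : dot2 Ξ.1 x0.1 ≤ κ := by
    have h1 := hdot (mvd α 1 x0)
    rw [hexp, ht, hfst] at h1
    have h3 := c.mv_le n2 hn2 hn22 1 (by simp) x0 hx0
    rw [← h1, hκ]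
    linarith
  have hle : ∀ x ∈ T0, dot2 Ξ.1 x.1 ≤ κ := by
    intro x hx
    have h1 := hdot (mvd α 1 x)
    rw [hexp, c.mv_eq n0 hn0 h2 1 x hx, hfst] at h1
    have h3 := c.mv_le n2 hn2 hn22 1 (by simp) x (hT0X hx)
    rw [← h1, hκ]
    linarith
  have hgeq : κ ≤ dot2 Ξ.1 q := by
    have hu := c.top_mem n2 hn2 hn22 1 _ hqn
    have h1 := dot_mv_top n2 (L n2) hn22 1 q
    have h3 := c.dot_le_K n0 hn0 h2 1 (by simp) _ hu
    have h4 := hdot (q, top n2 (L n2) 1 q)
    rw [hexp, h1] at h4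
    simp only at h4
    rw [← h4, hκ]
    nlinarith
  have hq2 : dot2 Ξ.1 q = (1 - ε) * dot2 Ξ.1 (avg T0) + ε * dot2 Ξ.1 x0.1 := by
    simp only [hqdef, dot2, Prod.fst_add, Prod.snd_add, Prod.smul_fst, Prod.smul_snd, smul_eq_mul]
    ring
  have hge : κ ≤ dot2 Ξ.1 (avg T0) := by
    rw [hq2] at hgeq
    have h5 : ε * dot2 Ξ.1 x0.1 ≤ ε * κ := mul_le_mul_of_nonneg_left hle0 hε2.le
    have h6 : (1 - ε) * κ ≤ (1 - ε) * dot2 Ξ.1 (avg T0) := by nlinarith
    exact le_of_mul_le_mul_left h6 (by linarith)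
  have heq := avg_eq_of_le T0 hT0ne Ξ.1 κ hle hge
  have hzero := nonvert_span hspan htight h2 Ξ.1 κ heq
  have hΞ0 : Ξ = 0 := Prod.ext hzero.1 hΞ2
  refine ⟨n2, hn2, hne, hn22, ρ, hρ, sub_eq_zero.1 hΞ0, ?_⟩
  have := hzero.2
  rw [hκ] at this
  linarith

/-- The combinatorial measure drops at the end of a chord. -/
theorem measure_drop {X N X' N' : Finset F} {α : F → ℝ} {L : F → F} (h : Pair X N)
    (c : Chord X N α L) (h' : Pair X' N')
    (hconv : convexHull ℝ (X' : Set F) = convexHull ℝ (mvd α 1 '' (X : Set F))) :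
    X'.card + N'.card < X.card + N.card := by
  classical
  have hpsi : ∀ n' ∈ N', ∃ n ∈ N,
      (n'.2 ≠ 0 ∧ n.2 ≠ 0 ∧ ∃ ρ : ℝ, 0 < ρ ∧ mv n (L n) 1 = ρ • n' ∧ cst (L n) 1 = ρ) ∨
        (n'.2 = 0 ∧ n = n') := by
    intro n' hn'
    by_cases h2 : n'.2 = 0
    · exact ⟨n', vertical_case h h' hconv hn' h2, Or.inr ⟨h2, rfl⟩⟩
    · obtain ⟨n, hn, hn2, hρ⟩ := nonvertical_case h c h' hconv hn' h2
      exact ⟨n, hn, Or.inl ⟨h2, hn2, hρ⟩⟩
  choose! ψ hψN hψ using hpsi
  have hinj : Set.InjOn ψ (N' : Set F) := by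
    intro a ha b hb hab
    rcases hψ a ha with ⟨h1, h3, ρ1, hρ1, h4, h5⟩ | ⟨h1, h3⟩ <;>
      rcases hψ b hb with ⟨h6, h7, ρ2, hρ2, h8, h9⟩ | ⟨h6, h7⟩
    · rw [hab] at h4 h5
      have e : ρ1 = ρ2 := by rw [← h5, h9]
      subst e
      rw [h8] at h4
      exact (smul_right_injective F hρ1.ne' h4).symm
    · rw [hab, h7] at h3
      exact absurd h6 h3
    · rw [← hab, h3] at h7
      exact absurd h1 h7
    · rw [← h3, hab, h7]
  have hcardN : N'.card ≤ N.card := Finset.card_le_card_of_injOn ψ hψN hinj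
  have hsubX : X' ⊆ X.image (mvd α 1) := by
    intro x' hx'
    obtain ⟨x, hx, rfl⟩ := h'.mem_of_conv_eq hconv hx'
    exact Finset.mem_image_of_mem _ hx
  have hcardX : X'.card ≤ X.card := (Finset.card_le_card hsubX).trans Finset.card_image_le
  obtain ⟨n0, hn0, h20, x0, hx0, h1, h3⟩ := c.tp
  have ht : dot (mv n0 (L n0) 1) (mvd α 1 x0) = cst (L n0) 1 := by
    have := mv_spec n0 (L n0) α 1 x0
    rw [h3] at this
    linarith
  by_cases hq : x0.1 ∈ Cset X n0
  · have := case_a c h' hconv hn0 h20 hx0 h1 ht hq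
    omega
  · obtain ⟨n2, hn2, hne, h22, ρ, hρ, hm2, hc2⟩ := case_b h c hn0 h20 hx0 ht hq
    have hmiss : ¬ (n0 ∈ N'.image ψ ∧ n2 ∈ N'.image ψ) := by
      rintro ⟨ha, hb⟩
      obtain ⟨a, ha1, ha2⟩ := Finset.mem_image.1 ha
      obtain ⟨b, hb1, hb2⟩ := Finset.mem_image.1 hb
      rcases hψ a ha1 with ⟨h4, h5, ρ1, hρ1, h6, h7⟩ | ⟨h4, h5⟩
      · rcases hψ b hb1 with ⟨h8, h9, ρ2, hρ2, h10, h11⟩ | ⟨h8, h9⟩
        · rw [ha2] at h6 h7
          rw [hb2] at h10 h11
          rw [h10, h6] at hm2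
          rw [h11, h7] at hc2
          rw [hc2, smul_smul] at hm2
          have hne0 : ρ * ρ1 ≠ 0 := (mul_pos hρ hρ1).ne'
          have := smul_right_injective F hne0 hm2
          apply hne
          rw [← hb2, this, ha2]
        · rw [hb2] at h9
          rw [h9] at h22
          exact h22 h8
      · rw [ha2] at h5
        rw [h5] at h20
        exact h20 h4
    have hstrict : N'.image ψ ⊂ N := by
      rw [Finset.ssubset_iff_subset_ne]
      constructor
      · intro n hn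
        obtain ⟨a, ha1, rfl⟩ := Finset.mem_image.1 hn
        exact hψN a ha1
      · intro he
        apply hmiss
        rw [he]
        exact ⟨hn0, hn2⟩
    have h5 := Finset.card_lt_card hstrict
    rw [Finset.card_image_of_injOn hinj] at h5
    omega

end Vale.Agent.Lib.P248
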