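import Vale.Agent.Lib.P248.Defs

open MeasureTheory Set
open scoped Pointwise

namespace Vale.Agent.Lib.P248

lemma phi_le_iff (X : Finset F) (hX : X.Nonempty) (β : F → ℝ) (w : ℝ × ℝ) (c : ℝ) :
    Phi X hX β w ≤ c ↔ ∀ x ∈ X, dot2 w x.1 + β x ≤ c := by
  unfold Phi
  exact Finset.sup'_le_iff hX _

lemma measurable_phi (X : Finset F) (hX : X.Nonempty) (β : F → ℝ) :
    Measurable (Phi X hX β) := by
  have h : Phi X hX β = X.sup' hX (fun x w => dot2 w x.1 + β x) := by
    funext w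
    simp [Phi, Finset.sup'_apply]
  rw [h]
  apply Finset.measurable_sup'
  intro x _
  unfold dot2
  fun_prop

lemma slice_eq (X : Finset F) (hX : X.Nonempty) (β : F → ℝ) {r : ℝ} (hr : 0 < r) :
    {u : ℝ × ℝ | ∀ x ∈ X, dot2 u x.1 + r * β x ≤ 1} = r • {w | Phi X hX β w ≤ 1 / r} := by
  ext u
  rw [Set.mem_smul_set_iff_inv_smul_mem₀ hr.ne']
  simp only [mem_ofPred_eq, phi_le_iff]
  refine forall₂_congr fun x _ => ?_
  have e : dot2 (r⁻¹ • u) x.1 + β x = (dot2 u x.1 + r * β x) / r := by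
    unfold dot2
    simp only [Prod.smul_fst, Prod.smul_snd, smul_eq_mul]
    field_simp
  rw [e, div_le_div_iff_of_pos_right hr]

lemma slice_volume (X : Finset F) (hX : X.Nonempty) (β : F → ℝ) {r : ℝ} (hr : 0 < r) :
    volume {u : ℝ × ℝ | ∀ x ∈ X, dot2 u x.1 + r * β x ≤ 1} =
      ENNReal.ofReal (r ^ 2) * volume {w | Phi X hX β w ≤ 1 / r} := by
  rw [slice_eq X hX β hr, Measure.addHaar_smul]
  have : Module.finrank ℝ (ℝ × ℝ) = 2 := by simp
  rw [this, abs_of_pos (by positivity)]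

lemma lint_square {c : ℝ} (hc : 0 < c) :
    ∫⁻ r in Ioc 0 c, ENNReal.ofReal (r ^ 2) = ENNReal.ofReal (1 / 3) * ENNReal.ofReal (c ^ 3) := by
  have hint : IntegrableOn (fun r : ℝ => r ^ 2) (Ioc 0 c) := by
    have : IntervalIntegrable (fun r : ℝ => r ^ 2) volume 0 c := by
      apply Continuous.intervalIntegrable
      fun_prop
    exact (intervalIntegrable_iff_integrableOn_Ioc_of_le hc.le).1 this
  have hnn : 0 ≤ᵐ[volume.restrict (Ioc 0 c)] (fun r : ℝ => r ^ 2) :=
    Filter.Eventually.of_forall fun r => by positivity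
  rw [← ofReal_integral_eq_lintegral_ofReal hint hnn, ← intervalIntegral.integral_of_le hc.le,
    integral_pow, ← ENNReal.ofReal_mul (by norm_num)]
  congr 1
  norm_num
  ring

lemma half_lemma (X : Finset F) (hX : X.Nonempty) (β : F → ℝ)
    (hp : ∀ w, 0 < Phi X hX β w) :
    ∫⁻ r in Ioi (0 : ℝ), volume {u : ℝ × ℝ | ∀ x ∈ X, dot2 u x.1 + r * β x ≤ 1} =
      ENNReal.ofReal (1 / 3) * I3 (Phi X hX β) := by
  have hm := measurable_phi X hX β
  have hS : MeasurableSet {q : ℝ × (ℝ × ℝ) | Phi X hX β q.2 ≤ 1 / q.1} :=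
    measurableSet_le (hm.comp measurable_snd) (by fun_prop)
  have h1 : ∀ r ∈ Ioi (0 : ℝ), volume {u : ℝ × ℝ | ∀ x ∈ X, dot2 u x.1 + r * β x ≤ 1} =
      ∫⁻ w, ENNReal.ofReal (r ^ 2) * ({q : ℝ × (ℝ × ℝ) | Phi X hX β q.2 ≤ 1 / q.1}.indicator 1 (r, w)) := by
    intro r hr
    rw [slice_volume X hX β hr, lintegral_const_mul']
    · congr 1
      rw [← lintegral_indicator_one (measurableSet_le hm measurable_const)]
      apply lintegral_congr
      intro w
      simp [Set.indicator]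
    · exact ENNReal.ofReal_ne_top
  rw [setLIntegral_congr_fun measurableSet_Ioi h1]
  have hfm : Measurable fun q : ℝ × (ℝ × ℝ) => ENNReal.ofReal (q.1 ^ 2) *
      ({q : ℝ × (ℝ × ℝ) | Phi X hX β q.2 ≤ 1 / q.1}.indicator 1 q : ENNReal) :=
    (by fun_prop : Measurable fun q : ℝ × (ℝ × ℝ) => ENNReal.ofReal (q.1 ^ 2)).mul
      (measurable_one.indicator hS)
  rw [lintegral_lintegral_swap (hfm.aemeasurable)]
  unfold I3
  rw [← lintegral_const_mul' _ _ ENNReal.ofReal_ne_top]
  apply lintegral_congr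
  intro w
  have hc : 0 < (Phi X hX β w)⁻¹ := inv_pos.2 (hp w)
  rw [← lint_square hc, ← lintegral_indicator measurableSet_Ioi,
    ← lintegral_indicator measurableSet_Ioc]
  apply lintegral_congr
  intro r
  by_cases hr : 0 < r
  · have : Phi X hX β w ≤ r⁻¹ ↔ r ≤ (Phi X hX β w)⁻¹ := le_inv_comm₀ (hp w) hr
    by_cases h2 : r ≤ (Phi X hX β w)⁻¹
    · simp [Set.indicator, hr, h2, this.2 h2, one_div]
    · have h3 : ¬ Phi X hX β w ≤ r⁻¹ := fun h => h2 (this.1 h)
      simp [Set.indicator, hr, h2, h3, one_div]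
  · simp [Set.indicator, hr]

lemma measurableSet_Qset (X : Finset F) (β : F → ℝ) : MeasurableSet (Qset X β) := by
  have : Qset X β = ⋂ x ∈ X, {y : F | dot y (x.1, β x) ≤ 1} := by
    ext y
    simp [Qset]
  rw [this]
  apply Finset.measurableSet_biInter
  intro x _
  apply measurableSet_le _ measurable_const
  unfold dot dot2
  fun_prop

/-- The volume of the polar set by slicing in the height coordinate. -/
theorem volume_Qset (X : Finset F) (hX : X.Nonempty) (β : F → ℝ)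
    (hp : ∀ w, 0 < Phi X hX β w) (hn : ∀ w, 0 < Phi X hX (fun x => -β x) w) :
    volume (Qset X β) =
      ENNReal.ofReal (1 / 3) * (I3 (Phi X hX β) + I3 (Phi X hX (fun x => -β x))) := by
  have h0 : volume (Qset X β) = ∫⁻ r : ℝ, volume {u : ℝ × ℝ | ∀ x ∈ X, dot2 u x.1 + r * β x ≤ 1} := by
    rw [Measure.volume_eq_prod, Measure.prod_apply_symm (measurableSet_Qset X β)]
    apply lintegral_congr
    intro r
    congr 1
  rw [h0, mul_add, ← half_lemma X hX β hp, ← half_lemma X hX _ hn,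
    ← lintegral_add_compl _ (measurableSet_Ioi (a := (0 : ℝ)))]
  congr 1
  rw [compl_Ioi, setLIntegral_congr Iio_ae_eq_Iic.symm]
  have hneg := Measure.measurePreserving_neg (volume : Measure ℝ)
  have hemb : MeasurableEmbedding (Neg.neg : ℝ → ℝ) := (Homeomorph.neg ℝ).measurableEmbedding
  rw [← hneg.setLIntegral_comp_preimage_emb hemb _ (Iio (0 : ℝ))]
  have : Neg.neg ⁻¹' Iio (0 : ℝ) = Ioi 0 := by
    ext r
    simp
  rw [this]
  apply lintegral_congr
  intro r
  congr 1
  ext u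
  simp only [mem_ofPred_eq]
  refine forall₂_congr fun x _ => ?_
  have : -r * β x = r * -β x := by ring
  rw [this]

end Vale.Agent.Lib.P248
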