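import Vale.Agent.Lib.P248.BBL
import Vale.Agent.Lib.P248.PolarVol

/-!
Midpoint inequality for polar volumes along a vertical move: with a suitable vertical shift `s`,
the reciprocal of the polar volume of the midpoint body is at most the mean of the reciprocals.
-/

open MeasureTheory Set Filter Topology
open scoped ENNReal

namespace Vale.Agent.Lib.P248

namespace PM

variable (X : Finset F) (hX : X.Nonempty)

lemma continuous_phi (β : F → ℝ) : Continuous (Phi X hX β) := by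
  have h : Phi X hX β = X.sup' hX (fun x w => dot2 w x.1 + β x) := by
    funext w
    simp [Phi, Finset.sup'_apply]
  rw [h]
  apply Continuous.finset_sup'
  intro x _
  unfold dot2
  fun_prop

lemma le_phi (β : F → ℝ) (w : ℝ × ℝ) {x : F} (hx : x ∈ X) :
    dot2 w x.1 + β x ≤ Phi X hX β w :=
  Finset.le_sup' (fun x => dot2 w x.1 + β x) hx

lemma phi_sub (β : F → ℝ) (s : ℝ) (w : ℝ × ℝ) :
    Phi X hX (fun x => β x - s) w = Phi X hX β w - s := by
  apply le_antisymm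
  · rw [phi_le_iff]
    intro x hx
    have := le_phi X hX β w hx
    linarith
  · have h : Phi X hX β w ≤ Phi X hX (fun x => β x - s) w + s := by
      rw [phi_le_iff]
      intro x hx
      have := le_phi X hX (fun x => β x - s) w hx
      linarith
    linarith

lemma phi_mid (β1 β2 : F → ℝ) (w1 w2 : ℝ × ℝ) :
    Phi X hX (fun x => (β1 x + β2 x) / 2) ((1 / 2 : ℝ) • (w1 + w2))
      ≤ (Phi X hX β1 w1 + Phi X hX β2 w2) / 2 := by
  rw [phi_le_iff]
  intro x hx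
  have h1 := le_phi X hX β1 w1 hx
  have h2 := le_phi X hX β2 w2 hx
  have h3 : dot2 ((1 / 2 : ℝ) • (w1 + w2)) x.1 = (dot2 w1 x.1 + dot2 w2 x.1) / 2 := by
    simp only [dot2, Prod.smul_fst, Prod.smul_snd, Prod.fst_add, Prod.snd_add, smul_eq_mul]
    ring
  rw [h3]
  linarith

lemma phi_coercive {ε : ℝ} (h0 : ∀ w : ℝ × ℝ, ε * (|w.1| + |w.2|) ≤ X.sup' hX (fun x => dot2 w x.1))
    (β : F → ℝ) : ∃ B : ℝ, ∀ w, ε * (|w.1| + |w.2|) - B ≤ Phi X hX β w := by
  refine ⟨∑ x ∈ X, |β x|, fun w => ?_⟩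
  obtain ⟨x, hx, hxe⟩ := Finset.exists_mem_eq_sup' hX (fun x => dot2 w x.1)
  have h1 := h0 w
  rw [hxe] at h1
  have h2 := le_phi X hX β w hx
  have h3 : |β x| ≤ ∑ x ∈ X, |β x| :=
    Finset.single_le_sum (f := fun x => |β x|) (fun _ _ => abs_nonneg _) hx
  have h4 := neg_abs_le (β x)
  linarith

lemma phi_lip (β : F → ℝ) : ∃ L : ℝ, 0 ≤ L ∧ ∀ v w : ℝ × ℝ,
    Phi X hX β v ≤ Phi X hX β w + L * (|v.1 - w.1| + |v.2 - w.2|) := by
  refine ⟨∑ x ∈ X, (|x.1.1| + |x.1.2|), Finset.sum_nonneg (fun _ _ => by positivity), ?_⟩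
  intro v w
  rw [phi_le_iff]
  intro x hx
  have h1 := le_phi X hX β w hx
  have hL : |x.1.1| + |x.1.2| ≤ ∑ x ∈ X, (|x.1.1| + |x.1.2|) :=
    Finset.single_le_sum (f := fun x : F => |x.1.1| + |x.1.2|) (fun _ _ => by positivity) hx
  set L := ∑ x ∈ X, (|x.1.1| + |x.1.2|)
  have h2 : dot2 v x.1 = dot2 w x.1 + ((v.1 - w.1) * x.1.1 + (v.2 - w.2) * x.1.2) := by
    simp only [dot2]; ring
  have h3 : (v.1 - w.1) * x.1.1 ≤ |v.1 - w.1| * |x.1.1| := by
    rw [← abs_mul]; exact le_abs_self _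
  have h4 : (v.2 - w.2) * x.1.2 ≤ |v.2 - w.2| * |x.1.2| := by
    rw [← abs_mul]; exact le_abs_self _
  have h5 : |v.1 - w.1| * |x.1.1| ≤ |v.1 - w.1| * L := by
    apply mul_le_mul_of_nonneg_left _ (abs_nonneg _)
    have := abs_nonneg x.1.2
    linarith
  have h6 : |v.2 - w.2| * |x.1.2| ≤ |v.2 - w.2| * L := by
    apply mul_le_mul_of_nonneg_left _ (abs_nonneg _)
    have := abs_nonneg x.1.1
    linarith
  rw [h2]
  nlinarith

end PM

/-- Hypotheses on a profile `p` with minimum value `t`. -/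
structure GoodProfile (p : ℝ × ℝ → ℝ) (t : ℝ) : Prop where
  cont : Continuous p
  min_le : ∀ w, t ≤ p w
  coercive : ∃ ε B : ℝ, 0 < ε ∧ ∀ w, ε * (|w.1| + |w.2|) - B ≤ p w
  peak : ∃ (w₀ : ℝ × ℝ) (L : ℝ), 0 ≤ L ∧ ∀ v, p v ≤ t + L * (|v.1 - w₀.1| + |v.2 - w₀.2|)

namespace PM

lemma bound_of {ψ : ℝ × ℝ → ℝ} {ε B d : ℝ} (hε : 0 < ε) (hd : 0 < d) (h1 : ∀ w, d ≤ ψ w)
    (h2 : ∀ w, ε * (|w.1| + |w.2|) - B ≤ ψ w) :
    ∃ c : ℝ, 0 < c ∧ ∀ w, c * (1 + |w.1| + |w.2|) ≤ ψ w := by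
  set D : ℝ := d + |B| + 1 with hD
  have hDpos : 0 < D := by positivity
  set θ : ℝ := d / (2 * D) with hθ
  have hθ0 : 0 < θ := by positivity
  have hθ1 : θ ≤ 1 := by
    rw [hθ, div_le_one (by positivity)]
    have := abs_nonneg B
    linarith
  have hθD : θ * D = d / 2 := by
    rw [hθ]; field_simp
  refine ⟨min (θ * ε) (d / 2), lt_min (by positivity) (by positivity), ?_⟩
  intro w
  have hr : 0 ≤ |w.1| + |w.2| := by positivity
  have h3 := h1 w
  have h4 := h2 w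
  have h5 : θ * (ε * (|w.1| + |w.2|) - B) + (1 - θ) * d ≤ ψ w := by
    have h6 : θ * (ε * (|w.1| + |w.2|) - B) ≤ θ * ψ w := mul_le_mul_of_nonneg_left h4 hθ0.le
    have h7 : (1 - θ) * d ≤ (1 - θ) * ψ w := mul_le_mul_of_nonneg_left h3 (by linarith)
    nlinarith
  have h8 : d / 2 ≤ -θ * B + (1 - θ) * d := by
    have h9 : θ * B ≤ θ * |B| := mul_le_mul_of_nonneg_left (le_abs_self B) hθ0.le
    have h10 : θ * D = θ * d + θ * |B| + θ := by rw [hD]; ring
    nlinarith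
  have h11 : min (θ * ε) (d / 2) * (1 + |w.1| + |w.2|)
      = min (θ * ε) (d / 2) * 1 + min (θ * ε) (d / 2) * (|w.1| + |w.2|) := by ring
  rw [h11]
  have h12 : min (θ * ε) (d / 2) * 1 ≤ d / 2 := by
    rw [mul_one]; exact min_le_right _ _
  have h13 : min (θ * ε) (d / 2) * (|w.1| + |w.2|) ≤ θ * ε * (|w.1| + |w.2|) :=
    mul_le_mul_of_nonneg_right (min_le_left _ _) hr
  nlinarith

/-- The inverse cube integral of `p - σ`, as a real number. -/
noncomputable def Fp (p : ℝ × ℝ → ℝ) (σ : ℝ) : ℝ := (I3 (fun w => p w - σ)).toReal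

end PM

namespace GoodProfile

open PM

variable {p : ℝ × ℝ → ℝ} {t : ℝ}

lemma bound (h : GoodProfile p t) {σ : ℝ} (hσ : σ < t) :
    ∃ c : ℝ, 0 < c ∧ ∀ w, c * (1 + |w.1| + |w.2|) ≤ p w - σ := by
  obtain ⟨ε, B, hε, hB⟩ := h.coercive
  apply bound_of (ε := ε) (B := B + σ) (d := t - σ) hε (by linarith)
  · intro w
    have := h.min_le w
    linarith
  · intro w
    have := hB w
    linarith

lemma cont_sub (h : GoodProfile p t) (σ : ℝ) : Continuous (fun w => p w - σ) :=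
  h.cont.sub continuous_const

lemma ne_top (h : GoodProfile p t) {σ : ℝ} (hσ : σ < t) : I3 (fun w => p w - σ) ≠ ⊤ := by
  obtain ⟨c, hc, hb⟩ := h.bound hσ
  exact I3_ne_top _ c hc (h.cont_sub σ) hb

lemma ne_zero (h : GoodProfile p t) {σ : ℝ} (hσ : σ < t) : I3 (fun w => p w - σ) ≠ 0 := by
  apply I3_ne_zero _ (h.cont_sub σ)
  intro w
  have := h.min_le w
  linarith

lemma Fp_pos (h : GoodProfile p t) {σ : ℝ} (hσ : σ < t) : 0 < Fp p σ :=
  ENNReal.toReal_pos (h.ne_zero hσ) (h.ne_top hσ)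

lemma Fp_mono (h : GoodProfile p t) {σ σ' : ℝ} (hσ : σ ≤ σ') (hσ' : σ' < t) :
    Fp p σ ≤ Fp p σ' := by
  apply ENNReal.toReal_mono (h.ne_top hσ')
  unfold I3
  apply lintegral_mono
  intro w
  apply ENNReal.ofReal_le_ofReal
  have h1 := h.min_le w
  have h2 : 0 < p w - σ' := by linarith
  have h3 : p w - σ' ≤ p w - σ := by linarith
  exact pow_le_pow_left₀ (inv_nonneg.2 (by linarith)) (inv_anti₀ h2 h3) 3

lemma Fp_continuousOn (h : GoodProfile p t) : ContinuousOn (Fp p) (Iio t) := by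
  intro s₀ hs₀
  have hs₀' : s₀ < t := hs₀
  apply ContinuousAt.continuousWithinAt
  set s₁ := (s₀ + t) / 2 with hs₁
  have h01 : s₀ < s₁ := by rw [hs₁]; linarith
  have h1t : s₁ < t := by rw [hs₁]; linarith
  have hev : ∀ᶠ s in 𝓝 s₀, s < s₁ := eventually_lt_nhds h01
  have hlim : Tendsto (fun s => I3 (fun w => p w - s)) (𝓝 s₀) (𝓝 (I3 (fun w => p w - s₀))) := by
    unfold I3
    apply tendsto_lintegral_filter_of_dominated_convergence
      (fun w => ENNReal.ofReal ((p w - s₁)⁻¹ ^ 3))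
    · apply Filter.Eventually.of_forall
      intro s
      exact (((h.cont.sub continuous_const).measurable.inv).pow_const 3).ennreal_ofReal
    · filter_upwards [hev] with s hs
      apply Filter.Eventually.of_forall
      intro w
      apply ENNReal.ofReal_le_ofReal
      have h1 := h.min_le w
      have h2 : 0 < p w - s₁ := by linarith
      have h3 : p w - s₁ ≤ p w - s := by linarith
      exact pow_le_pow_left₀ (inv_nonneg.2 (by linarith)) (inv_anti₀ h2 h3) 3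
    · exact h.ne_top h1t
    · apply Filter.Eventually.of_forall
      intro w
      apply ENNReal.continuous_ofReal.continuousAt.tendsto.comp
      have h1 := h.min_le w
      have h2 : p w - s₀ ≠ 0 := by
        have : 0 < p w - s₀ := by linarith
        exact this.ne'
      have h3 : ContinuousAt (fun s : ℝ => (p w - s)⁻¹ ^ 3) s₀ :=
        (ContinuousAt.inv₀ (by fun_prop) h2).pow 3
      exact h3
  exact (ENNReal.tendsto_toReal (h.ne_top hs₀')).comp hlim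

lemma Fp_large (h : GoodProfile p t) (M : ℝ) :
    ∃ η : ℝ, 0 < η ∧ ∀ σ, t - η < σ → σ < t → M ≤ Fp p σ := by
  obtain ⟨w₀, L, hL, hpk⟩ := h.peak
  set K : ℝ := (1 + 2 * L) ^ 3 with hK
  have hK0 : 0 < K := by positivity
  set η : ℝ := 4 / (K * (|M| + 1)) with hη
  have hηpos : 0 < η := by positivity
  refine ⟨η, hηpos, ?_⟩
  intro σ hσ1 hσ2
  set e := t - σ with he
  have he0 : 0 < e := by rw [he]; linarith
  have heη : e < η := by rw [he]; linarith
  set S : Set (ℝ × ℝ) := Icc (w₀.1 - e) (w₀.1 + e) ×ˢ Icc (w₀.2 - e) (w₀.2 + e) with hS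
  have hSm : MeasurableSet S := measurableSet_Icc.prod measurableSet_Icc
  have hvol : volume S = ENNReal.ofReal (2 * e) * ENNReal.ofReal (2 * e) := by
    rw [hS, Measure.volume_eq_prod, Measure.prod_prod, Real.volume_Icc, Real.volume_Icc]
    congr 2 <;> ring
  have hin : ∀ w ∈ S, ENNReal.ofReal (((1 + 2 * L) * e)⁻¹ ^ 3)
      ≤ ENNReal.ofReal ((p w - σ)⁻¹ ^ 3) := by
    intro w hw
    apply ENNReal.ofReal_le_ofReal
    have h1 := h.min_le w
    have h2 : 0 < p w - σ := by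
      have : σ < t := hσ2
      linarith
    have h3 : p w - σ ≤ (1 + 2 * L) * e := by
      have h4 := hpk w
      have h5 : |w.1 - w₀.1| ≤ e := by
        rw [abs_le]
        have := hw.1
        constructor <;> linarith [this.1, this.2]
      have h6 : |w.2 - w₀.2| ≤ e := by
        rw [abs_le]
        have := hw.2
        constructor <;> linarith [this.1, this.2]
      have h7 : L * (|w.1 - w₀.1| + |w.2 - w₀.2|) ≤ L * (e + e) :=
        mul_le_mul_of_nonneg_left (add_le_add h5 h6) hL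
      have h8 : t - σ = e := rfl
      nlinarith
    exact pow_le_pow_left₀ (inv_nonneg.2 (by linarith)) (inv_anti₀ h2 h3) 3
  have hlow : ENNReal.ofReal (((1 + 2 * L) * e)⁻¹ ^ 3) * volume S ≤ I3 (fun w => p w - σ) := by
    unfold I3
    calc ENNReal.ofReal (((1 + 2 * L) * e)⁻¹ ^ 3) * volume S
        = ∫⁻ _ in S, ENNReal.ofReal (((1 + 2 * L) * e)⁻¹ ^ 3) := by
          rw [setLIntegral_const]
      _ ≤ ∫⁻ w in S, ENNReal.ofReal ((p w - σ)⁻¹ ^ 3) :=
          setLIntegral_mono' hSm hin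
      _ ≤ ∫⁻ w, ENNReal.ofReal ((p w - σ)⁻¹ ^ 3) := setLIntegral_le_lintegral _ _
  have hreal := ENNReal.toReal_mono (h.ne_top hσ2) hlow
  rw [hvol, ENNReal.toReal_mul, ENNReal.toReal_mul, ENNReal.toReal_ofReal (by positivity),
    ENNReal.toReal_ofReal (by positivity)] at hreal
  have hval : ((1 + 2 * L) * e)⁻¹ ^ 3 * (2 * e * (2 * e)) = 4 / (K * e) := by
    rw [hK]
    field_simp
    norm_num
  rw [hval] at hreal
  refine le_trans ?_ hreal
  have hM : M ≤ |M| + 1 := by linarith [le_abs_self M]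
  refine hM.trans ?_
  rw [le_div_iff₀ (by positivity)]
  have h1 : e * (K * (|M| + 1)) < 4 := by
    rw [hη, lt_div_iff₀ (by positivity)] at heη
    exact heη
  nlinarith

end GoodProfile

namespace PM

/-- Balance for large values near the end of the interval. -/
lemma exists_big {P Q R S : ℝ × ℝ → ℝ} {tP tQ tR tS : ℝ}
    (hP : GoodProfile P tP) (hQ : GoodProfile Q tQ) (hR : GoodProfile R tR)
    (hS : GoodProfile S tS) {s₀ : ℝ} (h1 : s₀ < tP) (h2 : s₀ < tQ) (h3 : -s₀ < tR)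
    (h4 : -s₀ < tS) :
    ∃ s, s₀ < s ∧ s < tP ∧ s < tQ ∧ Fp R (-s) * Fp S (-s) < Fp P s * Fp Q s := by
  have hP0 := hP.Fp_pos h1
  have hQ0 := hQ.Fp_pos h2
  have hR0 := hR.Fp_pos h3
  have hS0 := hS.Fp_pos h4
  set C := Fp R (-s₀) * Fp S (-s₀) with hC
  have hC0 : 0 < C := by positivity
  -- common estimate
  have hbd : ∀ s, s₀ ≤ s → Fp R (-s) * Fp S (-s) ≤ C := by
    intro s hs
    have hs' : -s ≤ -s₀ := by linarith
    have h5 := hR.Fp_mono hs' h3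
    have h6 := hS.Fp_mono hs' h4
    have h7 := hR.Fp_pos (lt_of_le_of_lt hs' h3)
    have h8 := hS.Fp_pos (lt_of_le_of_lt hs' h4)
    exact mul_le_mul h5 h6 h8.le (by linarith)
  rcases le_total tP tQ with hPQ | hQP
  · -- the first factor is large near `tP`
    obtain ⟨η, hη, hlarge⟩ := hP.Fp_large ((C + 1) / Fp Q s₀)
    set s := max s₀ (tP - η / 2) + (tP - max s₀ (tP - η / 2)) / 2 with hs
    have hm1 : s₀ ≤ max s₀ (tP - η / 2) := le_max_left _ _
    have hm2 : tP - η / 2 ≤ max s₀ (tP - η / 2) := le_max_right _ _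
    have hm3 : max s₀ (tP - η / 2) < tP := max_lt h1 (by linarith)
    have hs1 : s₀ < s := by rw [hs]; linarith
    have hs2 : s < tP := by rw [hs]; linarith
    have hs3 : tP - η < s := by rw [hs]; linarith
    refine ⟨s, hs1, hs2, lt_of_lt_of_le hs2 hPQ, ?_⟩
    have h5 := hlarge s hs3 hs2
    have h6 := hQ.Fp_mono hs1.le (lt_of_lt_of_le hs2 hPQ)
    have h7 := hbd s hs1.le
    have h8 : C + 1 ≤ Fp P s * Fp Q s₀ := by
      rwa [div_le_iff₀ hQ0] at h5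
    have h9 : Fp P s * Fp Q s₀ ≤ Fp P s * Fp Q s :=
      mul_le_mul_of_nonneg_left h6 (hP.Fp_pos hs2).le
    linarith
  · obtain ⟨η, hη, hlarge⟩ := hQ.Fp_large ((C + 1) / Fp P s₀)
    set s := max s₀ (tQ - η / 2) + (tQ - max s₀ (tQ - η / 2)) / 2 with hs
    have hm1 : s₀ ≤ max s₀ (tQ - η / 2) := le_max_left _ _
    have hm2 : tQ - η / 2 ≤ max s₀ (tQ - η / 2) := le_max_right _ _
    have hm3 : max s₀ (tQ - η / 2) < tQ := max_lt h2 (by linarith)
    have hs1 : s₀ < s := by rw [hs]; linarith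
    have hs2 : s < tQ := by rw [hs]; linarith
    have hs3 : tQ - η < s := by rw [hs]; linarith
    refine ⟨s, hs1, lt_of_lt_of_le hs2 hQP, hs2, ?_⟩
    have h5 := hlarge s hs3 hs2
    have h6 := hP.Fp_mono hs1.le (lt_of_lt_of_le hs2 hQP)
    have h7 := hbd s hs1.le
    have h8 : C + 1 ≤ Fp Q s * Fp P s₀ := by
      rwa [div_le_iff₀ hP0] at h5
    have h9 : Fp Q s * Fp P s₀ ≤ Fp Q s * Fp P s :=
      mul_le_mul_of_nonneg_left h6 (hQ.Fp_pos hs2).le
    nlinarith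

/-- The balancing shift. -/
lemma exists_balance {P1 N1 P2 N2 : ℝ × ℝ → ℝ} {t1 u1 t2 u2 : ℝ}
    (hP1 : GoodProfile P1 t1) (hN1 : GoodProfile N1 u1)
    (hP2 : GoodProfile P2 t2) (hN2 : GoodProfile N2 u2) {s₀ : ℝ}
    (h1 : s₀ < t1) (h2 : s₀ < u2) (h3 : -s₀ < u1) (h4 : -s₀ < t2) :
    ∃ s, s < t1 ∧ s < u2 ∧ -s < u1 ∧ -s < t2 ∧
      Fp P1 s * Fp N2 s = Fp N1 (-s) * Fp P2 (-s) := by
  obtain ⟨sp, hp0, hp1, hp2, hpg⟩ := exists_big hP1 hN2 hN1 hP2 h1 h2 h3 h4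
  obtain ⟨u, hu0, hu1, hu2, hug⟩ := exists_big hN1 hP2 hP1 hN2 h3 h4
    (by rw [neg_neg]; exact h1) (by rw [neg_neg]; exact h2)
  set sm := -u with hsm
  have hlo : sm ≤ sp := by rw [hsm]; linarith
  have hmem : ∀ s ∈ Icc sm sp, s < t1 ∧ s < u2 ∧ -s < u1 ∧ -s < t2 := by
    intro s hs
    refine ⟨lt_of_le_of_lt hs.2 hp1, lt_of_le_of_lt hs.2 hp2, ?_, ?_⟩
    · have : -s ≤ u := by have := hs.1; rw [hsm] at this; linarith
      linarith
    · have : -s ≤ u := by have := hs.1; rw [hsm] at this; linarith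
      linarith
  have hcont : ContinuousOn (fun s => Fp P1 s * Fp N2 s - Fp N1 (-s) * Fp P2 (-s)) (Icc sm sp) := by
    apply ContinuousOn.sub
    · apply ContinuousOn.mul
      · exact hP1.Fp_continuousOn.mono (fun s hs => (hmem s hs).1)
      · exact hN2.Fp_continuousOn.mono (fun s hs => (hmem s hs).2.1)
    · apply ContinuousOn.mul
      · exact hN1.Fp_continuousOn.comp continuous_neg.continuousOn (fun s hs => (hmem s hs).2.2.1)
      · exact hP2.Fp_continuousOn.comp continuous_neg.continuousOn (fun s hs => (hmem s hs).2.2.2)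
  have hneg : (fun s => Fp P1 s * Fp N2 s - Fp N1 (-s) * Fp P2 (-s)) sm ≤ 0 := by
    simp only [hsm, neg_neg]
    linarith
  have hpos : 0 ≤ (fun s => Fp P1 s * Fp N2 s - Fp N1 (-s) * Fp P2 (-s)) sp := by
    simp only
    linarith
  obtain ⟨s, hs, hsz⟩ := intermediate_value_Icc hlo hcont ⟨hneg, hpos⟩
  obtain ⟨h5, h6, h7, h8⟩ := hmem s hs
  refine ⟨s, h5, h6, h7, h8, ?_⟩
  simp only at hsz
  linarith

/-- The final algebra. -/
lemma balance_algebra {m₁ m₂ a₁ a₂ b₁ b₂ : ℝ} (hm₁ : 0 < m₁) (hm₂ : 0 < m₂)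
    (ha₁ : 0 < a₁) (ha₂ : 0 < a₂) (hb₁ : 0 < b₁) (hb₂ : 0 < b₂)
    (h1 : 2 / m₁ ≤ 1 / a₁ + 1 / b₁) (h2 : 2 / m₂ ≤ 1 / a₂ + 1 / b₂)
    (hb : a₁ * b₂ = a₂ * b₁) :
    2 / (1 / 3 * (m₁ + m₂)) ≤ 1 / (1 / 3 * (a₁ + a₂)) + 1 / (1 / 3 * (b₁ + b₂)) := by
  -- write everything with the ratio
  obtain ⟨ρ, hρ0, e1, e2⟩ : ∃ ρ : ℝ, 0 < ρ ∧ a₁ = ρ * a₂ ∧ b₁ = ρ * b₂ := by
    refine ⟨a₁ / a₂, by positivity, by field_simp, ?_⟩
    have e3 : a₁ = (a₁ / a₂) * a₂ := by field_simp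
    have : a₂ * b₁ = a₂ * ((a₁ / a₂) * b₂) := by
      rw [← hb]
      field_simp
    exact mul_left_cancel₀ ha₂.ne' this
  subst e1 e2
  have h3 : 2 * (ρ * a₂ * (ρ * b₂)) ≤ m₁ * (ρ * a₂ + ρ * b₂) := by
    have h4 : 1 / (ρ * a₂) + 1 / (ρ * b₂) = (ρ * a₂ + ρ * b₂) / (ρ * a₂ * (ρ * b₂)) := by
      field_simp
      ring
    rw [h4, div_le_div_iff₀ hm₁ (by positivity)] at h1
    linarith
  have h5 : 2 * (a₂ * b₂) ≤ m₂ * (a₂ + b₂) := by
    have h4 : 1 / a₂ + 1 / b₂ = (a₂ + b₂) / (a₂ * b₂) := by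
      field_simp
      ring
    rw [h4, div_le_div_iff₀ hm₂ (by positivity)] at h2
    linarith
  have h6 : 2 * ρ * (a₂ * b₂) ≤ m₁ * (a₂ + b₂) := by
    have : ρ * (2 * ρ * (a₂ * b₂)) ≤ ρ * (m₁ * (a₂ + b₂)) := by nlinarith
    exact le_of_mul_le_mul_left this hρ0
  have h7 : 2 * (1 + ρ) * (a₂ * b₂) ≤ (m₁ + m₂) * (a₂ + b₂) := by nlinarith
  have h8 : 1 / (1 / 3 * (ρ * a₂ + a₂)) + 1 / (1 / 3 * (ρ * b₂ + b₂))
      = 3 * (a₂ + b₂) / ((1 + ρ) * (a₂ * b₂)) := by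
    field_simp
    ring
  rw [h8, show (2 : ℝ) / (1 / 3 * (m₁ + m₂)) = 6 / (m₁ + m₂) by field_simp; ring,
    div_le_div_iff₀ (by positivity) (by positivity)]
  nlinarith

lemma phi_min_exists (X : Finset F) (hX : X.Nonempty) {ε : ℝ} (hε : 0 < ε)
    (h0 : ∀ w : ℝ × ℝ, ε * (|w.1| + |w.2|) ≤ X.sup' hX (fun x => dot2 w x.1)) (β : F → ℝ) :
    ∃ w₀, ∀ w, Phi X hX β w₀ ≤ Phi X hX β w := by
  obtain ⟨B, hB⟩ := phi_coercive X hX h0 β
  apply Continuous.exists_forall_le (continuous_phi X hX β)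
  have h1 : Tendsto (fun w : ℝ × ℝ => ε * ‖w‖ + (-B)) (cocompact _) atTop :=
    tendsto_atTop_add_const_right _ _ (tendsto_norm_cocompact_atTop.const_mul_atTop hε)
  apply tendsto_atTop_mono _ h1
  intro w
  have h2 : ‖w‖ ≤ |w.1| + |w.2| := by
    rw [Prod.norm_def, Real.norm_eq_abs, Real.norm_eq_abs]
    exact max_le (le_add_of_nonneg_right (abs_nonneg _)) (le_add_of_nonneg_left (abs_nonneg _))
  have h3 := hB w
  have h4 : ε * ‖w‖ ≤ ε * (|w.1| + |w.2|) := mul_le_mul_of_nonneg_left h2 hε.le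
  linarith

lemma goodProfile (X : Finset F) (hX : X.Nonempty) {ε : ℝ} (hε : 0 < ε)
    (h0 : ∀ w : ℝ × ℝ, ε * (|w.1| + |w.2|) ≤ X.sup' hX (fun x => dot2 w x.1)) (β : F → ℝ) :
    ∃ (w₀ : ℝ × ℝ), GoodProfile (Phi X hX β) (Phi X hX β w₀) := by
  obtain ⟨w₀, hw₀⟩ := phi_min_exists X hX hε h0 β
  obtain ⟨B, hB⟩ := phi_coercive X hX h0 β
  obtain ⟨L, hL, hlip⟩ := phi_lip X hX β
  exact ⟨w₀, ⟨continuous_phi X hX β, hw₀, ⟨ε, B, hε, hB⟩, ⟨w₀, L, hL, fun v => hlip v w₀⟩⟩⟩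

lemma shrink {ψ : ℝ × ℝ → ℝ} {c c' : ℝ} (h : c' ≤ c)
    (hb : ∀ w, c * (1 + |w.1| + |w.2|) ≤ ψ w) : ∀ w, c' * (1 + |w.1| + |w.2|) ≤ ψ w := by
  intro w
  refine le_trans ?_ (hb w)
  apply mul_le_mul_of_nonneg_right h
  positivity

end PM

open PM

/-- positivity and finiteness of polar volumes -/
theorem Qset_volume_pos_finite (X : Finset F) (hX : X.Nonempty) (β : F → ℝ)
    (ε : ℝ) (hε : 0 < ε) (h0 : ∀ w : ℝ × ℝ, ε * (|w.1| + |w.2|) ≤ X.sup' hX (fun x => dot2 w x.1))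
    (δ : ℝ) (hδ : 0 < δ)
    (hz1 : ∀ w, δ ≤ Phi X hX β w) (hz2 : ∀ w, δ ≤ Phi X hX (fun x => -β x) w) :
    volume (Qset X β) ≠ 0 ∧ volume (Qset X β) ≠ ⊤ := by
  obtain ⟨B1, hB1⟩ := phi_coercive X hX h0 β
  obtain ⟨B2, hB2⟩ := phi_coercive X hX h0 (fun x => -β x)
  obtain ⟨c1, hc1, hb1⟩ := bound_of hε hδ hz1 hB1
  obtain ⟨c2, hc2, hb2⟩ := bound_of hε hδ hz2 hB2
  have hp : ∀ w, 0 < Phi X hX β w := fun w => lt_of_lt_of_le hδ (hz1 w)
  have hn : ∀ w, 0 < Phi X hX (fun x => -β x) w := fun w => lt_of_lt_of_le hδ (hz2 w)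
  rw [volume_Qset X hX β hp hn]
  have t1 := I3_ne_top _ c1 hc1 (continuous_phi X hX β) hb1
  have t2 := I3_ne_top _ c2 hc2 (continuous_phi X hX _) hb2
  have z1 := I3_ne_zero _ (continuous_phi X hX β) hp
  constructor
  · apply mul_ne_zero
    · simp
    · intro h
      exact z1 (add_eq_zero.1 h).1
  · exact ENNReal.mul_ne_top ENNReal.ofReal_ne_top (ENNReal.add_ne_top.2 ⟨t1, t2⟩)

theorem polar_midpoint (X : Finset F) (hX : X.Nonempty) (β1 β2 : F → ℝ)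
    (ε : ℝ) (hε : 0 < ε) (h0 : ∀ w : ℝ × ℝ, ε * (|w.1| + |w.2|) ≤ X.sup' hX (fun x => dot2 w x.1))
    (δ : ℝ) (hδ : 0 < δ)
    (hz1 : ∀ w, δ ≤ Phi X hX (fun x => (β1 x + β2 x) / 2) w)
    (hz2 : ∀ w, δ ≤ Phi X hX (fun x => -((β1 x + β2 x) / 2)) w)
    (y1 δ1 : ℝ) (hδ1 : 0 < δ1)
    (t11 : ∀ w, y1 + δ1 ≤ Phi X hX β1 w) (t12 : ∀ w, -y1 + δ1 ≤ Phi X hX (fun x => -β1 x) w)
    (y2 δ2 : ℝ) (hδ2 : 0 < δ2)
    (t21 : ∀ w, y2 + δ2 ≤ Phi X hX β2 w) (t22 : ∀ w, -y2 + δ2 ≤ Phi X hX (fun x => -β2 x) w) :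
    ∃ s δ' : ℝ, 0 < δ' ∧
      (∀ w, δ' ≤ Phi X hX (fun x => β1 x - s) w) ∧
      (∀ w, δ' ≤ Phi X hX (fun x => -(β1 x - s)) w) ∧
      (∀ w, δ' ≤ Phi X hX (fun x => β2 x + s) w) ∧
      (∀ w, δ' ≤ Phi X hX (fun x => -(β2 x + s)) w) ∧
      2 / (volume (Qset X (fun x => (β1 x + β2 x) / 2))).toReal ≤
        1 / (volume (Qset X (fun x => β1 x - s))).toReal +
          1 / (volume (Qset X (fun x => β2 x + s))).toReal := by
  set p1 := Phi X hX β1 with hp1def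
  set n1 := Phi X hX (fun x => -β1 x) with hn1def
  set p2 := Phi X hX β2 with hp2def
  set n2 := Phi X hX (fun x => -β2 x) with hn2def
  set pm := Phi X hX (fun x => (β1 x + β2 x) / 2) with hpmdef
  set nm := Phi X hX (fun x => -((β1 x + β2 x) / 2)) with hnmdef
  obtain ⟨a1, hP1⟩ := goodProfile X hX hε h0 β1
  obtain ⟨a2, hN1⟩ := goodProfile X hX hε h0 (fun x => -β1 x)
  obtain ⟨a3, hP2⟩ := goodProfile X hX hε h0 β2
  obtain ⟨a4, hN2⟩ := goodProfile X hX hε h0 (fun x => -β2 x)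
  rw [← hp1def] at hP1
  rw [← hn1def] at hN1
  rw [← hp2def] at hP2
  rw [← hn2def] at hN2
  set t1 := p1 a1 with ht1
  set u1 := n1 a2 with hu1
  set t2 := p2 a3 with ht2
  set u2 := n2 a4 with hu2
  -- the midpoint profiles
  have hmidp : ∀ w1 w2 : ℝ × ℝ, pm ((1 / 2 : ℝ) • (w1 + w2)) ≤ (p1 w1 + p2 w2) / 2 :=
    fun w1 w2 => phi_mid X hX β1 β2 w1 w2
  have hmidn : ∀ w1 w2 : ℝ × ℝ, nm ((1 / 2 : ℝ) • (w1 + w2)) ≤ (n1 w1 + n2 w2) / 2 := by
    intro w1 w2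
    have h1 := phi_mid X hX (fun x => -β1 x) (fun x => -β2 x) w1 w2
    have h2 : (fun x => (-β1 x + -β2 x) / 2) = fun x => -((β1 x + β2 x) / 2) := by
      funext x; ring
    rwa [h2] at h1
  -- the bounds on the minima
  have e1 : y1 + δ1 ≤ t1 := t11 a1
  have e2 : -y1 + δ1 ≤ u1 := t12 a2
  have e3 : y2 + δ2 ≤ t2 := t21 a3
  have e4 : -y2 + δ2 ≤ u2 := t22 a4
  have e5 : 2 * δ ≤ t1 + t2 := by
    have := hz1 ((1 / 2 : ℝ) • (a1 + a3))
    have h2 := hmidp a1 a3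
    linarith
  have e6 : 2 * δ ≤ u1 + u2 := by
    have := hz2 ((1 / 2 : ℝ) • (a2 + a4))
    have h2 := hmidn a2 a4
    linarith
  -- an interior point
  set lo := max (-u1) (-t2) with hlo
  set hi := min t1 u2 with hhi
  have hlohi : lo < hi := by
    apply max_lt <;> apply lt_min <;> linarith
  set s₀ := (lo + hi) / 2 with hs₀
  have hs₀1 : lo < s₀ := by rw [hs₀]; linarith
  have hs₀2 : s₀ < hi := by rw [hs₀]; linarith
  have l1 : -u1 < s₀ := lt_of_le_of_lt (le_max_left _ _) hs₀1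
  have l2 : -t2 < s₀ := lt_of_le_of_lt (le_max_right _ _) hs₀1
  have l3 : s₀ < t1 := lt_of_lt_of_le hs₀2 (min_le_left _ _)
  have l4 : s₀ < u2 := lt_of_lt_of_le hs₀2 (min_le_right _ _)
  obtain ⟨s, hs1, hs2, hs3, hs4, hbal⟩ := exists_balance hP1 hN1 hP2 hN2 l3 l4 (by linarith)
    (by linarith)
  -- rewriting of the moved profiles
  have r1 : Phi X hX (fun x => β1 x - s) = fun w => p1 w - s := by
    funext w
    exact phi_sub X hX β1 s w
  have r2 : Phi X hX (fun x => -(β1 x - s)) = fun w => n1 w - (-s) := by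
    funext w
    have h1 : (fun x => -(β1 x - s)) = fun x => -β1 x - (-s) := by
      funext x; ring
    rw [h1]
    exact phi_sub X hX (fun x => -β1 x) (-s) w
  have r3 : Phi X hX (fun x => β2 x + s) = fun w => p2 w - (-s) := by
    funext w
    have h1 : (fun x => β2 x + s) = fun x => β2 x - (-s) := by
      funext x; ring
    rw [h1]
    exact phi_sub X hX β2 (-s) w
  have r4 : Phi X hX (fun x => -(β2 x + s)) = fun w => n2 w - s := by
    funext w
    have h1 : (fun x => -(β2 x + s)) = fun x => -β2 x - s := by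
      funext x; ring
    rw [h1]
    exact phi_sub X hX (fun x => -β2 x) s w
  -- the common margin
  set δ' := min (t1 - s) (min (u1 + s) (min (t2 + s) (u2 - s))) with hδ'
  have d1 : δ' ≤ t1 - s := min_le_left _ _
  have d2 : δ' ≤ u1 + s := (min_le_right _ _).trans (min_le_left _ _)
  have d3 : δ' ≤ t2 + s := (min_le_right _ _).trans ((min_le_right _ _).trans (min_le_left _ _))
  have d4 : δ' ≤ u2 - s := (min_le_right _ _).trans ((min_le_right _ _).trans (min_le_right _ _))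
  have hδ'pos : 0 < δ' := by
    apply lt_min (by linarith)
    apply lt_min (by linarith)
    apply lt_min <;> linarith
  have m1 : ∀ w, δ' ≤ p1 w - s := fun w => by have := hP1.min_le w; linarith
  have m2 : ∀ w, δ' ≤ n1 w - (-s) := fun w => by have := hN1.min_le w; linarith
  have m3 : ∀ w, δ' ≤ p2 w - (-s) := fun w => by have := hP2.min_le w; linarith
  have m4 : ∀ w, δ' ≤ n2 w - s := fun w => by have := hN2.min_le w; linarith
  refine ⟨s, δ', hδ'pos, ?_, ?_, ?_, ?_, ?_⟩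
  · rw [r1]; exact m1
  · rw [r2]; exact m2
  · rw [r3]; exact m3
  · rw [r4]; exact m4
  -- the volumes
  have hvm := volume_Qset X hX (fun x => (β1 x + β2 x) / 2)
    (fun w => lt_of_lt_of_le hδ (hz1 w)) (fun w => lt_of_lt_of_le hδ (hz2 w))
  have hv1 := volume_Qset X hX (fun x => β1 x - s)
    (by rw [r1]; exact fun w => lt_of_lt_of_le hδ'pos (m1 w))
    (by rw [r2]; exact fun w => lt_of_lt_of_le hδ'pos (m2 w))
  have hv2 := volume_Qset X hX (fun x => β2 x + s)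
    (by rw [r3]; exact fun w => lt_of_lt_of_le hδ'pos (m3 w))
    (by rw [r4]; exact fun w => lt_of_lt_of_le hδ'pos (m4 w))
  rw [r1, r2] at hv1
  rw [r3, r4] at hv2
  -- bounds for the three pairs
  obtain ⟨Bm, hBm⟩ := phi_coercive X hX h0 (fun x => (β1 x + β2 x) / 2)
  obtain ⟨Bn, hBn⟩ := phi_coercive X hX h0 (fun x => -((β1 x + β2 x) / 2))
  obtain ⟨cm, hcm, hbm⟩ := bound_of hε hδ hz1 hBm
  obtain ⟨cn, hcn, hbn⟩ := bound_of hε hδ hz2 hBn
  obtain ⟨c1, hc1, hb1⟩ := hP1.bound hs1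
  obtain ⟨c2, hc2, hb2⟩ := hN1.bound hs3
  obtain ⟨c3, hc3, hb3⟩ := hP2.bound hs4
  obtain ⟨c4, hc4, hb4⟩ := hN2.bound hs2
  have hcmc : Continuous pm := continuous_phi X hX _
  have hcnc : Continuous nm := continuous_phi X hX _
  -- the inequality for the positive part
  have hplus : 2 / (I3 pm).toReal ≤ 1 / (I3 (fun w => p1 w - s)).toReal
      + 1 / (I3 (fun w => p2 w - (-s))).toReal := by
    apply bbl_plane pm (fun w => p1 w - s) (fun w => p2 w - (-s)) (min cm (min c1 c3))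
      (lt_min hcm (lt_min hc1 hc3)) hcmc (hP1.cont_sub s) (hP2.cont_sub (-s))
      (shrink (min_le_left _ _) hbm)
      (shrink ((min_le_right _ _).trans (min_le_left _ _)) hb1)
      (shrink ((min_le_right _ _).trans (min_le_right _ _)) hb3)
    intro w1 w2
    have := hmidp w1 w2
    linarith
  have hminus : 2 / (I3 nm).toReal ≤ 1 / (I3 (fun w => n1 w - (-s))).toReal
      + 1 / (I3 (fun w => n2 w - s)).toReal := by
    apply bbl_plane nm (fun w => n1 w - (-s)) (fun w => n2 w - s) (min cn (min c2 c4))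
      (lt_min hcn (lt_min hc2 hc4)) hcnc (hN1.cont_sub (-s)) (hN2.cont_sub s)
      (shrink (min_le_left _ _) hbn)
      (shrink ((min_le_right _ _).trans (min_le_left _ _)) hb2)
      (shrink ((min_le_right _ _).trans (min_le_right _ _)) hb4)
    intro w1 w2
    have := hmidn w1 w2
    linarith
  -- conversion to reals
  have fm1 : I3 pm ≠ ⊤ := I3_ne_top _ cm hcm hcmc hbm
  have fm2 : I3 nm ≠ ⊤ := I3_ne_top _ cn hcn hcnc hbn
  have zm1 : I3 pm ≠ 0 := I3_ne_zero _ hcmc (fun w => lt_of_lt_of_le hδ (hz1 w))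
  have zm2 : I3 nm ≠ 0 := I3_ne_zero _ hcnc (fun w => lt_of_lt_of_le hδ (hz2 w))
  have vm : (volume (Qset X (fun x => (β1 x + β2 x) / 2))).toReal
      = 1 / 3 * ((I3 pm).toReal + (I3 nm).toReal) := by
    rw [hvm, ENNReal.toReal_mul, ENNReal.toReal_add fm1 fm2, ENNReal.toReal_ofReal (by norm_num)]
  have v1 : (volume (Qset X (fun x => β1 x - s))).toReal
      = 1 / 3 * (Fp p1 s + Fp n1 (-s)) := by
    rw [hv1, ENNReal.toReal_mul, ENNReal.toReal_add (hP1.ne_top hs1) (hN1.ne_top hs3),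
      ENNReal.toReal_ofReal (by norm_num)]
    rfl
  have v2 : (volume (Qset X (fun x => β2 x + s))).toReal
      = 1 / 3 * (Fp p2 (-s) + Fp n2 s) := by
    rw [hv2, ENNReal.toReal_mul, ENNReal.toReal_add (hP2.ne_top hs4) (hN2.ne_top hs2),
      ENNReal.toReal_ofReal (by norm_num)]
    rfl
  rw [vm, v1, v2]
  exact balance_algebra (ENNReal.toReal_pos zm1 fm1) (ENNReal.toReal_pos zm2 fm2)
    (hP1.Fp_pos hs1) (hN1.Fp_pos hs3) (hP2.Fp_pos hs4) (hN2.Fp_pos hs2) hplus hminus hbal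

end Vale.Agent.Lib.P248
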