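import Vale.Agent.Lib.P248.Defs

open MeasureTheory Set

namespace Vale.Agent.Lib.P248

/-- Steiner-type additivity of volume from the description of vertical slices. -/
theorem volume_add_of_slices (S0 S1 S2 : Set F) (D : Set (ℝ × ℝ)) (hD : Convex ℝ D)
    (c0 : IsCompact S0) (c1 : IsCompact S1) (c2 : IsCompact S2)
    (h0 : ∀ q y, (q, y) ∈ S0 → q ∈ D) (h1 : ∀ q y, (q, y) ∈ S1 → q ∈ D)
    (h2 : ∀ q y, (q, y) ∈ S2 → q ∈ D)
    (hs : ∀ q ∈ interior D, ∃ b1 t1 b2 t2 : ℝ, b1 ≤ t1 ∧ b2 ≤ t2 ∧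
      (∀ y, (q, y) ∈ S1 ↔ b1 ≤ y ∧ y ≤ t1) ∧ (∀ y, (q, y) ∈ S2 ↔ b2 ≤ y ∧ y ≤ t2) ∧
      (∀ y, (q, y) ∈ S0 ↔ (b1 + b2) / 2 ≤ y ∧ y ≤ (t1 + t2) / 2)) :
    volume S1 + volume S2 = 2 * volume S0 := by
  have m0 : MeasurableSet S0 := c0.measurableSet
  have m1 : MeasurableSet S1 := c1.measurableSet
  have m2 : MeasurableSet S2 := c2.measurableSet
  have hnull : (volume : Measure (ℝ × ℝ)) (frontier D) = 0 := hD.addHaar_frontier _
  have hae : ∀ᵐ q : ℝ × ℝ, volume (Prod.mk q ⁻¹' S1) + volume (Prod.mk q ⁻¹' S2) =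
      2 * volume (Prod.mk q ⁻¹' S0) := by
    have : ∀ᵐ q : ℝ × ℝ, q ∉ frontier D := measure_eq_zero_iff_ae_notMem.1 hnull
    filter_upwards [this] with q hq
    by_cases hqD : q ∈ D
    · have hqi : q ∈ interior D := by
        by_contra h
        exact hq ⟨subset_closure hqD, h⟩
      obtain ⟨b1, t1, b2, t2, hb1, hb2, e1, e2, e0⟩ := hs q hqi
      have s1 : Prod.mk q ⁻¹' S1 = Icc b1 t1 := by
        ext y
        simpa using e1 y
      have s2 : Prod.mk q ⁻¹' S2 = Icc b2 t2 := by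
        ext y
        simpa using e2 y
      have s0 : Prod.mk q ⁻¹' S0 = Icc ((b1 + b2) / 2) ((t1 + t2) / 2) := by
        ext y
        simpa using e0 y
      rw [s1, s2, s0, Real.volume_Icc, Real.volume_Icc, Real.volume_Icc,
        ← ENNReal.ofReal_add (by linarith) (by linarith)]
      have : (2 : ENNReal) = ENNReal.ofReal 2 := by simp
      rw [this, ← ENNReal.ofReal_mul (by norm_num)]
      congr 1
      ring
    · have s1 : Prod.mk q ⁻¹' S1 = ∅ := by
        ext y
        simp only [mem_preimage, mem_empty_iff_false, iff_false]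
        exact fun h => hqD (h1 q y h)
      have s2 : Prod.mk q ⁻¹' S2 = ∅ := by
        ext y
        simp only [mem_preimage, mem_empty_iff_false, iff_false]
        exact fun h => hqD (h2 q y h)
      have s0 : Prod.mk q ⁻¹' S0 = ∅ := by
        ext y
        simp only [mem_preimage, mem_empty_iff_false, iff_false]
        exact fun h => hqD (h0 q y h)
      simp [s1, s2, s0]
  rw [Measure.volume_eq_prod, Measure.prod_apply m0, Measure.prod_apply m1, Measure.prod_apply m2,
    ← lintegral_add_left (measurable_measure_prodMk_left m1),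
    ← lintegral_const_mul _ (measurable_measure_prodMk_left m0)]
  exact lintegral_congr_ae hae

end Vale.Agent.Lib.P248
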