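import Vale.Agent.Lib.P248.Chord4
import Vale.Agent.Lib.P248.PolarMid
import Vale.Agent.Lib.P248.VolAdd

open MeasureTheory Set
open scoped Pointwise

namespace Vale.Agent.Lib.P248

/-- The vertex set of a polar pair is nonempty. -/
theorem Pair.nonempty_X {X N : Finset F} (h : Pair X N) : X.Nonempty := by
  obtain ⟨ρ, hρ, hb⟩ := h.ball
  have h0 : (0 : F) ∈ convexHull ℝ (X : Set F) := hb 0 (by simp [hρ.le])
  by_contra hne
  rw [Finset.not_nonempty_iff_eq_empty] at hne
  simp [hne] at h0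

/-- Coercivity of the support function of the projection. -/
theorem Pair.coercive {X N : Finset F} (h : Pair X N) (hX : X.Nonempty) :
    ∃ ε > 0, ∀ w : ℝ × ℝ, ε * (|w.1| + |w.2|) ≤ X.sup' hX (fun x => dot2 w x.1) := by
  obtain ⟨ρ, hρ, hb⟩ := h.ball
  refine ⟨ρ / 2, by positivity, ?_⟩
  intro w
  have key : ∀ u : F, u ∈ convexHull ℝ (X : Set F) → u.2 = 0 →
      dot2 w u.1 ≤ X.sup' hX (fun x => dot2 w x.1) := by
    intro u hu hu2
    have := dot_le_of_mem_convexHull (S := (X : Set F)) (y := (w, 0))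
      (c := X.sup' hX (fun x => dot2 w x.1)) (by
        intro x hx
        have h1 : dot2 w x.1 ≤ X.sup' hX (fun x => dot2 w x.1) :=
          Finset.le_sup' (fun x : F => dot2 w x.1) (Finset.mem_coe.1 hx)
        simpa [dot] using h1) hu
    simpa [dot, hu2] using this
  have h1 : ρ * |w.1| ≤ X.sup' hX (fun x => dot2 w x.1) := by
    have hu := hb ((ρ * SignType.sign w.1, 0), 0) (by
      simp only [abs_mul, abs_of_pos hρ, abs_zero, add_zero]
      have : |((SignType.sign w.1 : SignType) : ℝ)| ≤ 1 := by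
        rcases lt_trichotomy w.1 0 with h | h | h <;> simp [h]
      nlinarith)
    have := key _ hu rfl
    have e : dot2 w (ρ * SignType.sign w.1, 0) = ρ * |w.1| := by
      simp only [dot2, mul_zero, add_zero]
      rcases lt_trichotomy w.1 0 with h | h | h
      · simp [h, abs_of_neg h]
        ring
      · simp [h]
      · simp [h, abs_of_pos h]
        ring
    rwa [e] at this
  have h2 : ρ * |w.2| ≤ X.sup' hX (fun x => dot2 w x.1) := by
    have hu := hb ((0, ρ * SignType.sign w.2), 0) (by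
      simp only [abs_mul, abs_of_pos hρ, abs_zero, add_zero, zero_add]
      have : |((SignType.sign w.2 : SignType) : ℝ)| ≤ 1 := by
        rcases lt_trichotomy w.2 0 with h | h | h <;> simp [h]
      nlinarith)
    have := key _ hu rfl
    have e : dot2 w (0, ρ * SignType.sign w.2) = ρ * |w.2| := by
      simp only [dot2, mul_zero, zero_add]
      rcases lt_trichotomy w.2 0 with h | h | h
      · simp [h, abs_of_neg h]
        ring
      · simp [h]
      · simp [h, abs_of_pos h]
        ring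
    rwa [e] at this
  linarith

/-- The support function bound for points of the hull of moved points. -/
theorem phi_ge {X : Finset F} (hX : X.Nonempty) (β : F → ℝ) {u : F}
    (hu : u ∈ convexHull ℝ ((fun x : F => ((x.1, β x) : F)) '' (X : Set F))) (w : ℝ × ℝ) :
    dot2 w u.1 + u.2 ≤ Phi X hX β w := by
  have := dot_le_of_mem_convexHull (S := (fun x : F => ((x.1, β x) : F)) '' (X : Set F)) (y := (w, 1))
    (c := Phi X hX β w) (by
      rintro _ ⟨x, hx, rfl⟩
      have h1 : dot2 w x.1 + β x ≤ Phi X hX β w :=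
        Finset.le_sup' (fun x : F => dot2 w x.1 + β x) (Finset.mem_coe.1 hx)
      simpa [dot] using h1) hu
  simpa [dot] using this

/-- The support function bound for the opposite direction. -/
theorem phi_ge_neg {X : Finset F} (hX : X.Nonempty) (β : F → ℝ) {u : F}
    (hu : u ∈ convexHull ℝ ((fun x : F => ((x.1, β x) : F)) '' (X : Set F))) (w : ℝ × ℝ) :
    dot2 w u.1 - u.2 ≤ Phi X hX (fun x => -β x) w := by
  have := dot_le_of_mem_convexHull (S := (fun x : F => ((x.1, β x) : F)) '' (X : Set F)) (y := (w, -1))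
    (c := Phi X hX (fun x => -β x) w) (by
      rintro _ ⟨x, hx, rfl⟩
      have h1 : dot2 w x.1 + -β x ≤ Phi X hX (fun x => -β x) w :=
        Finset.le_sup' (fun x : F => dot2 w x.1 + -β x) (Finset.mem_coe.1 hx)
      simpa [dot, sub_eq_add_neg] using h1) hu
  simpa [dot, sub_eq_add_neg] using this

/-- Positive spanning of moved points from the bounds on support functions. -/
theorem span_of_phi {X : Finset F} (hX : X.Nonempty) (β : F → ℝ) {ε : ℝ} (hε : 0 < ε)
    (h0 : ∀ w : ℝ × ℝ, ε * (|w.1| + |w.2|) ≤ X.sup' hX (fun x => dot2 w x.1))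
    {δ : ℝ} (hδ : 0 < δ)
    (h1 : ∀ w, δ ≤ Phi X hX β w) (h2 : ∀ w, δ ≤ Phi X hX (fun x => -β x) w)
    (y : F) (hy : y ≠ 0) :
    ∃ u ∈ X.image (fun x : F => ((x.1, β x) : F)), 0 < dot y u := by
  classical
  rcases lt_trichotomy y.2 0 with hr | hr | hr
  · -- negative last coordinate
    have hr' : 0 < -y.2 := by linarith
    have := h2 ((-y.2)⁻¹ • y.1)
    obtain ⟨x, hx, hxe⟩ := Finset.exists_mem_eq_sup' hX
      (fun x : F => dot2 ((-y.2)⁻¹ • y.1) x.1 + -β x)
    refine ⟨(x.1, β x), Finset.mem_image.2 ⟨x, hx, rfl⟩, ?_⟩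
    have e : Phi X hX (fun x => -β x) ((-y.2)⁻¹ • y.1) = dot2 ((-y.2)⁻¹ • y.1) x.1 + -β x := hxe
    rw [e] at this
    have h3 : 0 < dot2 ((-y.2)⁻¹ • y.1) x.1 + -β x := lt_of_lt_of_le hδ this
    have hne : y.2 ≠ 0 := hr.ne
    have e2 : dot y (x.1, β x) = (-y.2) * (dot2 ((-y.2)⁻¹ • y.1) x.1 + -β x) := by
      simp only [dot, dot2, Prod.smul_fst, Prod.smul_snd, smul_eq_mul]
      field_simp
      ring
    rw [e2]
    positivity
  · -- vanishing last coordinate
    have hw : y.1 ≠ 0 := by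
      intro hw
      apply hy
      ext
      · simpa using congrArg Prod.fst hw
      · simpa using congrArg Prod.snd hw
      · simpa using hr
    have hpos : 0 < |y.1.1| + |y.1.2| := by
      by_contra hcon
      have h3 : |y.1.1| + |y.1.2| = 0 := le_antisymm (not_lt.1 hcon) (by positivity)
      have h4 : y.1.1 = 0 := abs_eq_zero.1 (by linarith [abs_nonneg y.1.1, abs_nonneg y.1.2])
      have h5 : y.1.2 = 0 := abs_eq_zero.1 (by linarith [abs_nonneg y.1.1, abs_nonneg y.1.2])
      exact hw (Prod.ext h4 h5)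
    have := h0 y.1
    obtain ⟨x, hx, hxe⟩ := Finset.exists_mem_eq_sup' hX (fun x : F => dot2 y.1 x.1)
    refine ⟨(x.1, β x), Finset.mem_image.2 ⟨x, hx, rfl⟩, ?_⟩
    rw [hxe] at this
    have h3 : 0 < dot2 y.1 x.1 := lt_of_lt_of_le (by positivity) this
    simpa [dot, hr] using h3
  · -- positive last coordinate
    have := h1 (y.2⁻¹ • y.1)
    obtain ⟨x, hx, hxe⟩ := Finset.exists_mem_eq_sup' hX
      (fun x : F => dot2 (y.2⁻¹ • y.1) x.1 + β x)
    refine ⟨(x.1, β x), Finset.mem_image.2 ⟨x, hx, rfl⟩, ?_⟩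
    have e : Phi X hX β (y.2⁻¹ • y.1) = dot2 (y.2⁻¹ • y.1) x.1 + β x := hxe
    rw [e] at this
    have h3 : 0 < dot2 (y.2⁻¹ • y.1) x.1 + β x := lt_of_lt_of_le hδ this
    have e2 : dot y (x.1, β x) = y.2 * (dot2 (y.2⁻¹ • y.1) x.1 + β x) := by
      simp only [dot, dot2, Prod.smul_fst, Prod.smul_snd, smul_eq_mul]
      field_simp
    rw [e2]
    positivity

/-- The polar set of moved points is the set `Qset`. -/
theorem polarSet_image (X : Finset F) (β : F → ℝ) :
    polarSet ((X.image (fun x : F => ((x.1, β x) : F)) : Finset F) : Set F) = Qset X β := by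
  classical
  ext y
  simp only [polarSet, Qset, Finset.coe_image, mem_image, Finset.mem_coe, mem_ofPred_eq]
  constructor
  · intro h x hx
    exact h _ ⟨x, hx, rfl⟩
  · rintro h _ ⟨x, hx, rfl⟩
    exact h x hx

theorem Dn_translate (n l : F) (α : F → ℝ) (s : ℝ) (x : F) :
    Dn n (l - s • n) (fun x => α x - s) x = Dn n l α x := by
  simp only [Dn, dot2, Prod.fst_sub, Prod.snd_sub, Prod.smul_fst, Prod.smul_snd, smul_eq_mul]
  ring

/-- A chord stays a chord after a vertical translation. -/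
theorem Chord.translate {X N : Finset F} {α : F → ℝ} {L : F → F} (c : Chord X N α L) (s : ℝ) :
    Chord X N (fun x => α x - s) (fun n => L n - s • n) where
  eq := by
    intro n hn h2 x hx
    rw [c.eq n hn h2 x hx, dot_sub_left, dot_smul_left, (mem_tightPts.1 hx).2, mul_one]
  bd := by
    intro n hn h2 x hx
    rw [Dn_translate]
    exact c.bd n hn h2 x hx
  tp := by
    obtain ⟨n, hn, h2, x, hx, h1, h3⟩ := c.tp
    exact ⟨n, hn, h2, x, hx, h1, by rw [Dn_translate]; exact h3⟩
  tm := by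
    obtain ⟨n, hn, h2, x, hx, h1, h3⟩ := c.tm
    exact ⟨n, hn, h2, x, hx, h1, by rw [Dn_translate]; exact h3⟩
  nt := by
    rintro ⟨l, a, h⟩
    apply c.nt
    refine ⟨l, a + s, ?_⟩
    intro x hx
    have := h x hx
    linarith

/-- The moved polytope is thick in the vertical direction over the origin. -/
theorem Chord.thick {X N : Finset F} {α : F → ℝ} {L : F → F} (h : Pair X N) (c : Chord X N α L) :
    ∃ y δ : ℝ, 0 < δ ∧ (((0, y + δ) : F) ∈ Kt X α 1) ∧ (((0, y - δ) : F) ∈ Kt X α 1) := by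
  have h0 := zero_mem_interior_Dset h
  obtain ⟨n, hn, hn2, hq⟩ := cover h 1 one_ne_zero 0 h0
  obtain ⟨n', hn', hn2', hq'⟩ := cover h (-1) (by norm_num) 0 h0
  have hp : 0 < n.2 := by linarith
  have hp' : n'.2 < 0 := by linarith
  have ht : |(1 : ℝ)| ≤ 1 := by simp
  have hT := c.top_mem n hn hp.ne' 1 0 hq
  have hB := c.top_mem n' hn' hp'.ne 1 0 hq'
  set T := top n (L n) 1 0 with hTd
  set B := top n' (L n') 1 0 with hBd
  have hBT : B ≤ T := ((c.slice n n' hn hn' hp hp' 1 ht 0 hq hq' T).1 hT).1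
  rcases lt_or_eq_of_le hBT with hlt | heq
  · refine ⟨(B + T) / 2, (T - B) / 2, by linarith, ?_, ?_⟩
    · have : (B + T) / 2 + (T - B) / 2 = T := by ring
      rw [this]
      exact hT
    · have : (B + T) / 2 - (T - B) / 2 = B := by ring
      rw [this]
      exact hB
  · exfalso
    -- the two moved planes meet over the origin: then they are tight everywhere
    set P := mv n (L n) 1 with hP
    set P' := mv n' (L n') 1 with hP'
    set κ := cst (L n) 1 with hκ
    set κ' := cst (L n') 1 with hκ'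
    have e1 : dot P ((0, T) : F) = κ := dot_mv_top n (L n) hp.ne' 1 0
    have e2 : dot P' ((0, T) : F) = κ' := by
      rw [← heq]
      exact dot_mv_top n' (L n') hp'.ne 1 0
    have hP2 : P.2 = n.2 := rfl
    have hP'2 : P'.2 = n'.2 := rfl
    have hle : ∀ u ∈ Kt X α 1, dot P u ≤ κ := fun u hu => c.dot_le_K n hn hp.ne' 1 ht u hu
    have hle' : ∀ u ∈ Kt X α 1, dot P' u ≤ κ' := fun u hu => c.dot_le_K n' hn' hp'.ne 1 ht u hu
    -- the combination of the two functionals, horizontal
    let w : ℝ × ℝ := ((-n'.2) • P.1 + n.2 • P'.1)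
    have hcomb : ∀ u : F, (-n'.2) * dot P u + n.2 * dot P' u = dot2 w u.1 := by
      intro u
      simp only [dot, dot2, w, hP2, hP'2, Prod.fst_add, Prod.snd_add, Prod.smul_fst, Prod.smul_snd,
        smul_eq_mul]
      ring
    have hκ0 : (-n'.2) * κ + n.2 * κ' = 0 := by
      have := hcomb ((0, T) : F)
      rw [e1, e2] at this
      rw [this]
      simp [dot2]
    have hleK : ∀ u ∈ Kt X α 1, dot2 w u.1 ≤ 0 := by
      intro u hu
      rw [← hcomb]
      have a1 := mul_le_mul_of_nonneg_left (hle u hu) (by linarith : 0 ≤ -n'.2)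
      have a2 := mul_le_mul_of_nonneg_left (hle' u hu) hp.le
      linarith
    -- the horizontal functional vanishes since the origin is interior to the projection
    have hw0 : w = 0 := by
      by_contra hne
      obtain ⟨ε, hε, hmem⟩ := exists_pos_add_mem h0 w
      have hεw : (0 : ℝ × ℝ) + ε • w ∈ Dset X := hmem
      have hinc : Prod.fst '' Kt X α 1 = Dset X := by
        unfold Kt
        rw [fst_convexHull, Set.image_image]
        rfl
      rw [← hinc] at hεw
      obtain ⟨p, hp1, hp2⟩ := hεw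
      have := hleK p hp1
      rw [hp2] at this
      simp only [zero_add, dot2, Prod.smul_fst, Prod.smul_snd, smul_eq_mul] at this
      have hw2 : 0 < w.1 * w.1 + w.2 * w.2 := by
        have : w.1 ≠ 0 ∨ w.2 ≠ 0 := by
          by_contra hh
          push Not at hh
          exact hne (Prod.ext hh.1 hh.2)
        rcases this with h5 | h5
        · have := mul_self_pos.2 h5
          nlinarith [mul_self_nonneg w.2]
        · have := mul_self_pos.2 h5
          nlinarith [mul_self_nonneg w.1]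
      nlinarith
    have hcombzero : ∀ u ∈ Kt X α 1, dot P u = κ := by
      intro u hu
      have h5 := hcomb u
      rw [hw0] at h5
      simp only [dot2, Prod.fst_zero, Prod.snd_zero, zero_mul, add_zero] at h5
      have a1 := mul_le_mul_of_nonneg_left (hle u hu) (by linarith : 0 ≤ -n'.2)
      have a2 := mul_le_mul_of_nonneg_left (hle' u hu) hp.le
      have a3 : (-n'.2) * dot P u = (-n'.2) * κ := by linarith
      exact mul_left_cancel₀ (by linarith : -n'.2 ≠ 0) a3
    apply c.nt
    apply trivial_of_ratio n (L n) hp.ne' (-1)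
    intro x hx
    have hux : mvd α 1 x ∈ Kt X α 1 := subset_convexHull ℝ _ ⟨x, hx, rfl⟩
    have a := hcombzero _ hux
    have b := mv_spec n (L n) α 1 x
    rw [a] at b
    linarith

/-- Volume additivity along the chord. -/
theorem Chord.volume_add {X N : Finset F} {α : F → ℝ} {L : F → F} (h : Pair X N)
    (c : Chord X N α L) :
    volume (Kt X α 1) + volume (Kt X α (-1)) = 2 * volume (convexHull ℝ (X : Set F)) := by
  have ht1 : |(1 : ℝ)| ≤ 1 := by simp
  have htm : |(-1 : ℝ)| ≤ 1 := by simp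
  have ht0 : |(0 : ℝ)| ≤ 1 := by simp
  apply volume_add_of_slices (convexHull ℝ (X : Set F)) (Kt X α 1) (Kt X α (-1)) (Dset X)
    (convex_convexHull ℝ _) h.isCompact_conv (Kt_compact X α 1) (Kt_compact X α (-1))
  · intro q y hy
    rw [← Kt_zero X α] at hy
    exact fst_Kt X α 0 q y hy
  · intro q y hy
    exact fst_Kt X α 1 q y hy
  · intro q y hy
    exact fst_Kt X α (-1) q y hy
  · intro q hq
    obtain ⟨n, hn, hn2, hc⟩ := cover h 1 one_ne_zero q hq
    obtain ⟨n', hn', hn2', hc'⟩ := cover h (-1) (by norm_num) q hq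
    have hp : 0 < n.2 := by linarith
    have hp' : n'.2 < 0 := by linarith
    refine ⟨top n' (L n') 1 q, top n (L n) 1 q, top n' (L n') (-1) q, top n (L n) (-1) q, ?_, ?_,
      c.slice n n' hn hn' hp hp' 1 ht1 q hc hc', c.slice n n' hn hn' hp hp' (-1) htm q hc hc', ?_⟩
    · exact ((c.slice n n' hn hn' hp hp' 1 ht1 q hc hc' _).1 (c.top_mem n hn hp.ne' 1 q hc)).1
    · exact ((c.slice n n' hn hn' hp hp' (-1) htm q hc hc' _).1 (c.top_mem n hn hp.ne' (-1) q hc)).1
    · intro y
      rw [← Kt_zero X α, c.slice n n' hn hn' hp hp' 0 ht0 q hc hc' y,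
        top_linear n (L n) hp.ne' q, top_linear n' (L n') hp'.ne q]

/-- The arithmetic of the final step. -/
theorem final_ineq {c V0 V1 V2 Q0 Q1 Q2 : ENNReal} (hc : c ≠ ⊤) (fV1 : V1 ≠ ⊤) (fV2 : V2 ≠ ⊤)
    (fQ0 : Q0 ≠ ⊤) (fQ1 : Q1 ≠ ⊤) (fQ2 : Q2 ≠ ⊤) (pQ0 : Q0 ≠ 0) (pQ1 : Q1 ≠ 0) (pQ2 : Q2 ≠ 0)
    (hV : V1 + V2 = 2 * V0) (h1 : c ≤ V1 * Q1) (h2 : c ≤ V2 * Q2)
    (hmid : 2 / Q0.toReal ≤ 1 / Q1.toReal + 1 / Q2.toReal) : c ≤ V0 * Q0 := by
  have fV0 : V0 ≠ ⊤ := by
    rintro rfl
    have : V1 + V2 ≠ ⊤ := ENNReal.add_ne_top.2 ⟨fV1, fV2⟩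
    rw [hV] at this
    simp at this
  by_cases hc0 : c = 0
  · simp [hc0]
  have cpos : 0 < c.toReal := ENNReal.toReal_pos hc0 hc
  have q0 : 0 < Q0.toReal := ENNReal.toReal_pos pQ0 fQ0
  have q1 : 0 < Q1.toReal := ENNReal.toReal_pos pQ1 fQ1
  have q2 : 0 < Q2.toReal := ENNReal.toReal_pos pQ2 fQ2
  have r1 : c.toReal ≤ V1.toReal * Q1.toReal := by
    rw [← ENNReal.toReal_mul]
    exact ENNReal.toReal_mono (ENNReal.mul_ne_top fV1 fQ1) h1
  have r2 : c.toReal ≤ V2.toReal * Q2.toReal := by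
    rw [← ENNReal.toReal_mul]
    exact ENNReal.toReal_mono (ENNReal.mul_ne_top fV2 fQ2) h2
  have rV : V1.toReal + V2.toReal = 2 * V0.toReal := by
    rw [← ENNReal.toReal_add fV1 fV2, hV, ENNReal.toReal_mul]
    simp
  have s1 : 1 / Q1.toReal ≤ V1.toReal / c.toReal := by
    rw [div_le_div_iff₀ q1 cpos]
    linarith
  have s2 : 1 / Q2.toReal ≤ V2.toReal / c.toReal := by
    rw [div_le_div_iff₀ q2 cpos]
    linarith
  have s3 : 2 / Q0.toReal ≤ 2 * V0.toReal / c.toReal := by
    rw [← rV, add_div]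
    linarith
  have r3 : c.toReal ≤ V0.toReal * Q0.toReal := by
    rw [div_le_div_iff₀ q0 cpos] at s3
    nlinarith
  have e1 : c = ENNReal.ofReal c.toReal := (ENNReal.ofReal_toReal hc).symm
  have e2 : V0 * Q0 = ENNReal.ofReal (V0.toReal * Q0.toReal) := by
    rw [← ENNReal.toReal_mul, ENNReal.ofReal_toReal (ENNReal.mul_ne_top fV0 fQ0)]
  rw [e1, e2]
  exact ENNReal.ofReal_le_ofReal r3

/-- A vertical translation does not change the volume of a hull. -/
theorem volume_hull_translate (A : Set F) (s : ℝ) :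
    volume (convexHull ℝ ((fun u : F => ((u.1, u.2 + s) : F)) '' A)) = volume (convexHull ℝ A) := by
  have hH : (volume : Measure F).IsAddHaarMeasure := by
    rw [Measure.volume_eq_prod]
    infer_instance
  let v : F := (0, s)
  have e1 : (fun u : F => ((u.1, u.2 + s) : F)) = fun u => v + u := by
    funext u
    ext <;> simp [v, add_comm]
  rw [e1]
  have e2 : (fun u : F => v + u) '' A = v +ᵥ A := rfl
  rw [e2, convexHull_vadd]
  exact measure_vadd _ _ _

/-- The chord step, given the drop of complexity at the end of the chord. -/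
theorem chord_step_of_drop
    (drop : ∀ {X N X' N' : Finset F} {α : F → ℝ} {L : F → F}, Pair X N → Chord X N α L →
      Pair X' N' → convexHull ℝ (X' : Set F) = convexHull ℝ (mvd α 1 '' (X : Set F)) →
      X'.card + N'.card < X.card + N.card)
    {X N : Finset F} (h : Pair X N) (c : ENNReal) (hcfin : c ≠ ⊤)
    (α : F → ℝ)
    (hα : ∀ n ∈ N, n.2 ≠ 0 → ∃ L : F, ∀ x ∈ tightPts X n, α x = dot L x)
    (hnt : ¬ ∃ (L : F) (a : ℝ), ∀ x ∈ X, α x = dot L x + a)
    (IH : ∀ X' N', Pair X' N' → X'.card + N'.card < X.card + N.card →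
      c ≤ volume (convexHull ℝ (X' : Set F)) * volume (convexHull ℝ (N' : Set F))) :
    c ≤ volume (convexHull ℝ (X : Set F)) * volume (convexHull ℝ (N : Set F)) := by
  classical
  obtain ⟨a, L, ch⟩ := exists_chord h α hα hnt
  have hX := h.nonempty_X
  obtain ⟨ε, hε, h0⟩ := h.coercive hX
  obtain ⟨ρ, hρ, hball⟩ := h.ball
  have hvol := ch.volume_add h
  obtain ⟨y1, δ1, hδ1, p1, m1⟩ := ch.thick h
  obtain ⟨y2, δ2, hδ2, p2, m2⟩ := ch.neg.thick h
  let β1 : F → ℝ := fun x => x.2 + a x
  let β2 : F → ℝ := fun x => x.2 - a x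
  have g1 : mvd a 1 = fun x : F => ((x.1, β1 x) : F) := by
    funext x
    simp [mvd, β1]
  have g2 : mvd (fun x => -a x) 1 = fun x : F => ((x.1, β2 x) : F) := by
    funext x
    simp [mvd, β2, sub_eq_add_neg]
  have hneg : Kt X a (-1) = Kt X (fun x => -a x) 1 := by
    unfold Kt
    congr 1
    apply Set.image_congr
    intro x _
    simp [mvd]
  have k1 : Kt X a 1 = convexHull ℝ ((fun x : F => ((x.1, β1 x) : F)) '' (X : Set F)) := by
    unfold Kt
    rw [g1]
  have k2 : Kt X (fun x => -a x) 1 = convexHull ℝ ((fun x : F => ((x.1, β2 x) : F)) '' (X : Set F)) := by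
    unfold Kt
    rw [g2]
  -- the middle height
  have hmid : (fun x => (β1 x + β2 x) / 2) = fun x : F => x.2 := by
    funext x
    simp only [β1, β2]
    ring
  have idimg : (fun x : F => ((x.1, x.2) : F)) '' (X : Set F) = X := by
    simp
  have hz1 : ∀ w, ρ ≤ Phi X hX (fun x => (β1 x + β2 x) / 2) w := by
    intro w
    rw [hmid]
    have hu : ((0, ρ) : F) ∈ convexHull ℝ ((fun x : F => ((x.1, x.2) : F)) '' (X : Set F)) := by
      rw [idimg]
      exact hball _ (by simp [abs_of_pos hρ])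
    have := phi_ge hX (fun x : F => x.2) hu w
    simpa [dot2] using this
  have hmid' : (fun x => -((β1 x + β2 x) / 2)) = fun x : F => -x.2 := by
    funext x
    simp only [β1, β2]
    ring
  have hz2 : ∀ w, ρ ≤ Phi X hX (fun x => -((β1 x + β2 x) / 2)) w := by
    intro w
    rw [hmid']
    have hu : ((0, -ρ) : F) ∈ convexHull ℝ ((fun x : F => ((x.1, x.2) : F)) '' (X : Set F)) := by
      rw [idimg]
      exact hball _ (by simp [abs_of_pos hρ])
    have := phi_ge_neg hX (fun x : F => x.2) hu w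
    simpa [dot2] using this
  -- the bounds for the moved polytopes
  have t11 : ∀ w, y1 + δ1 ≤ Phi X hX β1 w := by
    intro w
    rw [k1] at p1
    have := phi_ge hX β1 p1 w
    simpa [dot2] using this
  have t12 : ∀ w, -y1 + δ1 ≤ Phi X hX (fun x => -β1 x) w := by
    intro w
    rw [k1] at m1
    have := phi_ge_neg hX β1 m1 w
    have e : dot2 w (0 : ℝ × ℝ) - (y1 - δ1) = -y1 + δ1 := by
      simp [dot2]
      ring
    rwa [show dot2 w ((0, y1 - δ1) : F).1 - ((0, y1 - δ1) : F).2 = -y1 + δ1 from e] at this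
  have t21 : ∀ w, y2 + δ2 ≤ Phi X hX β2 w := by
    intro w
    rw [k2] at p2
    have := phi_ge hX β2 p2 w
    simpa [dot2] using this
  have t22 : ∀ w, -y2 + δ2 ≤ Phi X hX (fun x => -β2 x) w := by
    intro w
    rw [k2] at m2
    have := phi_ge_neg hX β2 m2 w
    have e : dot2 w (0 : ℝ × ℝ) - (y2 - δ2) = -y2 + δ2 := by
      simp [dot2]
      ring
    rwa [show dot2 w ((0, y2 - δ2) : F).1 - ((0, y2 - δ2) : F).2 = -y2 + δ2 from e] at this
  obtain ⟨s, δ', hδ', q1, q2, q3, q4, hineq⟩ := polar_midpoint X hX β1 β2 ε hε h0 ρ hρ hz1 hz2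
    y1 δ1 hδ1 t11 t12 y2 δ2 hδ2 t21 t22
  -- first end of the chord
  obtain ⟨X1, N1, hP1, hc1, hn1⟩ := exists_pair (X.image (fun x : F => ((x.1, β1 x - s) : F)))
    (span_of_phi hX (fun x => β1 x - s) hε h0 hδ' q1 q2)
  have hconv1 : convexHull ℝ (X1 : Set F) =
      convexHull ℝ (mvd (fun x => a x - s) 1 '' (X : Set F)) := by
    rw [hc1, Finset.coe_image]
    congr 1
    apply Set.image_congr
    intro x _
    simp only [mvd, β1]
    ext <;> simp <;> ring
  have hd1 := drop h (ch.translate s) hP1 hconv1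
  have hI1 := IH X1 N1 hP1 hd1
  -- second end of the chord
  obtain ⟨X2, N2, hP2, hc2, hn2⟩ := exists_pair (X.image (fun x : F => ((x.1, β2 x + s) : F)))
    (span_of_phi hX (fun x => β2 x + s) hε h0 hδ' q3 q4)
  have hconv2 : convexHull ℝ (X2 : Set F) =
      convexHull ℝ (mvd (fun x => -a x - (-s)) 1 '' (X : Set F)) := by
    rw [hc2, Finset.coe_image]
    congr 1
    apply Set.image_congr
    intro x _
    simp only [mvd, β2]
    ext <;> simp <;> ring
  have hd2 := drop h (ch.neg.translate (-s)) hP2 hconv2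
  have hI2 := IH X2 N2 hP2 hd2
  -- volumes of the hulls
  have v1 : volume (convexHull ℝ (X1 : Set F)) = volume (Kt X a 1) := by
    rw [hc1, k1, Finset.coe_image]
    have e : (fun x : F => ((x.1, β1 x - s) : F)) '' (X : Set F) =
        (fun u : F => ((u.1, u.2 + -s) : F)) '' ((fun x : F => ((x.1, β1 x) : F)) '' (X : Set F)) := by
      rw [Set.image_image]
      simp only [sub_eq_add_neg]
    rw [e]
    exact volume_hull_translate _ (-s)
  have v2 : volume (convexHull ℝ (X2 : Set F)) = volume (Kt X a (-1)) := by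
    rw [hc2, hneg, k2, Finset.coe_image]
    have e : (fun x : F => ((x.1, β2 x + s) : F)) '' (X : Set F) =
        (fun u : F => ((u.1, u.2 + s) : F)) '' ((fun x : F => ((x.1, β2 x) : F)) '' (X : Set F)) := by
      rw [Set.image_image]
    rw [e]
    exact volume_hull_translate _ s
  have q1' : volume (convexHull ℝ (N1 : Set F)) = volume (Qset X (fun x => β1 x - s)) := by
    rw [hn1, polarSet_image]
  have q2' : volume (convexHull ℝ (N2 : Set F)) = volume (Qset X (fun x => β2 x + s)) := by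
    rw [hn2, polarSet_image]
  have q0' : volume (convexHull ℝ (N : Set F)) = volume (Qset X (fun x => (β1 x + β2 x) / 2)) := by
    rw [h.conv_N_eq, hmid]
    congr 1
  rw [v1, q1'] at hI1
  rw [v2, q2'] at hI2
  rw [q0']
  obtain ⟨pQ0, fQ0⟩ := Qset_volume_pos_finite X hX (fun x => (β1 x + β2 x) / 2) ε hε h0 ρ hρ hz1 hz2
  obtain ⟨pQ1, fQ1⟩ := Qset_volume_pos_finite X hX (fun x => β1 x - s) ε hε h0 δ' hδ' q1 q2
  obtain ⟨pQ2, fQ2⟩ := Qset_volume_pos_finite X hX (fun x => β2 x + s) ε hε h0 δ' hδ' q3 q4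
  exact final_ineq hcfin (Kt_compact X a 1).measure_lt_top.ne (Kt_compact X a (-1)).measure_lt_top.ne
    fQ0 fQ1 fQ2 pQ0 pQ1 pQ2 hvol hI1 hI2 hineq

end Vale.Agent.Lib.P248
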