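import Mathlib

open MeasureTheory Set

namespace Vale.Agent.Lib.P248

/-- Three-space written as plane times height. -/
abbrev F := (ℝ × ℝ) × ℝ

/-- Standard dot product on the plane. -/
def dot2 (u p : ℝ × ℝ) : ℝ := u.1 * p.1 + u.2 * p.2

/-- Standard dot product on three-space. -/
def dot (y x : F) : ℝ := dot2 y.1 x.1 + y.2 * x.2

/-- The polar set of `S`. -/
def polarSet (S : Set F) : Set F := {y | ∀ x ∈ S, dot y x ≤ 1}

open Classical in
/-- Tight points of a normal `n` in `X`. -/
noncomputable def tightPts (X : Finset F) (n : F) : Finset F := X.filter (fun x => dot n x = 1)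

open Classical in
/-- Tight normals of a point `x` in `N`. -/
noncomputable def tightNrm (N : Finset F) (x : F) : Finset F := N.filter (fun n => dot n x = 1)

/-- A polar pair: `X` is the vertex set of a polytope with the origin in its interior and `N` the vertex set of its polar. -/
structure Pair (X N : Finset F) : Prop where
  le : ∀ x ∈ X, ∀ n ∈ N, dot n x ≤ 1
  tight_x : ∀ x ∈ X, Submodule.span ℝ (tightNrm N x : Set F) = ⊤
  tight_n : ∀ n ∈ N, Submodule.span ℝ (tightPts X n : Set F) = ⊤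
  conv_x : ∀ u, (∀ n ∈ N, dot n u ≤ 1) → u ∈ convexHull ℝ (X : Set F)
  conv_n : ∀ u, (∀ x ∈ X, dot u x ≤ 1) → u ∈ convexHull ℝ (N : Set F)

/-- The supremum over `x ∈ X` of the affine function `w ↦ w · x.1 + β x`. -/
noncomputable def Phi (X : Finset F) (hX : X.Nonempty) (β : F → ℝ) (w : ℝ × ℝ) : ℝ :=
  X.sup' hX (fun x => dot2 w x.1 + β x)

/-- The polar of the polytope with vertices `(x.1, β x)`, `x ∈ X`. -/
def Qset (X : Finset F) (β : F → ℝ) : Set F := {y | ∀ x ∈ X, dot y (x.1, β x) ≤ 1}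

/-- The points `(x.1, β x)`, `x ∈ X`. -/
def moved (X : Finset F) (β : F → ℝ) : Set F := (fun x : F => (x.1, β x)) '' (X : Set F)

/-- The integral of `ψ⁻³` over the plane. -/
noncomputable def I3 (ψ : ℝ × ℝ → ℝ) : ENNReal := ∫⁻ w, ENNReal.ofReal ((ψ w)⁻¹ ^ 3)

end Vale.Agent.Lib.P248
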