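import Vale.Agent.Lib.P248.Basic

open MeasureTheory Set

namespace Vale.Agent.Lib.P248

theorem tightNrm_eq_tightPts (X : Finset F) (n : F) : tightNrm X n = tightPts X n := by
  ext x
  rw [mem_tightNrm, mem_tightPts, dot_comm]

theorem Pair.swap {X N : Finset F} (h : Pair X N) : Pair N X where
  le := fun n hn x hx => by rw [dot_comm]; exact h.le x hx n hn
  tight_x := fun n hn => by rw [tightNrm_eq_tightPts]; exact h.tight_n n hn
  tight_n := fun x hx => by rw [← tightNrm_eq_tightPts]; exact h.tight_x x hx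
  conv_x := fun u hu => h.conv_n u (fun x hx => by rw [dot_comm]; exact hu x hx)
  conv_n := fun u hu => h.conv_x u (fun n hn => by rw [dot_comm]; exact hu n hn)

theorem Pair.conv_N_eq {X N : Finset F} (h : Pair X N) :
    convexHull ℝ (N : Set F) = polarSet (X : Set F) := by
  apply Subset.antisymm
  · intro y hy x hx
    exact dot_le_of_mem_convexHull_left (fun n hn => h.le x hx n hn) hy
  · intro y hy
    exact h.conv_n y (fun x hx => hy x hx)

theorem Pair.conv_X_eq {X N : Finset F} (h : Pair X N) :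
    convexHull ℝ (X : Set F) = polarSet (N : Set F) := h.swap.conv_N_eq

/-- Face lemma: a point of the hull on a supporting plane is in the hull of the tight points. -/
theorem mem_convexHull_tight {X : Finset F} {n u : F} (h : ∀ x ∈ X, dot n x ≤ 1)
    (hu : u ∈ convexHull ℝ (X : Set F)) (hn : dot n u = 1) :
    u ∈ convexHull ℝ (tightPts X n : Set F) := by
  classical
  obtain ⟨w, hw0, hw1, hwc⟩ := Finset.mem_convexHull.1 hu
  have hu' : u = ∑ x ∈ X, w x • x := by
    rw [← hwc, Finset.centerMass_eq_of_sum_1 _ _ hw1]; simp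
  have hdot : ∑ x ∈ X, w x * (1 - dot n x) = 0 := by
    have : dot n u = ∑ x ∈ X, w x * dot n x := by
      rw [hu', dot_sum_right]
      exact Finset.sum_congr rfl (fun x _ => dot_smul_right n x (w x))
    have h2 : ∑ x ∈ X, w x * (1 - dot n x) = ∑ x ∈ X, w x - ∑ x ∈ X, w x * dot n x := by
      rw [← Finset.sum_sub_distrib]
      exact Finset.sum_congr rfl (fun x _ => by ring)
    rw [h2, hw1, ← this, hn]; ring
  have hzero : ∀ x ∈ X, w x * (1 - dot n x) = 0 := by
    have := (Finset.sum_eq_zero_iff_of_nonneg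
      (fun x hx => mul_nonneg (hw0 x hx) (sub_nonneg.2 (h x hx)))).1 hdot
    exact this
  have hoff : ∀ x ∈ X, x ∉ tightPts X n → w x = 0 := by
    intro x hx hnt
    have hne : dot n x ≠ 1 := fun he => hnt (mem_tightPts.2 ⟨hx, he⟩)
    have := hzero x hx
    rcases mul_eq_zero.1 this with h0 | h0
    · exact h0
    · exact absurd (by linarith) hne
  have hsub : tightPts X n ⊆ X := fun x hx => (mem_tightPts.1 hx).1
  rw [Finset.mem_convexHull]
  refine ⟨w, fun x hx => hw0 x (hsub hx), ?_, ?_⟩
  · rw [← hw1]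
    exact Finset.sum_subset hsub (fun x hx hnt => hoff x hx hnt)
  · have hs1 : ∑ y ∈ tightPts X n, w y = 1 := by
      rw [← hw1]
      exact Finset.sum_subset hsub (fun x hx hnt => hoff x hx hnt)
    rw [Finset.centerMass_eq_of_sum_1 _ _ hs1, hu']
    simp only [id]
    exact Finset.sum_subset hsub (fun x hx hnt => by rw [hoff x hx hnt, zero_smul])

/-- Extreme points of a polyhedron have spanning tight sets. -/
theorem span_tight_of_extreme (T : Finset F) (y : F)
    (hy : y ∈ Set.extremePoints ℝ (polarSet (T : Set F))) :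
    Submodule.span ℝ (tightPts T y : Set F) = ⊤ := by
  classical
  by_contra hne
  have hlt : Submodule.span ℝ (tightPts T y : Set F) < ⊤ := lt_top_iff_ne_top.2 hne
  obtain ⟨f, hf0, hf⟩ := Submodule.exists_le_ker_of_lt_top _ hlt
  obtain ⟨v, hv⟩ := exists_dot_eq f
  have hv0 : v ≠ 0 := by
    rintro rfl
    apply hf0
    ext x <;> simp [hv]
  have hvt : ∀ u ∈ tightPts T y, dot v u = 0 := by
    intro u hu
    have : u ∈ Submodule.span ℝ (tightPts T y : Set F) := Submodule.subset_span hu
    have := hf this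
    rw [LinearMap.mem_ker, hv] at this
    exact this
  have hy1 := (mem_extremePoints.1 hy).1
  -- small perturbation
  have hev : ∀ᶠ ε in nhdsWithin (0 : ℝ) (Ioi 0), ∀ u ∈ T, dot y u + ε * |dot v u| ≤ 1 := by
    rw [Filter.eventually_all_finset]
    intro u hu
    by_cases hut : dot y u = 1
    · have : dot v u = 0 := hvt u (mem_tightPts.2 ⟨hu, hut⟩)
      filter_upwards with ε
      simp [this, hut]
    · have hlt1 : dot y u < 1 := lt_of_le_of_ne (hy1 u hu) hut
      have hc : Continuous (fun ε : ℝ => dot y u + ε * |dot v u|) := by fun_prop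
      have : ∀ᶠ ε in nhds (0 : ℝ), dot y u + ε * |dot v u| < 1 := by
        apply hc.continuousAt.eventually_lt continuousAt_const
        simpa using hlt1
      filter_upwards [nhdsWithin_le_nhds this] with ε hε using hε.le
  obtain ⟨ε, hε, hε0⟩ := (hev.and self_mem_nhdsWithin).exists
  have hε0' : (0 : ℝ) < ε := hε0
  have hp : y + ε • v ∈ polarSet (T : Set F) := by
    intro u hu
    rw [dot_add_left, dot_smul_left]
    have := hε u hu
    have h2 : ε * dot v u ≤ ε * |dot v u| := mul_le_mul_of_nonneg_left (le_abs_self _) hε0'.le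
    linarith
  have hm : y - ε • v ∈ polarSet (T : Set F) := by
    intro u hu
    rw [dot_sub_left, dot_smul_left]
    have := hε u hu
    have h2 : -(ε * dot v u) ≤ ε * |dot v u| := by
      have := neg_abs_le (dot v u)
      nlinarith
    linarith
  have hseg : y ∈ openSegment ℝ (y + ε • v) (y - ε • v) := by
    refine ⟨1 / 2, 1 / 2, by norm_num, by norm_num, by norm_num, ?_⟩
    ext <;> simp <;> ring
  have := ((mem_extremePoints.1 hy).2 _ hp _ hm hseg).1
  have hzero : ε • v = 0 := by
    have h3 : y + ε • v - y = 0 := by rw [this]; simp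
    simpa using h3
  rcases smul_eq_zero.1 hzero with h0 | h0
  · exact hε0'.ne' h0
  · exact hv0 h0

theorem polarSet_bounded (S : Finset F) (hS : ∀ y : F, y ≠ 0 → ∃ u ∈ S, 0 < dot y u) :
    Bornology.IsBounded (polarSet (S : Set F)) := by
  classical
  have hne : S.Nonempty := by
    obtain ⟨u, hu, _⟩ := hS ((1, 0), 0) (by simp [Prod.ext_iff])
    exact ⟨u, hu⟩
  let g : F → ℝ := fun y => S.sup' hne (fun u => dot y u)
  have hg : Continuous g := by
    apply Continuous.finset_sup'_apply
    intro u _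
    exact continuous_dot_left u
  have hsph : (Metric.sphere (0 : F) 1).Nonempty := by
    refine ⟨((1, 0), 0), ?_⟩
    simp [Prod.norm_def]
  obtain ⟨y0, hy0, hmin⟩ := (isCompact_sphere (0 : F) 1).exists_isMinOn hsph hg.continuousOn
  have hy0ne : y0 ≠ 0 := by
    intro h0
    rw [h0] at hy0
    simp at hy0
  have hpos : 0 < g y0 := by
    obtain ⟨u, hu, hu0⟩ := hS y0 hy0ne
    exact lt_of_lt_of_le hu0 (Finset.le_sup' (fun u => dot y0 u) hu)
  rw [Metric.isBounded_iff_subset_closedBall (0 : F)]
  refine ⟨1 / g y0, ?_⟩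
  intro y hy
  by_cases hyz : y = 0
  · subst hyz
    simp [hpos.le]
  · have hnorm : 0 < ‖y‖ := norm_pos_iff.2 hyz
    have hunit : (‖y‖⁻¹ • y) ∈ Metric.sphere (0 : F) 1 := by
      simp [norm_smul, hnorm.ne']
    have h1 : g y0 ≤ g (‖y‖⁻¹ • y) := hmin hunit
    obtain ⟨u, hu, hu1⟩ : ∃ u ∈ S, g (‖y‖⁻¹ • y) = dot (‖y‖⁻¹ • y) u := by
      obtain ⟨u, hu, hu1⟩ := Finset.exists_mem_eq_sup' hne (fun u => dot (‖y‖⁻¹ • y) u)
      exact ⟨u, hu, hu1⟩
    have h2 : dot y u ≤ 1 := hy u hu
    rw [dot_smul_left] at hu1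
    have h3 : g y0 * ‖y‖ ≤ 1 := by
      have : g y0 ≤ ‖y‖⁻¹ * dot y u := by rw [← hu1]; exact h1
      calc g y0 * ‖y‖ ≤ (‖y‖⁻¹ * dot y u) * ‖y‖ := mul_le_mul_of_nonneg_right this hnorm.le
        _ = dot y u := by field_simp
        _ ≤ 1 := h2
    rw [mem_closedBall_zero_iff, le_div_iff₀ hpos]
    linarith

theorem zero_mem_convexHull (S : Finset F) (hS : ∀ y : F, y ≠ 0 → ∃ u ∈ S, 0 < dot y u) :
    (0 : F) ∈ convexHull ℝ (S : Set F) := by
  by_contra h0
  have hc : IsCompact (convexHull ℝ (S : Set F)) := S.finite_toSet.isCompact_convexHull ℝ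
  obtain ⟨f, u, hfu, hu⟩ := geometric_hahn_banach_closed_point (convex_convexHull ℝ _) hc.isClosed h0
  obtain ⟨y, hy⟩ := exists_dot_eq f.toLinearMap
  have hf0 : f 0 = 0 := map_zero f
  have hy0 : y ≠ 0 := by
    rintro rfl
    have hne : S.Nonempty := by
      obtain ⟨u, hu, _⟩ := hS ((1, 0), 0) (by simp [Prod.ext_iff])
      exact ⟨u, hu⟩
    obtain ⟨a, ha⟩ := hne
    have := hfu a (subset_convexHull ℝ _ ha)
    have h3 : f a = dot 0 a := hy a
    simp at h3
    rw [h3] at this
    rw [hf0] at hu
    linarith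
  obtain ⟨a, ha, ha0⟩ := hS y hy0
  have h1 := hfu a (subset_convexHull ℝ _ ha)
  have h3 : f a = dot y a := hy a
  rw [hf0] at hu
  linarith

/-- Bipolar theorem for convex hulls of finite sets. -/
theorem mem_convexHull_of_polar (S : Finset F) (hS : ∀ y : F, y ≠ 0 → ∃ u ∈ S, 0 < dot y u)
    (u : F) (hu : ∀ y ∈ polarSet (S : Set F), dot y u ≤ 1) : u ∈ convexHull ℝ (S : Set F) := by
  by_contra h0
  have hc : IsCompact (convexHull ℝ (S : Set F)) := S.finite_toSet.isCompact_convexHull ℝ
  obtain ⟨f, c, hfu, hc2⟩ := geometric_hahn_banach_closed_point (convex_convexHull ℝ _) hc.isClosed h0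
  obtain ⟨y, hy⟩ := exists_dot_eq f.toLinearMap
  have hc0 : 0 < c := by
    have := hfu 0 (zero_mem_convexHull S hS)
    simpa using this
  have hmem : c⁻¹ • y ∈ polarSet (S : Set F) := by
    intro a ha
    rw [dot_smul_left]
    have h1 := hfu a (subset_convexHull ℝ _ ha)
    have h3 : f a = dot y a := hy a
    rw [h3] at h1
    rw [inv_mul_le_iff₀ hc0]
    linarith
  have h2 := hu _ hmem
  rw [dot_smul_left] at h2
  have h3 : f u = dot y u := hy u
  rw [h3] at hc2
  rw [inv_mul_le_iff₀ hc0] at h2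
  linarith

theorem exists_pair (S : Finset F) (hS : ∀ y : F, y ≠ 0 → ∃ u ∈ S, 0 < dot y u) :
    ∃ X N, Pair X N ∧ convexHull ℝ (X : Set F) = convexHull ℝ (S : Set F) ∧
      convexHull ℝ (N : Set F) = polarSet (S : Set F) := by
  classical
  have hKc : IsCompact (convexHull ℝ (S : Set F)) := S.finite_toSet.isCompact_convexHull ℝ
  have hLb := polarSet_bounded S hS
  have hLc : IsCompact (polarSet (S : Set F)) :=
    Metric.isCompact_of_isClosed_isBounded (polarSet_closed _) hLb
  -- finiteness of the extreme points of the polar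
  have hext_fin : (Set.extremePoints ℝ (polarSet (S : Set F))).Finite := by
    apply Set.Finite.of_injOn (f := fun y => tightPts S y) (t := (S.powerset : Set (Finset F)))
    · intro y hy
      simp only [Finset.mem_coe, Finset.mem_powerset]
      intro x hx
      exact (mem_tightPts.1 hx).1
    · intro y hy y' hy' he
      have hspan := span_tight_of_extreme S y hy
      have : y - y' = 0 := by
        apply eq_zero_of_span_top hspan
        intro a ha
        have ha1 := (mem_tightPts.1 (Finset.mem_coe.1 ha)).2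
        have ha2 : a ∈ tightPts S y' := by
          have h3 : tightPts S y = tightPts S y' := he
          rw [← h3]; exact ha
        have ha3 := (mem_tightPts.1 ha2).2
        rw [dot_sub_left, ha1, ha3]; ring
      exact sub_eq_zero.1 this
    · exact Finset.finite_toSet _
  have hXfin : (Set.extremePoints ℝ (convexHull ℝ (S : Set F))).Finite :=
    S.finite_toSet.subset extremePoints_convexHull_subset
  -- Krein-Milman
  have hL : convexHull ℝ (Set.extremePoints ℝ (polarSet (S : Set F))) = polarSet (S : Set F) := by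
    have h1 := closure_convexHull_extremePoints hLc (polarSet_convex _)
    have h2 : IsClosed (convexHull ℝ (Set.extremePoints ℝ (polarSet (S : Set F)))) :=
      (hext_fin.isCompact_convexHull ℝ).isClosed
    rwa [h2.closure_eq] at h1
  have hK : convexHull ℝ (Set.extremePoints ℝ (convexHull ℝ (S : Set F))) = convexHull ℝ (S : Set F) := by
    have h1 := closure_convexHull_extremePoints hKc (convex_convexHull ℝ _)
    have h2 : IsClosed (convexHull ℝ (Set.extremePoints ℝ (convexHull ℝ (S : Set F)))) :=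
      (hXfin.isCompact_convexHull ℝ).isClosed
    rwa [h2.closure_eq] at h1
  set X : Finset F := hXfin.toFinset with hXdef
  set N : Finset F := hext_fin.toFinset with hNdef
  have hXc : (X : Set F) = Set.extremePoints ℝ (convexHull ℝ (S : Set F)) := by simp [hXdef]
  have hNc : (N : Set F) = Set.extremePoints ℝ (polarSet (S : Set F)) := by simp [hNdef]
  have hconvX : convexHull ℝ (X : Set F) = convexHull ℝ (S : Set F) := by rw [hXc, hK]
  have hconvN : convexHull ℝ (N : Set F) = polarSet (S : Set F) := by rw [hNc, hL]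
  have hNL : ∀ n ∈ N, n ∈ polarSet (S : Set F) := by
    intro n hn
    have : n ∈ (N : Set F) := hn
    rw [hNc] at this
    exact (mem_extremePoints.1 this).1
  have hXS : ∀ x ∈ X, x ∈ S := by
    intro x hx
    have : x ∈ (X : Set F) := hx
    rw [hXc] at this
    exact extremePoints_convexHull_subset this
  have hconv_x : ∀ u, (∀ n ∈ N, dot n u ≤ 1) → u ∈ convexHull ℝ (X : Set F) := by
    intro u hu
    rw [hconvX]
    apply mem_convexHull_of_polar S hS
    intro y hy
    rw [← hconvN] at hy
    exact dot_le_of_mem_convexHull_left hu hy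
  refine ⟨X, N, ⟨?_, ?_, ?_, hconv_x, ?_⟩, hconvX, hconvN⟩
  · intro x hx n hn
    exact hNL n hn x (by simpa using hXS x hx)
  · -- tight_x
    intro x hx
    have hxK : x ∈ Set.extremePoints ℝ (convexHull ℝ (S : Set F)) := by
      rw [← hXc]; exact hx
    have hset : convexHull ℝ (S : Set F) = polarSet (N : Set F) := by
      apply Subset.antisymm
      · intro u hu n hn
        rw [dot_comm]
        exact dot_le_of_mem_convexHull (fun a ha => hNL n hn a ha) hu
      · intro u hu
        rw [← hconvX]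
        exact hconv_x u (fun n hn => by rw [dot_comm]; exact hu n hn)
    rw [hset] at hxK
    have := span_tight_of_extreme N x hxK
    rwa [← tightNrm_eq_tightPts] at this
  · -- tight_n
    intro n hn
    have hnL : n ∈ Set.extremePoints ℝ (polarSet (S : Set F)) := by rw [← hNc]; exact hn
    have h1 := span_tight_of_extreme S n hnL
    rw [eq_top_iff, ← h1, Submodule.span_le]
    intro u hu
    have hu1 := mem_tightPts.1 (Finset.mem_coe.1 hu)
    have huK : u ∈ convexHull ℝ (X : Set F) := by
      rw [hconvX]; exact subset_convexHull ℝ _ hu1.1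
    have hle : ∀ x ∈ X, dot n x ≤ 1 := fun x hx => hNL n hn x (by simpa using hXS x hx)
    have := mem_convexHull_tight hle huK hu1.2
    exact (convexHull_min Submodule.subset_span (Submodule.convex _)) this
  · -- conv_n
    intro u hu
    rw [hconvN]
    intro a ha
    have : a ∈ convexHull ℝ (X : Set F) := by
      rw [hconvX]; exact subset_convexHull ℝ _ ha
    exact dot_le_of_mem_convexHull hu this

theorem Pair.mem_N_of_tight {X N : Finset F} (h : Pair X N) (y : F)
    (hy : ∀ x ∈ X, dot y x ≤ 1) (hs : Submodule.span ℝ (tightPts X y : Set F) = ⊤) : y ∈ N := by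
  classical
  have hmem : y ∈ convexHull ℝ (N : Set F) := h.conv_n y hy
  obtain ⟨w, hw0, hw1, hwc⟩ := Finset.mem_convexHull.1 hmem
  have hy' : y = ∑ n ∈ N, w n • n := by
    rw [← hwc, Finset.centerMass_eq_of_sum_1 _ _ hw1]; simp
  -- some weight is positive
  obtain ⟨n0, hn0, hpos⟩ : ∃ n ∈ N, 0 < w n := by
    by_contra hcon
    push Not at hcon
    have : ∑ n ∈ N, w n ≤ 0 := Finset.sum_nonpos hcon
    linarith
  have key : ∀ x ∈ tightPts X y, dot n0 x = 1 := by
    intro x hx
    have hx1 := mem_tightPts.1 hx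
    have hdot : dot y x = ∑ n ∈ N, w n * dot n x := by
      rw [dot_comm, hy', dot_sum_right]
      exact Finset.sum_congr rfl (fun n _ => by rw [dot_smul_right, dot_comm])
    have hsum : ∑ n ∈ N, w n * (1 - dot n x) = 0 := by
      have h2 : ∑ n ∈ N, w n * (1 - dot n x) = ∑ n ∈ N, w n - ∑ n ∈ N, w n * dot n x := by
        rw [← Finset.sum_sub_distrib]
        exact Finset.sum_congr rfl (fun n _ => by ring)
      rw [h2, hw1, ← hdot, hx1.2]; ring
    have hz := (Finset.sum_eq_zero_iff_of_nonneg
      (fun n hn => mul_nonneg (hw0 n hn) (sub_nonneg.2 (h.le x hx1.1 n hn)))).1 hsum n0 hn0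
    rcases mul_eq_zero.1 hz with h0 | h0
    · exact absurd h0 hpos.ne'
    · linarith
  have : y - n0 = 0 := by
    apply eq_zero_of_span_top hs
    intro a ha
    rw [dot_sub_left, key a ha, (mem_tightPts.1 (Finset.mem_coe.1 ha)).2]; ring
  rw [sub_eq_zero.1 this]
  exact hn0

/-- There is a uniform `ℓ¹`-ball around `0` in the hull. -/
theorem Pair.ball {X N : Finset F} (h : Pair X N) :
    ∃ ρ > 0, ∀ u : F, |u.1.1| + |u.1.2| + |u.2| ≤ ρ → u ∈ convexHull ℝ (X : Set F) := by
  set C : ℝ := ∑ n ∈ N, (|n.1.1| + |n.1.2| + |n.2|) + 1 with hC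
  have hCpos : 0 < C := by
    have : 0 ≤ ∑ n ∈ N, (|n.1.1| + |n.1.2| + |n.2|) :=
      Finset.sum_nonneg (fun n _ => by positivity)
    linarith
  refine ⟨1 / C, by positivity, ?_⟩
  intro u hu
  apply h.conv_x
  intro n hn
  have hn1 : |n.1.1| + |n.1.2| + |n.2| ≤ C := by
    have : |n.1.1| + |n.1.2| + |n.2| ≤ ∑ n ∈ N, (|n.1.1| + |n.1.2| + |n.2|) :=
      Finset.single_le_sum (f := fun n : F => |n.1.1| + |n.1.2| + |n.2|)
        (fun n _ => by positivity) hn
    linarith
  have hd : dot n u ≤ (|n.1.1| + |n.1.2| + |n.2|) * (|u.1.1| + |u.1.2| + |u.2|) := by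
    simp only [dot, dot2]
    have b1 := le_abs_self (n.1.1 * u.1.1)
    have b2 := le_abs_self (n.1.2 * u.1.2)
    have b3 := le_abs_self (n.2 * u.2)
    rw [abs_mul] at b1 b2 b3
    nlinarith [abs_nonneg n.1.1, abs_nonneg n.1.2, abs_nonneg n.2, abs_nonneg u.1.1,
      abs_nonneg u.1.2, abs_nonneg u.2, mul_nonneg (abs_nonneg n.1.1) (abs_nonneg u.1.2),
      mul_nonneg (abs_nonneg n.1.1) (abs_nonneg u.2), mul_nonneg (abs_nonneg n.1.2) (abs_nonneg u.1.1),
      mul_nonneg (abs_nonneg n.1.2) (abs_nonneg u.2), mul_nonneg (abs_nonneg n.2) (abs_nonneg u.1.1),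
      mul_nonneg (abs_nonneg n.2) (abs_nonneg u.1.2)]
  calc dot n u ≤ (|n.1.1| + |n.1.2| + |n.2|) * (|u.1.1| + |u.1.2| + |u.2|) := hd
    _ ≤ C * (1 / C) := mul_le_mul hn1 hu (by positivity) hCpos.le
    _ = 1 := by field_simp

end Vale.Agent.Lib.P248
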