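import Vale.Agent.Lib.P248.Simplex

open MeasureTheory Set

namespace Vale.Agent.Lib.P248

/-- A rotation in the plane of the first and the last coordinate. -/
noncomputable def rotMap (a c r : ℝ) : F →ₗ[ℝ] F :=
  colMap ((a / r, 0), -c / r) ((0, 1), 0) ((c / r, 0), a / r)

lemma rotMap_apply (a c r : ℝ) (p : F) :
    rotMap a c r p = (((a / r) * p.1.1 + (c / r) * p.2, p.1.2), (-c / r) * p.1.1 + (a / r) * p.2) := by
  simp only [rotMap, colMap, LinearMap.coe_mk, AddHom.coe_mk]
  ext <;> simp <;> ring

lemma rot_comp {a c r : ℝ} (hr : r ≠ 0) (h : a ^ 2 + c ^ 2 = r ^ 2) (p : F) :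
    rotMap a (-c) r (rotMap a c r p) = p := by
  rw [rotMap_apply, rotMap_apply]
  have hr2 : r ^ 2 ≠ 0 := pow_ne_zero 2 hr
  ext
  · simp only
    field_simp
    linear_combination p.1.1 * h
  · rfl
  · simp only
    field_simp
    linear_combination p.2 * h

lemma rot_dot {a c r : ℝ} (hr : r ≠ 0) (h : a ^ 2 + c ^ 2 = r ^ 2) (x y : F) :
    dot (rotMap a c r x) (rotMap a c r y) = dot x y := by
  rw [rotMap_apply, rotMap_apply]
  simp only [dot, dot2]
  have hr2 : r ^ 2 ≠ 0 := pow_ne_zero 2 hr
  field_simp
  linear_combination (x.1.1 * y.1.1 + x.2 * y.2) * h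

lemma rot_det {a c r : ℝ} (hr : r ≠ 0) (h : a ^ 2 + c ^ 2 = r ^ 2) :
    LinearMap.det (rotMap a c r) = 1 := by
  rw [rotMap, det_colMap]
  simp only [det3]
  field_simp
  linear_combination h

/-- Rotation to make a given normal vertical. -/
theorem exists_rotation {X N : Finset F} (h : Pair X N) (n0 : F) :
    ∃ T : F → F, Function.Injective T ∧ Pair (X.image T) (N.image T) ∧ (T n0).2 = 0 ∧
      (∀ x y, dot (T x) (T y) = dot x y) ∧
      (∀ s : Set F, volume (T '' s) = volume s) ∧
      (∀ s : Set F, T '' (convexHull ℝ s) = convexHull ℝ (T '' s)) := by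
  classical
  -- choice of the rotation
  obtain ⟨a, c, r, hr, hac, h0⟩ : ∃ a c r : ℝ, r ≠ 0 ∧ a ^ 2 + c ^ 2 = r ^ 2 ∧
      (rotMap a c r n0).2 = 0 := by
    by_cases hc : n0.2 = 0
    · refine ⟨1, 0, 1, one_ne_zero, by norm_num, ?_⟩
      rw [rotMap_apply]
      simp [hc]
    · refine ⟨n0.1.1, n0.2, √(n0.1.1 ^ 2 + n0.2 ^ 2), ?_, ?_, ?_⟩
      · have : 0 < n0.1.1 ^ 2 + n0.2 ^ 2 := by positivity
        exact (Real.sqrt_pos.2 this).ne'
      · rw [Real.sq_sqrt (by positivity)]
      · rw [rotMap_apply]
        simp only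
        ring
  set T := rotMap a c r with hT
  set S := rotMap a (-c) r with hS
  have hST : ∀ p, S (T p) = p := rot_comp hr hac
  have hTS : ∀ p, T (S p) = p := by
    intro p
    have := rot_comp (a := a) (c := -c) hr (by rw [neg_sq]; exact hac) p
    simpa [hT, hS] using this
  have hinj : Function.Injective T := Function.LeftInverse.injective hST
  have hdot : ∀ x y, dot (T x) (T y) = dot x y := rot_dot hr hac
  have himg : ∀ s : Set F, T '' (convexHull ℝ s) = convexHull ℝ (T '' s) := fun s =>
    T.image_convexHull s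
  have hspan : ∀ A : Finset F, Submodule.span ℝ (A : Set F) = ⊤ →
      Submodule.span ℝ ((A.image T : Finset F) : Set F) = ⊤ := by
    intro A hA
    rw [Finset.coe_image, ← Submodule.map_span, hA, Submodule.map_top, LinearMap.range_eq_top]
    exact Function.RightInverse.surjective hTS
  refine ⟨T, hinj, ?_, h0, hdot, ?_, himg⟩
  · constructor
    · intro x hx n hn
      obtain ⟨x', hx', rfl⟩ := Finset.mem_image.1 hx
      obtain ⟨n', hn', rfl⟩ := Finset.mem_image.1 hn
      rw [hdot]
      exact h.le x' hx' n' hn'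
    · intro x hx
      obtain ⟨x', hx', rfl⟩ := Finset.mem_image.1 hx
      have : tightNrm (N.image T) (T x') = (tightNrm N x').image T := by
        ext n
        simp only [mem_tightNrm, Finset.mem_image]
        constructor
        · rintro ⟨⟨n', hn', rfl⟩, h1⟩
          refine ⟨n', ⟨hn', ?_⟩, rfl⟩
          rwa [hdot] at h1
        · rintro ⟨n', ⟨h2, h3⟩, rfl⟩
          exact ⟨⟨n', h2, rfl⟩, by rwa [hdot]⟩
      rw [this]
      exact hspan _ (h.tight_x x' hx')
    · intro n hn
      obtain ⟨n', hn', rfl⟩ := Finset.mem_image.1 hn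
      have : tightPts (X.image T) (T n') = (tightPts X n').image T := by
        ext x
        simp only [mem_tightPts, Finset.mem_image]
        constructor
        · rintro ⟨⟨x', hx', rfl⟩, h1⟩
          refine ⟨x', ⟨hx', ?_⟩, rfl⟩
          rwa [hdot] at h1
        · rintro ⟨x', ⟨h2, h3⟩, rfl⟩
          exact ⟨⟨x', h2, rfl⟩, by rwa [hdot]⟩
      rw [this]
      exact hspan _ (h.tight_n n' hn')
    · intro u hu
      have h1 : S u ∈ convexHull ℝ (X : Set F) := by
        apply h.conv_x
        intro n hn
        have := hu (T n) (Finset.mem_image_of_mem T hn)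
        rw [← hTS u, hdot] at this
        exact this
      have h2 := Set.mem_image_of_mem T h1
      rw [himg, hTS] at h2
      rwa [Finset.coe_image]
    · intro u hu
      have h1 : S u ∈ convexHull ℝ (N : Set F) := by
        apply h.conv_n
        intro x hx
        have := hu (T x) (Finset.mem_image_of_mem T hx)
        rw [← hTS u, hdot] at this
        exact this
      have h2 := Set.mem_image_of_mem T h1
      rw [himg, hTS] at h2
      rwa [Finset.coe_image]
  · intro s
    have := Measure.addHaar_image_linearMap (volume : Measure F) T s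
    rw [this, hT, rot_det hr hac]
    simp

end Vale.Agent.Lib.P248
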