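import Vale.Agent.Lib.P248.Incidence
import Vale.Agent.Lib.P248.Alpha
import Vale.Agent.Lib.P248.Rotation

/-!
The induction on the number of vertices and facets, assuming the chord step.
-/

open MeasureTheory Set

namespace Vale.Agent.Lib.P248

lemma sum_tight_swap (X N : Finset F) :
    ∑ x ∈ X, (tightPts N x).card = ∑ n ∈ N, (tightPts X n).card := by
  classical
  have h := Finset.sum_card_bipartiteAbove_eq_sum_card_bipartiteBelow (s := N) (t := X)
    (fun n x => dot n x = 1)
  have h1 : ∀ n, X.bipartiteAbove (fun n x => dot n x = 1) n = tightPts X n := by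
    intro n
    ext x
    simp [Finset.bipartiteAbove, mem_tightPts]
  have h2 : ∀ x, N.bipartiteBelow (fun n x => dot n x = 1) x = tightPts N x := by
    intro x
    ext n
    simp [Finset.bipartiteBelow, mem_tightPts, dot_comm]
  simp only [h1, h2] at h
  exact h.symm

lemma three_le_card_tight {X N : Finset F} (h : Pair X N) {n : F} (hn : n ∈ N) :
    3 ≤ (tightPts X n).card := by
  have h1 := h.tight_n n hn
  have h2 : Module.finrank ℝ (Submodule.span ℝ ((tightPts X n : Finset F) : Set F))
      ≤ (tightPts X n).card := finrank_span_finset_le_card _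
  rw [h1] at h2
  have h3 : Module.finrank ℝ (⊤ : Submodule ℝ F) = 3 := by
    rw [finrank_top]
    simp [F, Module.finrank_prod]
  omega

/-- The induction, assuming the chord step. -/
theorem pair_main_of_step
    (hstep : ∀ (X N : Finset F), Pair X N → ∀ (c : ENNReal), c ≠ ⊤ → ∀ (α : F → ℝ),
      (∀ n ∈ N, n.2 ≠ 0 → ∃ L : F, ∀ x ∈ tightPts X n, α x = dot L x) →
      (¬ ∃ (L : F) (a : ℝ), ∀ x ∈ X, α x = dot L x + a) →
      (∀ X' N', Pair X' N' → X'.card + N'.card < X.card + N.card →
        c ≤ volume (convexHull ℝ (X' : Set F)) * volume (convexHull ℝ (N' : Set F))) →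
      c ≤ volume (convexHull ℝ (X : Set F)) * volume (convexHull ℝ (N : Set F))) :
    ∀ (m : ℕ) (X N : Finset F), Pair X N → X.card + N.card ≤ m →
      ENNReal.ofReal (64 / 9) ≤
        volume (convexHull ℝ (X : Set F)) * volume (convexHull ℝ (N : Set F)) := by
  classical
  intro m
  induction m with
  | zero =>
    intro X N h hm
    have := incidence_bound h
    omega
  | succ m ihm =>
    intro X N h hm
    have IH : ∀ X' N', Pair X' N' → X'.card + N'.card < X.card + N.card →
        ENNReal.ofReal (64 / 9) ≤
          volume (convexHull ℝ (X' : Set F)) * volume (convexHull ℝ (N' : Set F)) := by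
      intro X' N' h' hlt
      exact ihm X' N' h' (by omega)
    have hI := incidence_bound h
    set I := ∑ n ∈ N, (tightPts X n).card with hIdef
    by_cases hA : I + 5 ≤ X.card + 3 * N.card
    · obtain ⟨α, hα, hnt⟩ := exists_alpha h N (Finset.Subset.refl _) hA
      exact hstep X N h _ ENNReal.ofReal_ne_top α (fun n hn _ => hα n hn) hnt IH
    by_cases hB : I + 5 ≤ N.card + 3 * X.card
    · have hB' : ∑ x ∈ X, (tightPts N x).card + 5 ≤ N.card + 3 * X.card := by
        rw [sum_tight_swap]
        exact hB
      obtain ⟨α, hα, hnt⟩ := exists_alpha h.swap X (Finset.Subset.refl _) hB'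
      have := hstep N X h.swap _ ENNReal.ofReal_ne_top α (fun n hn _ => hα n hn) hnt
        (fun X' N' h' hlt => IH X' N' h' (by omega))
      rwa [mul_comm] at this
    have hXN : X.card = N.card := by omega
    have hIval : I + 4 = 4 * X.card := by omega
    by_cases hall : ∀ n ∈ N, (tightPts X n).card = 3
    · have h3 : I = N.card * 3 := by
        rw [hIdef, Finset.sum_congr rfl hall, Finset.sum_const, smul_eq_mul]
      exact simplex_case h (by omega)
    · push Not at hall
      obtain ⟨n0, hn0, hn0c⟩ := hall
      have hk0 : 4 ≤ (tightPts X n0).card := by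
        have := three_le_card_tight h hn0
        omega
      obtain ⟨T, hTinj, hp, hT0, hdot, hvol, hconv⟩ := exists_rotation h n0
      have hcX : (X.image T).card = X.card := Finset.card_image_of_injective _ hTinj
      have hcN : (N.image T).card = N.card := Finset.card_image_of_injective _ hTinj
      have htight : ∀ n, tightPts (X.image T) (T n) = (tightPts X n).image T := by
        intro n
        ext y
        simp only [mem_tightPts, Finset.mem_image]
        constructor
        · rintro ⟨⟨x, hx, rfl⟩, h2⟩
          exact ⟨x, ⟨hx, by rwa [hdot] at h2⟩, rfl⟩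
        · rintro ⟨x, ⟨hx1, hx2⟩, rfl⟩
          exact ⟨⟨x, hx1, rfl⟩, by rwa [hdot]⟩
      have hcard : ∀ n, (tightPts (X.image T) (T n)).card = (tightPts X n).card := by
        intro n
        rw [htight, Finset.card_image_of_injective _ hTinj]
      have hsum : ∑ n' ∈ N.image T, (tightPts (X.image T) n').card = I := by
        rw [Finset.sum_image (fun a _ b _ hab => hTinj hab)]
        exact Finset.sum_congr rfl (fun n _ => hcard n)
      have hT0mem : T n0 ∈ N.image T := Finset.mem_image_of_mem _ hn0
      have herase := Finset.add_sum_erase (N.image T) (fun n' => (tightPts (X.image T) n').card) hT0mem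
      rw [hsum, hcard] at herase
      have hcount : ∑ n' ∈ (N.image T).erase (T n0), (tightPts (X.image T) n').card + 5
          ≤ (X.image T).card + 3 * ((N.image T).erase (T n0)).card := by
        rw [Finset.card_erase_of_mem hT0mem, hcN, hcX]
        have hNpos : 0 < N.card := Finset.card_pos.2 ⟨n0, hn0⟩
        omega
      obtain ⟨α, hα, hnt⟩ := exists_alpha hp _ (Finset.erase_subset _ _) hcount
      have hmain := hstep (X.image T) (N.image T) hp _ ENNReal.ofReal_ne_top α
        (fun n hn hn2 => hα n (Finset.mem_erase.2 ⟨fun he => hn2 (by rw [he]; exact hT0), hn⟩)) hnt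
        (fun X' N' h' hlt => IH X' N' h' (by omega))
      have hv : ∀ S : Finset F, volume (convexHull ℝ ((S.image T : Finset F) : Set F))
          = volume (convexHull ℝ (S : Set F)) := by
        intro S
        rw [Finset.coe_image, ← hconv, hvol]
      rwa [hv, hv] at hmain

end Vale.Agent.Lib.P248
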