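import Vale.Agent.Lib.P248.PairTheory

open MeasureTheory Set

namespace Vale.Agent.Lib.P248

/-- A linear functional injective on a finite set, with nonzero last coordinate. -/
lemma exists_generic (X : Finset F) :
    ∃ g : F, g.2 ≠ 0 ∧ ∀ x ∈ X, ∀ y ∈ X, dot g x = dot g y → x = y := by
  classical
  let e3 : F := ((0, 0), 1)
  let K : F → Submodule ℝ F := fun v => LinearMap.ker (dotL v)
  have hK : ∀ v : F, v ≠ 0 → K v ≠ ⊤ := by
    intro v hv htop
    have h1 : v ∈ K v := by rw [htop]; trivial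
    have h2 : dot v v = 0 := h1
    apply hv
    simp only [dot, dot2] at h2
    have h3 : v.1.1 = 0 := by nlinarith [mul_self_nonneg v.1.1, mul_self_nonneg v.1.2, mul_self_nonneg v.2]
    have h4 : v.1.2 = 0 := by nlinarith [mul_self_nonneg v.1.1, mul_self_nonneg v.1.2, mul_self_nonneg v.2]
    have h5 : v.2 = 0 := by nlinarith [mul_self_nonneg v.1.1, mul_self_nonneg v.1.2, mul_self_nonneg v.2]
    ext <;> simp [h3, h4, h5]
  let S : Finset (Submodule ℝ F) :=
    insert (K e3) (((X ×ˢ X).filter (fun p => p.1 ≠ p.2)).image (fun p => K (p.1 - p.2)))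
  have hS : (⊤ : Submodule ℝ F) ∉ S := by
    intro hmem
    rw [Finset.mem_insert, Finset.mem_image] at hmem
    rcases hmem with hmem | ⟨p, hp, hpe⟩
    · exact hK e3 (by simp [e3, Prod.ext_iff]) hmem.symm
    · rw [Finset.mem_filter] at hp
      exact hK (p.1 - p.2) (sub_ne_zero.2 hp.2) hpe
  have hne := Subspace.biUnion_ne_univ_of_top_notMem (s := S) hS
  obtain ⟨g, hg⟩ := (Set.ne_univ_iff_exists_notMem _).1 hne
  simp only [mem_iUnion, not_exists] at hg
  refine ⟨g, ?_, ?_⟩
  · intro h0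
    apply hg (K e3) (Finset.mem_insert_self _ _)
    change dot e3 g = 0
    simp [dot, dot2, e3, h0]
  · intro x hx y hy hxy
    by_contra hne'
    apply hg (K (x - y)) (Finset.mem_insert_of_mem (Finset.mem_image.2 ⟨(x, y), ?_, rfl⟩))
    · change dot (x - y) g = 0
      rw [dot_sub_left, dot_comm x, dot_comm y, hxy, sub_self]
    · simp [hx, hy, hne']

/-- A vertex is not strictly between two other points of the vertex set. -/
lemma vertex_not_between {X N : Finset F} (h : Pair X N) {x y z : F} (hx : x ∈ X) (hy : y ∈ X)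
    (hz : z ∈ X) {a b : ℝ} (ha : 0 < a) (hb : 0 < b)
    (hab : (a + b) • x = a • y + b • z) : y = x := by
  have hs := h.tight_x x hx
  have key := eq_zero_of_span_top hs (y - x) ?_
  · exact sub_eq_zero.1 key
  · intro m hm
    have hm' : m ∈ tightNrm N x := hm
    obtain ⟨hmN, hmx⟩ := mem_tightNrm.1 hm'
    have e := congrArg (fun p => dot m p) hab
    simp only [dot_add_right, dot_smul_right, add_mul, hmx] at e
    have h1 := h.le y hy m hmN
    have h2 := h.le z hz m hmN
    have h3 : dot m y = 1 := by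
      rcases lt_or_eq_of_le h1 with h4 | h4
      · nlinarith
      · exact h4
    rw [dot_sub_left, dot_comm y m, dot_comm x m, h3, hmx, sub_self]

/-- Data of a middle vertex in a facet: a direction along the section by a level plane. -/
lemma middle_dir {X N : Finset F} (h : Pair X N) {g x n yp ym : F} (hx : x ∈ X) (hn : n ∈ N)
    (hnx : dot n x = 1) (hyp : yp ∈ X) (hym : ym ∈ X) (hnp : dot n yp = 1) (hnm : dot n ym = 1)
    (hlp : dot g x < dot g yp) (hlm : dot g ym < dot g x) :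
    ∃ d : F, dot g d = 0 ∧ dot n d = 0 ∧ d ≠ 0 ∧ (∀ m ∈ N, dot m x = 1 → dot m d ≤ 0) ∧
      (∀ m ∈ N, dot m x = 1 → dot m d = 0 → m = n) ∧ (∀ κ : ℝ, n ≠ κ • g) := by
  set A := dot g yp - dot g x with hA
  set B := dot g x - dot g ym with hB
  have hApos : 0 < A := by rw [hA]; linarith
  have hBpos : 0 < B := by rw [hB]; linarith
  have hABpos : 0 < A + B := by linarith
  set d : F := (1 / (A + B)) • (B • (yp - x) + A • (ym - x)) with hd
  have hdg : ∀ m : F, dot m d = (1 / (A + B)) * (B * (dot m yp - dot m x) + A * (dot m ym - dot m x)) := by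
    intro m
    rw [hd, dot_smul_right, dot_add_right, dot_smul_right, dot_smul_right, dot_sub_right,
      dot_sub_right]
  have h1 : dot g d = 0 := by
    rw [hdg]
    have : B * (dot g yp - dot g x) + A * (dot g ym - dot g x) = 0 := by
      rw [hA, hB]
      ring
    rw [this, mul_zero]
  have h2 : dot n d = 0 := by
    rw [hdg, hnp, hnm, hnx]
    ring
  have h3 : d ≠ 0 := by
    intro hd0
    have hv : B • (yp - x) + A • (ym - x) = 0 := by
      have := congrArg (fun p => (A + B) • p) hd0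
      simp only [smul_zero] at this
      rw [hd, smul_smul] at this
      rw [← this]
      have e : (A + B) * (1 / (A + B)) = 1 := by field_simp
      rw [e, one_smul]
    have hab : (B + A) • x = B • yp + A • ym := by
      have e : B • yp + A • ym - (B + A) • x = B • (yp - x) + A • (ym - x) := by
        simp only [smul_sub, add_smul]
        abel
      rw [← sub_eq_zero, ← neg_eq_zero, neg_sub, e, hv]
    have := vertex_not_between h hx hyp hym hBpos hApos hab
    rw [this] at hlp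
    exact lt_irrefl _ hlp
  have h4 : ∀ m ∈ N, dot m x = 1 → dot m d ≤ 0 := by
    intro m hm hmx
    rw [hdg, hmx]
    have p1 := h.le yp hyp m hm
    have p2 := h.le ym hym m hm
    have : B * (dot m yp - 1) + A * (dot m ym - 1) ≤ 0 := by nlinarith
    exact mul_nonpos_of_nonneg_of_nonpos (by positivity) this
  have h5 : ∀ m ∈ N, dot m x = 1 → dot m d = 0 → m = n := by
    intro m hm hmx hmd
    rw [hdg, hmx] at hmd
    have p1 := h.le yp hyp m hm
    have p2 := h.le ym hym m hm
    have hz : B * (dot m yp - 1) + A * (dot m ym - 1) = 0 := by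
      have hne : (1 / (A + B)) ≠ 0 := by positivity
      exact (mul_eq_zero.1 hmd).resolve_left hne
    have q1 : dot m yp = 1 := by
      rcases lt_or_eq_of_le p1 with h6 | h6
      · nlinarith
      · exact h6
    have q2 : dot m ym = 1 := by
      rcases lt_or_eq_of_le p2 with h6 | h6
      · nlinarith
      · exact h6
    -- the three points are independent
    by_contra hmn
    let M : Matrix (Fin 3) (Fin 3) ℝ :=
      !![x.1.1, x.1.2, x.2; yp.1.1, yp.1.2, yp.2; ym.1.1, ym.1.2, ym.2]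
    let v : Fin 3 → ℝ := ![(m - n).1.1, (m - n).1.2, (m - n).2]
    have hv0 : v ≠ 0 := by
      intro hv
      apply hmn
      have a0 := congrFun hv 0
      have a1 := congrFun hv 1
      have a2 := congrFun hv 2
      simp only [v, Matrix.cons_val_zero, Matrix.cons_val_one, Matrix.cons_val, Pi.zero_apply]
        at a0 a1 a2
      have : m - n = 0 := by
        ext
        · exact a0
        · exact a1
        · exact a2
      exact sub_eq_zero.1 this
    have hMv : M.mulVec v = 0 := by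
      have e1 : dot (m - n) x = 0 := by rw [dot_sub_left, hmx, hnx, sub_self]
      have e2 : dot (m - n) yp = 0 := by rw [dot_sub_left, q1, hnp, sub_self]
      have e3 : dot (m - n) ym = 0 := by rw [dot_sub_left, q2, hnm, sub_self]
      simp only [dot, dot2, Prod.fst_sub, Prod.snd_sub] at e1 e2 e3
      funext i
      fin_cases i
      · simp [M, v, Matrix.mulVec, dotProduct, Fin.sum_univ_three]
        linear_combination e1
      · simp [M, v, Matrix.mulVec, dotProduct, Fin.sum_univ_three]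
        linear_combination e2
      · simp [M, v, Matrix.mulVec, dotProduct, Fin.sum_univ_three]
        linear_combination e3
    have hdet : M.det = 0 := Matrix.exists_mulVec_eq_zero_iff.1 ⟨v, hv0, hMv⟩
    obtain ⟨w, hw0, hw⟩ := Matrix.exists_vecMul_eq_zero_iff.2 hdet
    have c0 := congrFun hw 0
    have c1 := congrFun hw 1
    have c2 := congrFun hw 2
    simp [M, Matrix.vecMul, dotProduct, Fin.sum_univ_three] at c0 c1 c2
    have hrel : w 0 • x + w 1 • yp + w 2 • ym = 0 := by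
      ext
      · simpa using c0
      · simpa using c1
      · simpa using c2
    have r1 := congrArg (fun p => dot n p) hrel
    have r2 := congrArg (fun p => dot g p) hrel
    simp only [dot_add_right, dot_smul_right, dot_zero_right, hnx, hnp, hnm] at r1 r2
    have w0 : w 0 = -(w 1 + w 2) := by linarith
    have hbc : w 1 * A = w 2 * B := by
      rw [hA, hB]
      rw [w0] at r2
      linarith
    by_cases ht : w 1 = 0
    · have w2z : w 2 = 0 := by
        rw [ht, zero_mul] at hbc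
        exact ((mul_eq_zero.1 hbc.symm).resolve_right hBpos.ne')
      have w00 : w 0 = 0 := by rw [w0, ht, w2z]; ring
      apply hw0
      funext i
      fin_cases i
      · exact w00
      · exact ht
      · exact w2z
    · -- then `x` lies between `yp` and `ym`
      have hw2 : w 2 = w 1 * A / B := by
        field_simp
        linarith
      have hr : (B + A) • x = B • yp + A • ym := by
        have e : w 1 • (B • yp + A • ym - (B + A) • x) = B • (w 0 • x + w 1 • yp + w 2 • ym) := by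
          rw [w0, hw2]
          ext
          · simp
            field_simp
            ring
          · simp
            field_simp
            ring
          · simp
            field_simp
            ring
        rw [hrel, smul_zero] at e
        have := (smul_eq_zero.1 e).resolve_left ht
        exact (sub_eq_zero.1 this).symm
      have := vertex_not_between h hx hyp hym hBpos hApos hr
      rw [this] at hlp
      exact lt_irrefl _ hlp
  have h6 : ∀ κ : ℝ, n ≠ κ • g := by
    intro κ hκ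
    rw [hκ, dot_smul_left] at hnx hnp
    have hκ0 : κ ≠ 0 := by
      rintro rfl
      simp at hnx
    have : dot g x = dot g yp := by
      apply mul_left_cancel₀ hκ0
      rw [hnx, hnp]
    exact absurd this hlp.ne
  exact ⟨d, h1, h2, h3, h4, h5, h6⟩

lemma exists_lambda {p q a b : ℝ} (hpq : p ≠ 0 ∨ q ≠ 0) (hab : a ≠ 0 ∨ b ≠ 0)
    (e : p * a + q * b = 0) : ∃ l : ℝ, l ≠ 0 ∧ p = -l * b ∧ q = l * a := by
  by_cases ha : a = 0
  · have hb : b ≠ 0 := hab.resolve_left (by simpa using ha)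
    subst ha
    have hq : q = 0 := by
      have : q * b = 0 := by linarith
      exact (mul_eq_zero.1 this).resolve_right hb
    refine ⟨-p / b, ?_, ?_, ?_⟩
    · have hp : p ≠ 0 := by
        rcases hpq with h | h
        · exact h
        · exact absurd hq h
      exact div_ne_zero (neg_ne_zero.2 hp) hb
    · field_simp
    · simp [hq]
  · refine ⟨q / a, ?_, ?_, ?_⟩
    · intro hz
      have hq : q = 0 := by
        have := (div_eq_zero_iff.1 hz)
        exact this.resolve_right ha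
      have hp : p = 0 := by
        have : p * a = 0 := by rw [hq] at e; linarith
        exact (mul_eq_zero.1 this).resolve_right ha
      rcases hpq with h | h
      · exact h hp
      · exact h hq
    · field_simp
      linarith
    · field_simp

lemma parallel_of_cross {a1 b1 a2 b2 : ℝ} (h2 : a2 ≠ 0 ∨ b2 ≠ 0) (h1 : a1 ≠ 0 ∨ b1 ≠ 0)
    (hs : a1 * b2 - b1 * a2 = 0) : ∃ c : ℝ, c ≠ 0 ∧ a1 = c * a2 ∧ b1 = c * b2 := by
  by_cases ha : a2 = 0
  · have hb : b2 ≠ 0 := h2.resolve_left (by simpa using ha)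
    subst ha
    have ha1 : a1 = 0 := by
      have : a1 * b2 = 0 := by linarith
      exact (mul_eq_zero.1 this).resolve_right hb
    refine ⟨b1 / b2, ?_, by simp [ha1], by field_simp⟩
    have hb1 : b1 ≠ 0 := h1.resolve_left (by simpa using ha1)
    exact div_ne_zero hb1 hb
  · refine ⟨a1 / a2, ?_, by field_simp, ?_⟩
    · intro hz
      have ha1 : a1 = 0 := (div_eq_zero_iff.1 hz).resolve_right ha
      have hb1 : b1 = 0 := by
        have : b1 * a2 = 0 := by rw [ha1] at hs; linarith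
        exact (mul_eq_zero.1 this).resolve_right ha
      rcases h1 with h | h
      · exact h ha1
      · exact h hb1
    · field_simp
      linarith

/-- Positive proportionality in the plane. -/
def PosPar (a1 b1 a2 b2 : ℝ) : Prop := ∃ c : ℝ, 0 < c ∧ a1 = c * a2 ∧ b1 = c * b2

lemma planar_core {l1 l2 l3 a1 b1 a2 b2 a3 b3 : ℝ} (hl3 : l3 ≠ 0)
    (hs : 0 < l1 * l2)
    (h1 : a1 ≠ 0 ∨ b1 ≠ 0) (h2 : a2 ≠ 0 ∨ b2 ≠ 0) (h3 : a3 ≠ 0 ∨ b3 ≠ 0)
    (l12 : l1 * (a1 * b2 - b1 * a2) ≤ 0) (l21 : l2 * (a2 * b1 - b2 * a1) ≤ 0)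
    (l31 : l3 * (a3 * b1 - b3 * a1) ≤ 0) (l32 : l3 * (a3 * b2 - b3 * a2) ≤ 0) :
    PosPar a1 b1 a2 b2 ∨ PosPar a3 b3 a2 b2 ∨ PosPar a3 b3 a1 b1 := by
  have hs0 : a1 * b2 - b1 * a2 = 0 := by
    rcases lt_trichotomy (a1 * b2 - b1 * a2) 0 with h | h | h
    · exfalso
      have e : a2 * b1 - b2 * a1 = -(a1 * b2 - b1 * a2) := by ring
      rw [e] at l21
      have p1 : 0 < l1 * l2 * (-(a1 * b2 - b1 * a2)) := mul_pos hs (by linarith)
      rcases (mul_pos_iff.1 hs) with ⟨a, b⟩ | ⟨a, b⟩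
      · nlinarith
      · nlinarith
    · exact h
    · exfalso
      have p1 : 0 < l1 * l2 * (a1 * b2 - b1 * a2) := mul_pos hs h
      rcases (mul_pos_iff.1 hs) with ⟨a, b⟩ | ⟨a, b⟩
      · nlinarith
      · have e : a2 * b1 - b2 * a1 = -(a1 * b2 - b1 * a2) := by ring
        rw [e] at l21
        nlinarith
  obtain ⟨c, hc0, ea, eb⟩ := parallel_of_cross h2 h1 hs0
  rcases lt_or_gt_of_ne hc0 with hc | hc
  · -- antiparallel: the third functional vanishes on the second vector
    have e1 : a3 * b1 - b3 * a1 = c * (a3 * b2 - b3 * a2) := by rw [ea, eb]; ring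
    rw [e1] at l31
    have z : l3 * (a3 * b2 - b3 * a2) = 0 := by
      have : c * (l3 * (a3 * b2 - b3 * a2)) ≤ 0 := by linarith [l31]
      nlinarith
    have hs3 : a3 * b2 - b3 * a2 = 0 := (mul_eq_zero.1 z).resolve_left hl3
    obtain ⟨c', hc'0, ea', eb'⟩ := parallel_of_cross h2 h3 hs3
    rcases lt_or_gt_of_ne hc'0 with hc' | hc'
    · right; right
      refine ⟨c' / c, div_pos_of_neg_of_neg hc' hc, ?_, ?_⟩
      · rw [ea', ea]; field_simp
      · rw [eb', eb]; field_simp
    · right; left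
      exact ⟨c', hc', ea', eb'⟩
  · left
    exact ⟨c, hc, ea, eb⟩

lemma planar_three {p1 q1 a1 b1 p2 q2 a2 b2 p3 q3 a3 b3 : ℝ}
    (n1 : p1 ≠ 0 ∨ q1 ≠ 0) (n2 : p2 ≠ 0 ∨ q2 ≠ 0) (n3 : p3 ≠ 0 ∨ q3 ≠ 0)
    (h1 : a1 ≠ 0 ∨ b1 ≠ 0) (h2 : a2 ≠ 0 ∨ b2 ≠ 0) (h3 : a3 ≠ 0 ∨ b3 ≠ 0)
    (e1 : p1 * a1 + q1 * b1 = 0) (e2 : p2 * a2 + q2 * b2 = 0) (e3 : p3 * a3 + q3 * b3 = 0)
    (l12 : p1 * a2 + q1 * b2 ≤ 0) (l13 : p1 * a3 + q1 * b3 ≤ 0)
    (l21 : p2 * a1 + q2 * b1 ≤ 0) (l23 : p2 * a3 + q2 * b3 ≤ 0)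
    (l31 : p3 * a1 + q3 * b1 ≤ 0) (l32 : p3 * a2 + q3 * b2 ≤ 0) :
    PosPar a1 b1 a2 b2 ∨ PosPar a3 b3 a2 b2 ∨ PosPar a3 b3 a1 b1 ∨
      PosPar a1 b1 a3 b3 ∨ PosPar a2 b2 a3 b3 ∨ PosPar a2 b2 a1 b1 := by
  obtain ⟨v1, hv1, rp1, rq1⟩ := exists_lambda n1 h1 e1
  obtain ⟨v2, hv2, rp2, rq2⟩ := exists_lambda n2 h2 e2
  obtain ⟨v3, hv3, rp3, rq3⟩ := exists_lambda n3 h3 e3
  subst rp1 rq1 rp2 rq2 rp3 rq3
  have f12 : v1 * (a1 * b2 - b1 * a2) ≤ 0 := by linarith [l12, (by ring : -v1 * b1 * a2 + v1 * a1 * b2 = v1 * (a1 * b2 - b1 * a2))]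
  have f13 : v1 * (a1 * b3 - b1 * a3) ≤ 0 := by linarith [l13, (by ring : -v1 * b1 * a3 + v1 * a1 * b3 = v1 * (a1 * b3 - b1 * a3))]
  have f21 : v2 * (a2 * b1 - b2 * a1) ≤ 0 := by linarith [l21, (by ring : -v2 * b2 * a1 + v2 * a2 * b1 = v2 * (a2 * b1 - b2 * a1))]
  have f23 : v2 * (a2 * b3 - b2 * a3) ≤ 0 := by linarith [l23, (by ring : -v2 * b2 * a3 + v2 * a2 * b3 = v2 * (a2 * b3 - b2 * a3))]
  have f31 : v3 * (a3 * b1 - b3 * a1) ≤ 0 := by linarith [l31, (by ring : -v3 * b3 * a1 + v3 * a3 * b1 = v3 * (a3 * b1 - b3 * a1))]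
  have f32 : v3 * (a3 * b2 - b3 * a2) ≤ 0 := by linarith [l32, (by ring : -v3 * b3 * a2 + v3 * a3 * b2 = v3 * (a3 * b2 - b3 * a2))]
  have hcases : 0 < v1 * v2 ∨ 0 < v1 * v3 ∨ 0 < v2 * v3 := by
    rcases lt_or_gt_of_ne hv1 with a | a <;> rcases lt_or_gt_of_ne hv2 with b | b <;>
      rcases lt_or_gt_of_ne hv3 with c | c
    · exact Or.inl (mul_pos_of_neg_of_neg a b)
    · exact Or.inl (mul_pos_of_neg_of_neg a b)
    · exact Or.inr (Or.inl (mul_pos_of_neg_of_neg a c))
    · exact Or.inr (Or.inr (mul_pos b c))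
    · exact Or.inr (Or.inr (mul_pos_of_neg_of_neg b c))
    · exact Or.inr (Or.inl (mul_pos a c))
    · exact Or.inl (mul_pos a b)
    · exact Or.inl (mul_pos a b)
  rcases hcases with hc | hc | hc
  · rcases planar_core hv3 hc h1 h2 h3 f12 f21 f31 f32 with r | r | r
    · exact Or.inl r
    · exact Or.inr (Or.inl r)
    · exact Or.inr (Or.inr (Or.inl r))
  · rcases planar_core hv2 hc h1 h3 h2 f13 f31 f21 f23 with r | r | r
    · exact Or.inr (Or.inr (Or.inr (Or.inl r)))
    · exact Or.inr (Or.inr (Or.inr (Or.inr (Or.inl r))))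
    · exact Or.inr (Or.inr (Or.inr (Or.inr (Or.inr r))))
  · rcases planar_core hv1 hc h2 h3 h1 f23 f32 f12 f13 with r | r | r
    · exact Or.inr (Or.inr (Or.inr (Or.inr (Or.inl r))))
    · exact Or.inr (Or.inr (Or.inr (Or.inl r)))
    · exact Or.inl r

/-- Reduced normal: the restriction of `dot n` to the plane orthogonal to `g`. -/
noncomputable def redN (g n : F) : ℝ × ℝ := (n.1.1 - n.2 / g.2 * g.1.1, n.1.2 - n.2 / g.2 * g.1.2)

lemma dot_eq_red {g n w : F} (hg : g.2 ≠ 0) (hw : dot g w = 0) :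
    dot n w = (redN g n).1 * w.1.1 + (redN g n).2 * w.1.2 := by
  simp only [dot, dot2] at hw ⊢
  simp only [redN]
  have hw2 : w.2 = -(g.1.1 * w.1.1 + g.1.2 * w.1.2) / g.2 := by
    field_simp
    linarith
  rw [hw2]
  field_simp
  ring

lemma red_ne {g n : F} (hg : g.2 ≠ 0) (hn : ∀ κ : ℝ, n ≠ κ • g) :
    (redN g n).1 ≠ 0 ∨ (redN g n).2 ≠ 0 := by
  by_contra hcon
  push Not at hcon
  obtain ⟨h1, h2⟩ := hcon
  apply hn (n.2 / g.2)
  simp only [redN] at h1 h2
  ext
  · simp only [Prod.smul_fst, smul_eq_mul]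
    linarith
  · simp only [Prod.smul_fst, Prod.smul_snd, smul_eq_mul]
    linarith
  · simp only [Prod.smul_snd, smul_eq_mul]
    field_simp

lemma coord_ne {g d : F} (hg : g.2 ≠ 0) (hd : dot g d = 0) (hd0 : d ≠ 0) :
    d.1.1 ≠ 0 ∨ d.1.2 ≠ 0 := by
  by_contra hcon
  push Not at hcon
  obtain ⟨h1, h2⟩ := hcon
  apply hd0
  simp only [dot, dot2, h1, h2, mul_zero, zero_add] at hd
  have h3 : d.2 = 0 := (mul_eq_zero.1 hd).resolve_left hg
  ext <;> simp [h1, h2, h3]

lemma of_posPar {g d1 d2 : F} (hg : g.2 ≠ 0) (h1 : dot g d1 = 0) (h2 : dot g d2 = 0)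
    (hp : PosPar d1.1.1 d1.1.2 d2.1.1 d2.1.2) : ∃ c : ℝ, d1 = c • d2 := by
  obtain ⟨c, _, ea, eb⟩ := hp
  refine ⟨c, ?_⟩
  simp only [dot, dot2] at h1 h2
  have e3 : d1.2 = c * d2.2 := by
    rw [ea, eb] at h1
    have : g.2 * (d1.2 - c * d2.2) = 0 := by linear_combination h1 - c * h2
    have := (mul_eq_zero.1 this).resolve_left hg
    linarith
  ext
  · simpa using ea
  · simpa using eb
  · simpa using e3

/-- At most two facets have a given vertex in the middle for a generic height. -/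
lemma no_three_middles {X N : Finset F} (h : Pair X N) {g x n1 n2 n3 : F} (hg : g.2 ≠ 0)
    (hx : x ∈ X) (h1 : n1 ∈ N) (h2 : n2 ∈ N) (h3 : n3 ∈ N)
    (hx1 : dot n1 x = 1) (hx2 : dot n2 x = 1) (hx3 : dot n3 x = 1)
    (h12 : n1 ≠ n2) (h13 : n1 ≠ n3) (h23 : n2 ≠ n3)
    {p1 m1 p2 m2 p3 m3 : F}
    (hp1 : p1 ∈ X) (hm1 : m1 ∈ X) (ep1 : dot n1 p1 = 1) (em1 : dot n1 m1 = 1)
    (up1 : dot g x < dot g p1) (dn1 : dot g m1 < dot g x)
    (hp2 : p2 ∈ X) (hm2 : m2 ∈ X) (ep2 : dot n2 p2 = 1) (em2 : dot n2 m2 = 1)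
    (up2 : dot g x < dot g p2) (dn2 : dot g m2 < dot g x)
    (hp3 : p3 ∈ X) (hm3 : m3 ∈ X) (ep3 : dot n3 p3 = 1) (em3 : dot n3 m3 = 1)
    (up3 : dot g x < dot g p3) (dn3 : dot g m3 < dot g x) : False := by
  obtain ⟨d1, g1, z1, ne1, le1, fc1, k1⟩ := middle_dir h hx h1 hx1 hp1 hm1 ep1 em1 up1 dn1
  obtain ⟨d2, g2, z2, ne2, le2, fc2, k2⟩ := middle_dir h hx h2 hx2 hp2 hm2 ep2 em2 up2 dn2
  obtain ⟨d3, g3, z3, ne3, le3, fc3, k3⟩ := middle_dir h hx h3 hx3 hp3 hm3 ep3 em3 up3 dn3
  have conv : ∀ {n : F} {d : F}, dot g d = 0 → dot n d = (redN g n).1 * d.1.1 + (redN g n).2 * d.1.2 :=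
    fun hd => dot_eq_red hg hd
  have R := planar_three (red_ne hg k1) (red_ne hg k2) (red_ne hg k3)
    (coord_ne hg g1 ne1) (coord_ne hg g2 ne2) (coord_ne hg g3 ne3)
    ((conv g1).symm.trans z1) ((conv g2).symm.trans z2) ((conv g3).symm.trans z3)
    (by rw [← conv g2]; exact le2 n1 h1 hx1) (by rw [← conv g3]; exact le3 n1 h1 hx1)
    (by rw [← conv g1]; exact le1 n2 h2 hx2) (by rw [← conv g3]; exact le3 n2 h2 hx2)
    (by rw [← conv g1]; exact le1 n3 h3 hx3) (by rw [← conv g2]; exact le2 n3 h3 hx3)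
  rcases R with r | r | r | r | r | r
  · obtain ⟨c, hc⟩ := of_posPar hg g1 g2 r
    exact h12 (fc1 n2 h2 hx2 (by rw [hc, dot_smul_right, z2, mul_zero])).symm
  · obtain ⟨c, hc⟩ := of_posPar hg g3 g2 r
    exact h23 (fc3 n2 h2 hx2 (by rw [hc, dot_smul_right, z2, mul_zero]))
  · obtain ⟨c, hc⟩ := of_posPar hg g3 g1 r
    exact h13 (fc3 n1 h1 hx1 (by rw [hc, dot_smul_right, z1, mul_zero]))
  · obtain ⟨c, hc⟩ := of_posPar hg g1 g3 r
    exact h13 (fc1 n3 h3 hx3 (by rw [hc, dot_smul_right, z3, mul_zero])).symm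
  · obtain ⟨c, hc⟩ := of_posPar hg g2 g3 r
    exact h23 (fc2 n3 h3 hx3 (by rw [hc, dot_smul_right, z3, mul_zero])).symm
  · obtain ⟨c, hc⟩ := of_posPar hg g2 g1 r
    exact h12 (fc2 n1 h1 hx1 (by rw [hc, dot_smul_right, z1, mul_zero]))

/-- The vertex `x` is in the middle of the facet `n` for the height `g`. -/
def Mid (X : Finset F) (g n x : F) : Prop :=
  ∃ yp ∈ tightPts X n, ∃ ym ∈ tightPts X n, dot g x < dot g yp ∧ dot g ym < dot g x

open Classical in
lemma card_mid_le {X N : Finset F} (h : Pair X N) {g x : F} (hg : g.2 ≠ 0) (hx : x ∈ X) :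
    (N.filter (fun n => dot n x = 1 ∧ Mid X g n x)).card ≤ 2 := by
  by_contra hcon
  push Not at hcon
  obtain ⟨n1, h1, n2, h2, n3, h3, h12, h13, h23⟩ := Finset.two_lt_card.1 hcon
  rw [Finset.mem_filter] at h1 h2 h3
  obtain ⟨m1, ex1, p1, hp1, m1', hm1, up1, dn1⟩ := h1
  obtain ⟨m2, ex2, p2, hp2, m2', hm2, up2, dn2⟩ := h2
  obtain ⟨m3, ex3, p3, hp3, m3', hm3, up3, dn3⟩ := h3
  obtain ⟨a1, b1⟩ := mem_tightPts.1 hp1
  obtain ⟨a2, b2⟩ := mem_tightPts.1 hp2
  obtain ⟨a3, b3⟩ := mem_tightPts.1 hp3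
  obtain ⟨c1, d1⟩ := mem_tightPts.1 hm1
  obtain ⟨c2, d2⟩ := mem_tightPts.1 hm2
  obtain ⟨c3, d3⟩ := mem_tightPts.1 hm3
  exact no_three_middles h hg hx m1 m2 m3 ex1 ex2 ex3 h12 h13 h23
    a1 c1 b1 d1 up1 dn1 a2 c2 b2 d2 up2 dn2 a3 c3 b3 d3 up3 dn3

open Classical in
lemma card_facet_le {X : Finset F} {g n : F} (hne : (tightPts X n).Nonempty)
    (hinj : ∀ x ∈ X, ∀ y ∈ X, dot g x = dot g y → x = y) :
    (tightPts X n).card ≤ 2 + (X.filter (fun x => x ∈ tightPts X n ∧ Mid X g n x)).card := by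
  obtain ⟨top, htop, htopm⟩ := Finset.exists_max_image (tightPts X n) (fun x => dot g x) hne
  obtain ⟨bot, hbot, hbotm⟩ := Finset.exists_min_image (tightPts X n) (fun x => dot g x) hne
  have hsub : tightPts X n ⊆ {top, bot} ∪ (X.filter (fun x => x ∈ tightPts X n ∧ Mid X g n x)) := by
    intro x hx
    by_cases h1 : x = top
    · simp [h1]
    by_cases h2 : x = bot
    · simp [h2]
    rw [Finset.mem_union]
    right
    rw [Finset.mem_filter]
    have hxX := (mem_tightPts.1 hx).1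
    refine ⟨hxX, hx, top, htop, bot, hbot, ?_, ?_⟩
    · refine lt_of_le_of_ne (htopm x hx) ?_
      intro he
      exact h1 (hinj x hxX top (mem_tightPts.1 htop).1 he)
    · refine lt_of_le_of_ne (hbotm x hx) ?_
      intro he
      exact h2 (hinj x hxX bot (mem_tightPts.1 hbot).1 he.symm)
  calc (tightPts X n).card ≤ _ := Finset.card_le_card hsub
    _ ≤ ({top, bot} : Finset F).card + _ := Finset.card_union_le _ _
    _ ≤ 2 + _ := by
      gcongr
      exact Finset.card_le_two

/-- Euler type bound for the incidences of a polar pair. -/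
theorem incidence_bound {X N : Finset F} (h : Pair X N) :
    ∑ n ∈ N, (tightPts X n).card + 4 ≤ 2 * (X.card + N.card) := by
  classical
  obtain ⟨g, hg, hinj⟩ := exists_generic X
  obtain ⟨ρ, hρ, hball⟩ := h.ball
  -- the vertex set is nonempty
  have hzero : (0 : F) ∈ convexHull ℝ (X : Set F) := hball 0 (by simp [hρ.le])
  have hXne : X.Nonempty := by
    by_contra hne
    rw [Finset.not_nonempty_iff_eq_empty] at hne
    simp [hne] at hzero
  obtain ⟨xM, hxM, hxMm⟩ := Finset.exists_max_image X (fun x => dot g x) hXne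
  obtain ⟨xm, hxm, hxmm⟩ := Finset.exists_min_image X (fun x => dot g x) hXne
  have hdist : xM ≠ xm := by
    intro he
    subst he
    have u1 : (((0, 0), ρ) : F) ∈ convexHull ℝ (X : Set F) :=
      hball _ (by simp [abs_of_pos hρ])
    have u2 : (((0, 0), -ρ) : F) ∈ convexHull ℝ (X : Set F) :=
      hball _ (by simp [abs_of_pos hρ])
    have v1 := dot_le_of_mem_convexHull (S := (X : Set F)) (y := g) (c := dot g xM)
      (fun x hx => hxMm x hx) u1
    have v2 := dot_le_of_mem_convexHull (S := (X : Set F)) (y := g) (c := dot g xM)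
      (fun x hx => hxMm x hx) u2
    have v3 := dot_le_of_mem_convexHull (S := (X : Set F)) (y := -g) (c := - dot g xM)
      (fun x hx => by rw [dot_neg_left]; have := hxmm x hx; linarith) u1
    have v4 := dot_le_of_mem_convexHull (S := (X : Set F)) (y := -g) (c := - dot g xM)
      (fun x hx => by rw [dot_neg_left]; have := hxmm x hx; linarith) u2
    rw [dot_neg_left] at v3 v4
    simp only [dot, dot2, mul_zero, add_zero, zero_add] at v1 v2 v3 v4
    have : g.2 * ρ = 0 := by linarith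
    exact (mul_ne_zero hg hρ.ne') this
  -- the facet count
  have hfacet : ∀ n ∈ N, (tightPts X n).card ≤
      2 + (X.filter (fun x => x ∈ tightPts X n ∧ Mid X g n x)).card := by
    intro n hn
    have hs := h.tight_n n hn
    have hne : (tightPts X n).Nonempty := by
      by_contra hemp
      rw [Finset.not_nonempty_iff_eq_empty] at hemp
      rw [hemp] at hs
      simp only [Finset.coe_empty, Submodule.span_empty] at hs
      have : (((1, 0), 0) : F) ∈ (⊥ : Submodule ℝ F) := by rw [hs]; trivial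
      simp [Prod.ext_iff] at this
    convert card_facet_le hne hinj
  have hsum : ∑ n ∈ N, (tightPts X n).card ≤
      ∑ n ∈ N, (2 + (X.filter (fun x => x ∈ tightPts X n ∧ Mid X g n x)).card) :=
    Finset.sum_le_sum hfacet
  rw [Finset.sum_add_distrib, Finset.sum_const, smul_eq_mul] at hsum
  have hswap : ∑ n ∈ N, (X.filter (fun x => x ∈ tightPts X n ∧ Mid X g n x)).card =
      ∑ x ∈ X, (N.filter (fun n => x ∈ tightPts X n ∧ Mid X g n x)).card :=
    Finset.sum_card_bipartiteAbove_eq_sum_card_bipartiteBelow _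
  -- the vertex count
  have hver : ∀ x ∈ X, (N.filter (fun n => x ∈ tightPts X n ∧ Mid X g n x)).card ≤ 2 := by
    intro x hx
    have := card_mid_le h hg hx
    refine le_trans (Finset.card_le_card ?_) (by convert this)
    intro n hn
    rw [Finset.mem_filter] at hn ⊢
    exact ⟨hn.1, (mem_tightPts.1 hn.2.1).2, hn.2.2⟩
  have hmaxzero : (N.filter (fun n => xM ∈ tightPts X n ∧ Mid X g n xM)).card = 0 := by
    rw [Finset.card_eq_zero, Finset.filter_eq_empty_iff]
    rintro n _ ⟨_, yp, hyp, _, _, hlt, _⟩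
    have := hxMm yp (mem_tightPts.1 hyp).1
    linarith
  have hminzero : (N.filter (fun n => xm ∈ tightPts X n ∧ Mid X g n xm)).card = 0 := by
    rw [Finset.card_eq_zero, Finset.filter_eq_empty_iff]
    rintro n _ ⟨_, _, _, ym, hym, _, hlt⟩
    have := hxmm ym (mem_tightPts.1 hym).1
    linarith
  have htotal : ∑ x ∈ X, (N.filter (fun n => x ∈ tightPts X n ∧ Mid X g n x)).card + 4 ≤
      2 * X.card := by
    have hcard : ((X.erase xM).erase xm).card + 2 = X.card := by
      rw [Finset.card_erase_of_mem (Finset.mem_erase.2 ⟨hdist.symm, hxm⟩),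
        Finset.card_erase_of_mem hxM]
      have : 2 ≤ X.card := by
        have := Finset.card_le_card (Finset.insert_subset hxM (Finset.singleton_subset_iff.2 hxm))
        rwa [Finset.card_pair hdist] at this
      omega
    have e1 : ∑ x ∈ X, (N.filter (fun n => x ∈ tightPts X n ∧ Mid X g n x)).card =
        ∑ x ∈ (X.erase xM).erase xm, (N.filter (fun n => x ∈ tightPts X n ∧ Mid X g n x)).card := by
      rw [← Finset.add_sum_erase X _ hxM, hmaxzero, zero_add,
        ← Finset.add_sum_erase (X.erase xM) _ (Finset.mem_erase.2 ⟨hdist.symm, hxm⟩), hminzero,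
        zero_add]
    have e2 : ∑ x ∈ (X.erase xM).erase xm, (N.filter (fun n => x ∈ tightPts X n ∧ Mid X g n x)).card
        ≤ ∑ _x ∈ (X.erase xM).erase xm, 2 :=
      Finset.sum_le_sum (fun x hx => hver x (Finset.mem_of_mem_erase (Finset.mem_of_mem_erase hx)))
    rw [Finset.sum_const, smul_eq_mul] at e2
    rw [e1]
    omega
  rw [hswap] at hsum
  omega

end Vale.Agent.Lib.P248
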