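import Vale.Agent.Lib.P248.PairTheory

/-!
The incidence bound for polar pairs: the sum over facets of the number of vertices is at most
`2 (V + F) - 4`. A generic height function is used: each facet has at most two corners that are
not mixed (its top and its bottom), a vertex has at most two mixed corners, the highest and the
lowest vertex have none.
-/

open MeasureTheory Set

namespace Vale.Agent.Lib.P248

namespace Inc

/-- The cross product. -/
def cross (n m : F) : F :=
  ((n.1.2 * m.2 - n.2 * m.1.2, n.2 * m.1.1 - n.1.1 * m.2), n.1.1 * m.1.2 - n.1.2 * m.1.1)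

/-- The determinant of three vectors. -/
def det3 (a b c : F) : ℝ := dot a (cross b c)

lemma cross_eq_zero_imp {n m x : F} (h : cross n m = 0) (hn : dot n x = 1) (hm : dot m x = 1) :
    n = m := by
  have h1 : n.1.2 * m.2 - n.2 * m.1.2 = 0 := congrArg (fun p : F => p.1.1) h
  have h2 : n.2 * m.1.1 - n.1.1 * m.2 = 0 := congrArg (fun p : F => p.1.2) h
  have h3 : n.1.1 * m.1.2 - n.1.2 * m.1.1 = 0 := congrArg (fun p : F => p.2) h
  simp only [dot, dot2] at hn hm
  rcases n with ⟨⟨a, b⟩, c⟩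
  rcases m with ⟨⟨d, e⟩, f⟩
  rcases x with ⟨⟨x, y⟩, z⟩
  simp only at h1 h2 h3 hn hm ⊢
  ext
  · simp only
    linear_combination d * hn - a * hm + y * h3 - z * h2
  · simp only
    linear_combination e * hn - b * hm - x * h3 + z * h1
  · simp only
    linear_combination f * hn - c * hm + x * h2 - y * h1

lemma perp_eq_zero {h n m d : F} (hh : dot h d = 0) (hn : dot n d = 0) (hm : dot m d = 0)
    (hD : dot h (cross n m) ≠ 0) : d = 0 := by
  rcases h with ⟨⟨h1, h2⟩, h3⟩
  rcases n with ⟨⟨a1, a2⟩, a3⟩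
  rcases m with ⟨⟨b1, b2⟩, b3⟩
  rcases d with ⟨⟨d1, d2⟩, d3⟩
  simp only [dot, dot2, cross] at hh hn hm hD
  have e1 : (h1 * (a2 * b3 - a3 * b2) + h2 * (a3 * b1 - a1 * b3) + h3 * (a1 * b2 - a2 * b1)) * d1 = 0 := by
    linear_combination (a2 * b3 - a3 * b2) * hh + (h3 * b2 - h2 * b3) * hn + (h2 * a3 - h3 * a2) * hm
  have e2 : (h1 * (a2 * b3 - a3 * b2) + h2 * (a3 * b1 - a1 * b3) + h3 * (a1 * b2 - a2 * b1)) * d2 = 0 := by
    linear_combination (a3 * b1 - a1 * b3) * hh + (h1 * b3 - h3 * b1) * hn + (h3 * a1 - h1 * a3) * hm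
  have e3 : (h1 * (a2 * b3 - a3 * b2) + h2 * (a3 * b1 - a1 * b3) + h3 * (a1 * b2 - a2 * b1)) * d3 = 0 := by
    linear_combination (a1 * b2 - a2 * b1) * hh + (h2 * b1 - h1 * b2) * hn + (h1 * a2 - h2 * a1) * hm
  have hD' : h1 * (a2 * b3 - a3 * b2) + h2 * (a3 * b1 - a1 * b3) + h3 * (a1 * b2 - a2 * b1) ≠ 0 := by
    intro h0
    apply hD
    linarith
  have d1z := (mul_eq_zero.1 e1).resolve_left hD'
  have d2z := (mul_eq_zero.1 e2).resolve_left hD'
  have d3z := (mul_eq_zero.1 e3).resolve_left hD'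
  simp [d1z, d2z, d3z]

lemma det3_eq_zero_of_perp {h d1 d2 d3 : F} (h0 : h ≠ 0) (e1 : dot h d1 = 0) (e2 : dot h d2 = 0)
    (e3 : dot h d3 = 0) : det3 d1 d2 d3 = 0 := by
  rcases h with ⟨⟨h1, h2⟩, h3⟩
  rcases d1 with ⟨⟨a1, a2⟩, a3⟩
  rcases d2 with ⟨⟨b1, b2⟩, b3⟩
  rcases d3 with ⟨⟨c1, c2⟩, c3⟩
  simp only [dot, dot2, det3, cross] at e1 e2 e3 ⊢
  by_contra hne
  apply h0
  have f1 : (a1 * (b2 * c3 - b3 * c2) + a2 * (b3 * c1 - b1 * c3) + a3 * (b1 * c2 - b2 * c1)) * h1 = 0 := by
    linear_combination (b2 * c3 - b3 * c2) * e1 + (a3 * c2 - a2 * c3) * e2 + (a2 * b3 - a3 * b2) * e3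
  have f2 : (a1 * (b2 * c3 - b3 * c2) + a2 * (b3 * c1 - b1 * c3) + a3 * (b1 * c2 - b2 * c1)) * h2 = 0 := by
    linear_combination (b3 * c1 - b1 * c3) * e1 + (a1 * c3 - a3 * c1) * e2 + (a3 * b1 - a1 * b3) * e3
  have f3 : (a1 * (b2 * c3 - b3 * c2) + a2 * (b3 * c1 - b1 * c3) + a3 * (b1 * c2 - b2 * c1)) * h3 = 0 := by
    linear_combination (b1 * c2 - b2 * c1) * e1 + (a2 * c1 - a1 * c2) * e2 + (a1 * b2 - a2 * b1) * e3
  have hne' : a1 * (b2 * c3 - b3 * c2) + a2 * (b3 * c1 - b1 * c3) + a3 * (b1 * c2 - b2 * c1) ≠ 0 := by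
    intro h0'
    apply hne
    linarith
  have z1 := (mul_eq_zero.1 f1).resolve_left hne'
  have z2 := (mul_eq_zero.1 f2).resolve_left hne'
  have z3 := (mul_eq_zero.1 f3).resolve_left hne'
  simp [z1, z2, z3]

/-- The determinant of the matrix of dot products. -/
lemma det_product (n1 n2 n3 d1 d2 d3 : F) :
    dot n1 d1 * dot n2 d2 * dot n3 d3 + dot n1 d2 * dot n2 d3 * dot n3 d1
      + dot n1 d3 * dot n2 d1 * dot n3 d2 - dot n1 d3 * dot n2 d2 * dot n3 d1
      - dot n1 d2 * dot n2 d1 * dot n3 d3 - dot n1 d1 * dot n2 d3 * dot n3 d2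
      = det3 n1 n2 n3 * det3 d1 d2 d3 := by
  simp only [dot, dot2, det3, cross]
  ring

lemma exists_generic (V : Finset F) (hV : ∀ v ∈ V, v ≠ 0) : ∃ h : F, ∀ v ∈ V, dot h v ≠ 0 := by
  classical
  let s : Finset (Subspace ℝ F) := V.image (fun v => LinearMap.ker (dotL v))
  have hs : (⊤ : Subspace ℝ F) ∉ s := by
    intro ht
    obtain ⟨v, hv, hv'⟩ := Finset.mem_image.1 ht
    apply hV v hv
    apply eq_zero_of_dot_all
    intro y
    have hy : y ∈ LinearMap.ker (dotL v) := by
      rw [hv']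
      trivial
    simpa using hy
  have hne := Subspace.biUnion_ne_univ_of_top_notMem hs
  obtain ⟨h, hh⟩ := (Set.ne_univ_iff_exists_notMem _).1 hne
  refine ⟨h, fun v hv hz => hh ?_⟩
  simp only [mem_iUnion]
  refine ⟨LinearMap.ker (dotL v), Finset.mem_image_of_mem _ hv, ?_⟩
  show h ∈ LinearMap.ker (dotL v)
  rw [LinearMap.mem_ker, dotL_apply, dot_comm]
  exact hz

/-- The corner `(x, n)` is mixed for the height `hh`. -/
def Mix (X : Finset F) (hh n x : F) : Prop :=
  dot n x = 1 ∧ (∃ a ∈ X, dot n a = 1 ∧ dot hh x < dot hh a) ∧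
    (∃ b ∈ X, dot n b = 1 ∧ dot hh b < dot hh x)

lemma exists_dir {X N : Finset F} (h : Pair X N) {hh n x : F} (hx : x ∈ X)
    (hm : Mix X hh n x) :
    ∃ d : F, d ≠ 0 ∧ dot hh d = 0 ∧ dot n d = 0 ∧ ∀ m ∈ N, dot m x = 1 → dot m d ≤ 0 := by
  obtain ⟨hnx, ⟨a, ha, hna, hxa⟩, ⟨b, hb, hnb, hbx⟩⟩ := hm
  have hab : 0 < dot hh a - dot hh b := by linarith
  set μ : ℝ := (dot hh x - dot hh b) / (dot hh a - dot hh b) with hμ
  have hμ0 : 0 < μ := div_pos (by linarith) hab
  have hμ1 : 0 < 1 - μ := by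
    have : μ < 1 := (div_lt_one hab).2 (by linarith)
    linarith
  set c : F := μ • a + (1 - μ) • b with hc
  have hdotc : ∀ y : F, dot y c = μ * dot y a + (1 - μ) * dot y b := by
    intro y
    rw [hc, dot_add_right, dot_smul_right, dot_smul_right]
  have hhc : dot hh c = dot hh x := by
    rw [hdotc, hμ]
    field_simp
    ring
  have hle : ∀ m ∈ N, dot m x = 1 → dot m c ≤ 1 := by
    intro m hm hmx
    rw [hdotc]
    have h1 := h.le a ha m hm
    have h2 := h.le b hb m hm
    nlinarith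
  refine ⟨c - x, ?_, ?_, ?_, ?_⟩
  · intro hz
    have hcx : c = x := sub_eq_zero.1 hz
    -- all tight normals at `x` are tight at `a`
    have hzero : a - x = 0 := by
      apply eq_zero_of_span_top (h.tight_x x hx)
      intro m hm
      have hm' : m ∈ N ∧ dot m x = 1 := by simpa [mem_tightNrm] using hm
      obtain ⟨hmN, hmx⟩ := hm'
      have h1 := h.le a ha m hmN
      have h2 := h.le b hb m hmN
      have h3 : μ * dot m a + (1 - μ) * dot m b = 1 := by
        rw [← hdotc, hcx, hmx]
      have h4 : dot m a = 1 := by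
        by_contra hne
        have h5 : dot m a < 1 := lt_of_le_of_ne h1 hne
        nlinarith
      rw [dot_sub_left, dot_comm a m, dot_comm x m, h4, hmx]
      ring
    have hax : a = x := sub_eq_zero.1 hzero
    rw [hax] at hxa
    exact lt_irrefl _ hxa
  · rw [dot_sub_right, hhc]
    ring
  · rw [dot_sub_right, hdotc, hna, hnb, hnx]
    ring
  · intro m hm hmx
    rw [dot_sub_right, hmx]
    have := hle m hm hmx
    linarith

/-- A vertex has at most two mixed corners. -/
lemma no_three {X N : Finset F} (h : Pair X N) {hh : F} (hh0 : hh ≠ 0)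
    (hgen : ∀ n ∈ N, ∀ m ∈ N, cross n m ≠ 0 → dot hh (cross n m) ≠ 0)
    {x : F} (hx : x ∈ X) {n1 n2 n3 : F} (h1 : n1 ∈ N) (h2 : n2 ∈ N) (h3 : n3 ∈ N)
    (h12 : n1 ≠ n2) (h13 : n1 ≠ n3) (h23 : n2 ≠ n3)
    (m1 : Mix X hh n1 x) (m2 : Mix X hh n2 x) (m3 : Mix X hh n3 x) : False := by
  obtain ⟨d1, hd1, hh1, hn1, hle1⟩ := exists_dir h hx m1
  obtain ⟨d2, hd2, hh2, hn2, hle2⟩ := exists_dir h hx m2
  obtain ⟨d3, hd3, hh3, hn3, hle3⟩ := exists_dir h hx m3
  have strict : ∀ {n m d : F}, n ∈ N → m ∈ N → n ≠ m → dot n x = 1 → dot m x = 1 → d ≠ 0 →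
      dot hh d = 0 → dot m d = 0 → dot n d ≤ 0 → dot n d < 0 := by
    intro n m d hn hm hnm hnx hmx hd hhd hmd hle
    apply lt_of_le_of_ne hle
    intro hz
    apply hd
    have hc : cross n m ≠ 0 := fun hc => hnm (cross_eq_zero_imp hc hnx hmx)
    exact perp_eq_zero hhd hz hmd (hgen n hn m hm hc)
  have x1 := m1.1
  have x2 := m2.1
  have x3 := m3.1
  have c12 := strict h1 h2 h12 x1 x2 hd2 hh2 hn2 (hle2 n1 h1 x1)
  have c13 := strict h1 h3 h13 x1 x3 hd3 hh3 hn3 (hle3 n1 h1 x1)
  have c21 := strict h2 h1 h12.symm x2 x1 hd1 hh1 hn1 (hle1 n2 h2 x2)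
  have c23 := strict h2 h3 h23 x2 x3 hd3 hh3 hn3 (hle3 n2 h2 x2)
  have c31 := strict h3 h1 h13.symm x3 x1 hd1 hh1 hn1 (hle1 n3 h3 x3)
  have c32 := strict h3 h2 h23.symm x3 x2 hd2 hh2 hn2 (hle2 n3 h3 x3)
  have hdet := det_product n1 n2 n3 d1 d2 d3
  rw [det3_eq_zero_of_perp hh0 hh1 hh2 hh3, mul_zero, hn1, hn2, hn3] at hdet
  have t1 : dot n1 d2 * dot n2 d3 * dot n3 d1 < 0 :=
    mul_neg_of_pos_of_neg (mul_pos_of_neg_of_neg c12 c23) c31
  have t2 : dot n1 d3 * dot n2 d1 * dot n3 d2 < 0 :=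
    mul_neg_of_pos_of_neg (mul_pos_of_neg_of_neg c13 c21) c32
  nlinarith

end Inc

open Inc

theorem incidence_bound {X N : Finset F} (h : Pair X N) :
    ∑ n ∈ N, (tightPts X n).card + 4 ≤ 2 * (X.card + N.card) := by
  classical
  -- a facet exists and `X` has many points
  have hNne : N.Nonempty := by
    by_contra hN
    rw [Finset.not_nonempty_iff_eq_empty] at hN
    subst hN
    -- the hull of `X` would be the whole space
    have hall : ∀ u : F, u ∈ convexHull ℝ (X : Set F) := fun u => h.conv_x u (by simp)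
    have hXne : X.Nonempty := by
      by_contra hX
      rw [Finset.not_nonempty_iff_eq_empty] at hX
      subst hX
      have := hall 0
      simp at this
    set y : F := ((0, 0), 1) with hy
    set C := X.sup' hXne (fun x => dot y x) with hC
    have hb : ∀ x ∈ (X : Set F), dot y x ≤ C := fun x hx =>
      Finset.le_sup' (fun x => dot y x) hx
    have h1 := dot_le_of_mem_convexHull hb (hall ((0, 0), C + 1))
    simp [hy, dot, dot2] at h1
    linarith
  obtain ⟨n₀, hn₀⟩ := hNne
  have hTn : ∀ n ∈ N, 3 ≤ (tightPts X n).card := by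
    intro n hn
    have h1 := h.tight_n n hn
    have h2 : Module.finrank ℝ (Submodule.span ℝ ((tightPts X n : Finset F) : Set F))
        ≤ (tightPts X n).card := finrank_span_finset_le_card _
    rw [h1] at h2
    have h3 : Module.finrank ℝ (⊤ : Submodule ℝ F) = 3 := by
      rw [finrank_top]
      simp [F, Module.finrank_prod]
    omega
  have hXcard : 3 ≤ X.card := by
    refine (hTn n₀ hn₀).trans (Finset.card_le_card ?_)
    intro x hx
    exact (mem_tightPts.1 hx).1
  -- the generic height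
  set V : Finset F := ((X.offDiag.image (fun p => p.1 - p.2)) ∪
    (N.offDiag.image (fun p => cross p.1 p.2))).filter (fun v => v ≠ 0) with hV
  obtain ⟨hh, hgenV⟩ := exists_generic V (fun v hv => (Finset.mem_filter.1 hv).2)
  have hinj : ∀ x ∈ X, ∀ y ∈ X, x ≠ y → dot hh x ≠ dot hh y := by
    intro x hx y hy hxy he
    have hmem : x - y ∈ V := by
      rw [hV, Finset.mem_filter]
      refine ⟨Finset.mem_union_left _ (Finset.mem_image.2 ⟨(x, y), ?_, rfl⟩), sub_ne_zero.2 hxy⟩
      exact Finset.mem_offDiag.2 ⟨hx, hy, hxy⟩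
    apply hgenV _ hmem
    rw [dot_sub_right, he, sub_self]
  have hgen : ∀ n ∈ N, ∀ m ∈ N, cross n m ≠ 0 → dot hh (cross n m) ≠ 0 := by
    intro n hn m hm hc
    have hnm : n ≠ m := by
      rintro rfl
      apply hc
      ext <;> simp [cross] <;> ring
    apply hgenV
    rw [hV, Finset.mem_filter]
    refine ⟨Finset.mem_union_right _ (Finset.mem_image.2 ⟨(n, m), ?_, rfl⟩), hc⟩
    exact Finset.mem_offDiag.2 ⟨hn, hm, hnm⟩
  have hXne : X.Nonempty := by
    rw [← Finset.card_pos]
    omega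
  have hh0 : hh ≠ 0 := by
    rintro rfl
    obtain ⟨a, ha, b, hb, hab⟩ := Finset.one_lt_card.1 (by omega : 1 < X.card)
    apply hinj a ha b hb hab
    simp
  -- each facet has few non-mixed corners
  have hfacet : ∀ n ∈ N, (tightPts X n).card ≤ (X.filter (fun x => Mix X hh n x)).card + 2 := by
    intro n hn
    have hTne : (tightPts X n).Nonempty := by
      rw [← Finset.card_pos]
      have := hTn n hn
      omega
    obtain ⟨top, htop, htopm⟩ := Finset.exists_max_image _ (fun x => dot hh x) hTne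
    obtain ⟨bot, hbot, hbotm⟩ := Finset.exists_min_image _ (fun x => dot hh x) hTne
    have hsub : tightPts X n ⊆ ({top, bot} : Finset F) ∪ X.filter (fun x => Mix X hh n x) := by
      intro x hx
      obtain ⟨hxX, hnx⟩ := mem_tightPts.1 hx
      by_cases h1 : x = top
      · rw [h1]; simp
      by_cases h2 : x = bot
      · rw [h2]; simp
      apply Finset.mem_union_right
      rw [Finset.mem_filter]
      obtain ⟨htX, hnt⟩ := mem_tightPts.1 htop
      obtain ⟨hbX, hnb⟩ := mem_tightPts.1 hbot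
      refine ⟨hxX, hnx, ⟨top, htX, hnt, ?_⟩, ⟨bot, hbX, hnb, ?_⟩⟩
      · exact lt_of_le_of_ne (htopm x hx) (hinj x hxX top htX h1)
      · exact lt_of_le_of_ne (hbotm x hx) (Ne.symm (hinj x hxX bot hbX h2))
    calc (tightPts X n).card ≤ (({top, bot} : Finset F) ∪ X.filter (fun x => Mix X hh n x)).card :=
          Finset.card_le_card hsub
      _ ≤ ({top, bot} : Finset F).card + (X.filter (fun x => Mix X hh n x)).card :=
          Finset.card_union_le _ _
      _ ≤ 2 + (X.filter (fun x => Mix X hh n x)).card := by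
          gcongr
          exact Finset.card_le_two
      _ = _ := add_comm _ _
  -- each vertex has at most two mixed corners
  have hvertex : ∀ x ∈ X, (N.filter (fun n => Mix X hh n x)).card ≤ 2 := by
    intro x hx
    by_contra hlt
    push Not at hlt
    obtain ⟨n1, h1, n2, h2, n3, h3, h12, h13, h23⟩ := Finset.two_lt_card.1 hlt
    obtain ⟨hn1, m1⟩ := Finset.mem_filter.1 h1
    obtain ⟨hn2, m2⟩ := Finset.mem_filter.1 h2
    obtain ⟨hn3, m3⟩ := Finset.mem_filter.1 h3
    exact no_three h hh0 hgen hx hn1 hn2 hn3 h12 h13 h23 m1 m2 m3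
  -- the highest and the lowest vertex
  obtain ⟨xtop, hxtop, htopm⟩ := Finset.exists_max_image X (fun x => dot hh x) hXne
  obtain ⟨xbot, hxbot, hbotm⟩ := Finset.exists_min_image X (fun x => dot hh x) hXne
  have hne : xtop ≠ xbot := by
    intro he
    obtain ⟨a, ha, b, hb, hab⟩ := Finset.one_lt_card.1 (by omega : 1 < X.card)
    apply hinj a ha b hb hab
    have h1 := htopm a ha
    have h2 := hbotm a ha
    have h3 := htopm b hb
    have h4 := hbotm b hb
    rw [he] at h1 h3
    linarith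
  set f : F → ℕ := fun x => (N.filter (fun n => Mix X hh n x)).card with hf
  have hzero : ∀ x ∈ X, x ∉ X \ ({xtop, xbot} : Finset F) → f x = 0 := by
    intro x hx hxn
    have hxx : x = xtop ∨ x = xbot := by
      by_contra hcon
      push Not at hcon
      apply hxn
      rw [Finset.mem_sdiff]
      refine ⟨hx, ?_⟩
      simp [hcon.1, hcon.2]
    rw [hf]
    simp only [Finset.card_eq_zero, Finset.filter_eq_empty_iff]
    rintro n _ ⟨_, ⟨a, ha, _, ha'⟩, ⟨b, hb, _, hb'⟩⟩
    rcases hxx with rfl | rfl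
    · have := htopm a ha
      linarith
    · have := hbotm b hb
      linarith
  have hsum : ∑ x ∈ X, f x + 4 ≤ 2 * X.card := by
    have h1 : ∑ x ∈ X \ ({xtop, xbot} : Finset F), f x = ∑ x ∈ X, f x :=
      Finset.sum_subset Finset.sdiff_subset hzero
    rw [← h1]
    have h2 : ∑ x ∈ X \ ({xtop, xbot} : Finset F), f x
        ≤ (X \ ({xtop, xbot} : Finset F)).card • 2 :=
      Finset.sum_le_card_nsmul _ _ _ (fun x hx => hvertex x (Finset.mem_sdiff.1 hx).1)
    have hsubs : ({xtop, xbot} : Finset F) ⊆ X := by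
      intro y hy
      simp only [Finset.mem_insert, Finset.mem_singleton] at hy
      rcases hy with rfl | rfl
      · exact hxtop
      · exact hxbot
    have h3 : (X \ ({xtop, xbot} : Finset F)).card + ({xtop, xbot} : Finset F).card = X.card :=
      Finset.card_sdiff_add_card_eq_card hsubs
    rw [Finset.card_pair hne] at h3
    simp only [smul_eq_mul] at h2
    omega
  -- double counting
  have hdouble : ∑ n ∈ N, (X.filter (fun x => Mix X hh n x)).card = ∑ x ∈ X, f x :=
    Finset.sum_card_bipartiteAbove_eq_sum_card_bipartiteBelow (fun n x => Mix X hh n x)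
  have hfinal : ∑ n ∈ N, (tightPts X n).card
      ≤ ∑ n ∈ N, ((X.filter (fun x => Mix X hh n x)).card + 2) :=
    Finset.sum_le_sum hfacet
  rw [Finset.sum_add_distrib, hdouble, Finset.sum_const, smul_eq_mul] at hfinal
  omega

namespace Inc

/-- A generic height function for a polar pair. -/
lemma exists_height {X N : Finset F} (h : Pair X N) (h1 : 1 < X.card) :
    ∃ hh : F, hh ≠ 0 ∧ (∀ x ∈ X, ∀ y ∈ X, x ≠ y → dot hh x ≠ dot hh y) ∧
      (∀ n ∈ N, ∀ m ∈ N, cross n m ≠ 0 → dot hh (cross n m) ≠ 0) := by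
  classical
  set V : Finset F := ((X.offDiag.image (fun p => p.1 - p.2)) ∪
    (N.offDiag.image (fun p => cross p.1 p.2))).filter (fun v => v ≠ 0) with hV
  obtain ⟨hh, hgenV⟩ := exists_generic V (fun v hv => (Finset.mem_filter.1 hv).2)
  have hinj : ∀ x ∈ X, ∀ y ∈ X, x ≠ y → dot hh x ≠ dot hh y := by
    intro x hx y hy hxy he
    have hmem : x - y ∈ V := by
      rw [hV, Finset.mem_filter]
      refine ⟨Finset.mem_union_left _ (Finset.mem_image.2 ⟨(x, y), ?_, rfl⟩), sub_ne_zero.2 hxy⟩
      exact Finset.mem_offDiag.2 ⟨hx, hy, hxy⟩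
    apply hgenV _ hmem
    rw [dot_sub_right, he, sub_self]
  refine ⟨hh, ?_, hinj, ?_⟩
  · rintro rfl
    obtain ⟨a, ha, b, hb, hab⟩ := Finset.one_lt_card.1 h1
    apply hinj a ha b hb hab
    simp
  · intro n hn m hm hc
    have hnm : n ≠ m := by
      rintro rfl
      apply hc
      ext <;> simp [cross] <;> ring
    apply hgenV
    rw [hV, Finset.mem_filter]
    refine ⟨Finset.mem_union_right _ (Finset.mem_image.2 ⟨(n, m), ?_, rfl⟩), hc⟩
    exact Finset.mem_offDiag.2 ⟨hn, hm, hnm⟩

/-- A supporting direction inside a facet produces a mixed corner. -/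
lemma mix_of_dir {X N : Finset F} (h : Pair X N) {hh n x d : F}
    (hinj : ∀ x ∈ X, ∀ y ∈ X, x ≠ y → dot hh x ≠ dot hh y) (hn : n ∈ N) (hx : x ∈ X)
    (hnx : dot n x = 1) (hd : d ≠ 0) (hhd : dot hh d = 0) (hnd : dot n d = 0)
    (hle : ∀ m ∈ N, dot m x = 1 → dot m d ≤ 0) : Mix X hh n x := by
  classical
  -- a small push stays in the polytope
  have hev : ∀ᶠ ε in nhdsWithin (0 : ℝ) (Ioi 0), ∀ m ∈ N, dot m (x + ε • d) ≤ 1 := by
    rw [Filter.eventually_all_finset]
    intro m hm
    have hval : ∀ ε : ℝ, dot m (x + ε • d) = dot m x + ε * dot m d := by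
      intro ε
      rw [dot_add_right, dot_smul_right]
    by_cases hmx : dot m x = 1
    · filter_upwards [self_mem_nhdsWithin] with ε hε
      rw [hval, hmx]
      have h1 := hle m hm hmx
      have h2 : (0 : ℝ) < ε := hε
      nlinarith
    · have hlt : dot m x < 1 := lt_of_le_of_ne (h.le x hx m hm) hmx
      have hcont : ContinuousAt (fun ε : ℝ => dot m x + ε * dot m d) 0 := by fun_prop
      have hev2 : ∀ᶠ ε in nhds (0 : ℝ), dot m x + ε * dot m d < 1 := by
        apply hcont.eventually_lt continuousAt_const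
        simpa using hlt
      filter_upwards [nhdsWithin_le_nhds hev2] with ε hε
      rw [hval]
      exact hε.le
  obtain ⟨ε, hε1, hε2⟩ := (hev.and self_mem_nhdsWithin).exists
  have hε0 : (0 : ℝ) < ε := hε2
  set p := x + ε • d with hp
  have hpX : p ∈ convexHull ℝ (X : Set F) := h.conv_x p hε1
  have hnp : dot n p = 1 := by
    rw [hp, dot_add_right, dot_smul_right, hnd, hnx]
    ring
  have hpT : p ∈ convexHull ℝ ((tightPts X n : Finset F) : Set F) :=
    mem_convexHull_tight (fun y hy => h.le y hy n hn) hpX hnp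
  obtain ⟨w, hw0, hw1, hwp⟩ := Finset.mem_convexHull'.1 hpT
  have hHp : dot hh p = dot hh x := by
    rw [hp, dot_add_right, dot_smul_right, hhd]
    ring
  have hHsum : ∑ y ∈ tightPts X n, w y * dot hh y = dot hh x := by
    rw [← hHp, ← hwp, dot_sum_right]
    exact Finset.sum_congr rfl (fun y _ => by rw [dot_smul_right])
  have hpne : p ≠ x := by
    intro he
    have h1 : ε • d = 0 := by
      have : x + ε • d = x + 0 := by rw [add_zero]; exact he
      exact add_left_cancel this
    rcases smul_eq_zero.1 h1 with h2 | h2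
    · exact hε0.ne' h2
    · exact hd h2
  -- the weights cannot all sit at `x`
  have hnotall : ¬ ∀ y ∈ tightPts X n, w y ≠ 0 → dot hh y = dot hh x := by
    intro hall
    apply hpne
    have hy : ∀ y ∈ tightPts X n, w y • y = w y • x := by
      intro y hy
      by_cases hwy : w y = 0
      · simp [hwy]
      · have h3 := hall y hy hwy
        have h4 : y = x := by
          by_contra hne
          exact hinj y (mem_tightPts.1 hy).1 x hx hne h3
        rw [h4]
    rw [← hwp, Finset.sum_congr rfl hy, ← Finset.sum_smul, hw1, one_smul]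
  have hab : (∃ a ∈ tightPts X n, dot hh x < dot hh a) ∧ (∃ b ∈ tightPts X n, dot hh b < dot hh x) := by
    have hcomb : ∑ y ∈ tightPts X n, w y * (dot hh y - dot hh x) = 0 := by
      simp only [mul_sub]
      rw [Finset.sum_sub_distrib, hHsum, ← Finset.sum_mul, hw1]
      ring
    constructor
    · by_contra hcon
      push Not at hcon
      have hall : ∀ y ∈ tightPts X n, w y * (dot hh y - dot hh x) ≤ 0 := fun y hy =>
        mul_nonpos_of_nonneg_of_nonpos (hw0 y hy) (by linarith [hcon y hy])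
      have hzero := (Finset.sum_eq_zero_iff_of_nonpos hall).1 hcomb
      apply hnotall
      intro y hy hwy
      have h5 := (mul_eq_zero.1 (hzero y hy)).resolve_left hwy
      linarith
    · by_contra hcon
      push Not at hcon
      have hall : ∀ y ∈ tightPts X n, 0 ≤ w y * (dot hh y - dot hh x) := fun y hy =>
        mul_nonneg (hw0 y hy) (by linarith [hcon y hy])
      have hzero := (Finset.sum_eq_zero_iff_of_nonneg hall).1 hcomb
      apply hnotall
      intro y hy hwy
      have h5 := (mul_eq_zero.1 (hzero y hy)).resolve_left hwy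
      linarith
  obtain ⟨⟨a, ha, hxa⟩, ⟨b, hb, hbx⟩⟩ := hab
  obtain ⟨ha1, ha2⟩ := mem_tightPts.1 ha
  obtain ⟨hb1, hb2⟩ := mem_tightPts.1 hb
  exact ⟨hnx, ⟨a, ha1, ha2, hxa⟩, ⟨b, hb1, hb2, hbx⟩⟩

/-- A vertex that is neither highest nor lowest has two mixed corners. -/
lemma two_mixed {X N : Finset F} (h : Pair X N) {hh : F} (hh0 : hh ≠ 0)
    (hinj : ∀ x ∈ X, ∀ y ∈ X, x ≠ y → dot hh x ≠ dot hh y) {x a b : F}
    (hx : x ∈ X) (ha : a ∈ X) (hb : b ∈ X) (hxa : dot hh x < dot hh a) (hbx : dot hh b < dot hh x) :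
    ∃ n₁ ∈ N, ∃ n₂ ∈ N, n₁ ≠ n₂ ∧ Mix X hh n₁ x ∧ Mix X hh n₂ x := by
  classical
  -- a strictly inward direction of height zero
  obtain ⟨τ, y, hτ, hy, hzero⟩ : ∃ (τ : ℝ) (y : F), 0 ≤ τ ∧ y ∈ X ∧
      dot hh (-x + τ • (y - x)) = 0 := by
    rcases lt_trichotomy (dot hh x) 0 with hneg | hz | hpos
    · refine ⟨dot hh x / (dot hh b - dot hh x), b, ?_, hb, ?_⟩
      · exact le_of_lt (div_pos_of_neg_of_neg hneg (by linarith))
      · rw [dot_add_right, dot_neg_right, dot_smul_right, dot_sub_right]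
        have : dot hh b - dot hh x ≠ 0 := by linarith
        field_simp
        ring
    · refine ⟨0, x, le_refl _, hx, ?_⟩
      simp [dot_neg_right, hz]
    · refine ⟨dot hh x / (dot hh a - dot hh x), a, ?_, ha, ?_⟩
      · exact le_of_lt (div_pos hpos (by linarith))
      · rw [dot_add_right, dot_neg_right, dot_smul_right, dot_sub_right]
        have : dot hh a - dot hh x ≠ 0 := by linarith
        field_simp
        ring
  set d₀ : F := -x + τ • (y - x) with hd₀
  have hneg : ∀ m ∈ N, dot m x = 1 → dot m d₀ < 0 := by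
    intro m hm hmx
    rw [hd₀, dot_add_right, dot_neg_right, dot_smul_right, dot_sub_right, hmx]
    have h1 := h.le y hy m hm
    nlinarith
  -- the tight normals at `x`
  have hNx : (tightNrm N x).Nonempty := by
    by_contra hemp
    rw [Finset.not_nonempty_iff_eq_empty] at hemp
    have hs := h.tight_x x hx
    rw [hemp] at hs
    simp only [Finset.coe_empty, Submodule.span_empty] at hs
    have h01 : (((0, 0), 1) : F) ∈ (⊥ : Submodule ℝ F) := by
      rw [hs]
      trivial
    have h02 := (Submodule.mem_bot ℝ).1 h01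
    have h03 : (((0, 0), 1) : F).2 = (0 : F).2 := congrArg Prod.snd h02
    simp at h03
  obtain ⟨n0, hn0⟩ := hNx
  have hmemN : ∀ {m}, m ∈ tightNrm N x → m ∈ N ∧ dot m x = 1 := fun hm => mem_tightNrm.1 hm
  have hd₀ne : d₀ ≠ 0 := by
    intro hz
    have h1 := hneg n0 (hmemN hn0).1 (hmemN hn0).2
    rw [hz] at h1
    simp at h1
  -- a second direction
  set f : F := cross hh d₀ with hf
  have hhf : dot hh f = 0 := by
    simp only [hf, dot, dot2, cross]
    ring
  have hd₀f : dot f d₀ = 0 := by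
    simp only [hf, dot, dot2, cross]
    ring
  have hff : dot f f = dot hh hh * dot d₀ d₀ - (dot hh d₀) ^ 2 := by
    simp only [hf, dot, dot2, cross]
    ring
  have hpos_self : ∀ v : F, v ≠ 0 → 0 < dot v v := by
    intro v hv
    have hnn : 0 ≤ dot v v := by
      simp only [dot, dot2]
      nlinarith [mul_self_nonneg v.1.1, mul_self_nonneg v.1.2, mul_self_nonneg v.2]
    refine lt_of_le_of_ne hnn (fun hz => hv ?_)
    apply eq_zero_of_dot_all
    intro u
    simp only [dot, dot2] at hz ⊢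
    have h1 : v.1.1 = 0 := by nlinarith [sq_nonneg v.1.1, sq_nonneg v.1.2, sq_nonneg v.2]
    have h2 : v.1.2 = 0 := by nlinarith [sq_nonneg v.1.1, sq_nonneg v.1.2, sq_nonneg v.2]
    have h3 : v.2 = 0 := by nlinarith [sq_nonneg v.1.1, sq_nonneg v.1.2, sq_nonneg v.2]
    rw [h1, h2, h3]
    ring
  have hffpos : 0 < dot f f := by
    rw [hff, hzero]
    have := mul_pos (hpos_self hh hh0) (hpos_self d₀ hd₀ne)
    nlinarith
  have hnotmul : ∀ ρ : ℝ, f ≠ ρ • d₀ := by
    intro ρ he
    have h1 : dot f f = ρ * dot f d₀ := by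
      calc dot f f = dot f (ρ • d₀) := by rw [← he]
        _ = ρ * dot f d₀ := dot_smul_right _ _ _
    rw [hd₀f] at h1
    linarith
  -- the two extreme ratios
  set ρ : F → ℝ := fun m => dot m f / dot m d₀ with hρ
  have hkey : ∀ m ∈ tightNrm N x, dot m f = ρ m * dot m d₀ := by
    intro m hm
    have h1 := hneg m (hmemN hm).1 (hmemN hm).2
    simp only [hρ]
    rw [div_mul_cancel₀ _ h1.ne]
  obtain ⟨n₁, hn₁, hmax⟩ := Finset.exists_max_image (tightNrm N x) ρ ⟨n0, hn0⟩
  obtain ⟨n₂, hn₂, hmin⟩ := Finset.exists_min_image (tightNrm N x) ρ ⟨n0, hn0⟩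
  have hne : n₁ ≠ n₂ := by
    rintro rfl
    apply hnotmul (ρ n₁)
    have hz : f - ρ n₁ • d₀ = 0 := by
      apply eq_zero_of_span_top (h.tight_x x hx)
      intro m hm
      have hm' : m ∈ tightNrm N x := hm
      have h1 : ρ m = ρ n₁ := le_antisymm (hmax m hm') (hmin m hm')
      rw [dot_sub_left, dot_smul_left, dot_comm f m, dot_comm d₀ m, hkey m hm', h1]
      ring
    exact sub_eq_zero.1 hz
  have hvnormal : ∀ {m : F} {r : ℝ}, m ∈ tightNrm N x → dot m (r • d₀ - f) = (r - ρ m) * dot m d₀ := by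
    intro m r hm
    rw [dot_sub_right, dot_smul_right, hkey m hm]
    ring
  have m1 : Mix X hh n₁ x := by
    apply mix_of_dir h hinj (hmemN hn₁).1 hx (hmemN hn₁).2 (d := ρ n₁ • d₀ - f)
    · exact sub_ne_zero.2 (Ne.symm (hnotmul _))
    · rw [dot_sub_right, dot_smul_right, hzero, hhf]
      ring
    · rw [hvnormal hn₁]
      ring
    · intro m hm hmx
      have hm' : m ∈ tightNrm N x := mem_tightNrm.2 ⟨hm, hmx⟩
      rw [hvnormal hm']
      exact mul_nonpos_of_nonneg_of_nonpos (by linarith [hmax m hm']) (hneg m hm hmx).le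
  have m2 : Mix X hh n₂ x := by
    apply mix_of_dir h hinj (hmemN hn₂).1 hx (hmemN hn₂).2 (d := f - ρ n₂ • d₀)
    · exact sub_ne_zero.2 (hnotmul _)
    · rw [dot_sub_right, dot_smul_right, hzero, hhf]
      ring
    · rw [dot_sub_right, dot_smul_right, hkey n₂ hn₂]
      ring
    · intro m hm hmx
      have hm' : m ∈ tightNrm N x := mem_tightNrm.2 ⟨hm, hmx⟩
      rw [dot_sub_right, dot_smul_right, hkey m hm']
      have h1 : ρ m * dot m d₀ - ρ n₂ * dot m d₀ = (ρ m - ρ n₂) * dot m d₀ := by ring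
      rw [h1]
      exact mul_nonpos_of_nonneg_of_nonpos (by linarith [hmin m hm']) (hneg m hm hmx).le
  exact ⟨n₁, (hmemN hn₁).1, n₂, (hmemN hn₂).1, hne, m1, m2⟩

lemma three_le {X N : Finset F} (h : Pair X N) {n : F} (hn : n ∈ N) : 3 ≤ (tightPts X n).card := by
  have h1 := h.tight_n n hn
  have h2 : Module.finrank ℝ (Submodule.span ℝ ((tightPts X n : Finset F) : Set F))
      ≤ (tightPts X n).card := finrank_span_finset_le_card _
  rw [h1] at h2
  have h3 : Module.finrank ℝ (⊤ : Submodule ℝ F) = 3 := by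
    rw [finrank_top]
    simp [F, Module.finrank_prod]
  omega

lemma nonempty_N {X N : Finset F} (h : Pair X N) : N.Nonempty := by
  classical
  by_contra hN
  rw [Finset.not_nonempty_iff_eq_empty] at hN
  subst hN
  have hall : ∀ u : F, u ∈ convexHull ℝ (X : Set F) := fun u => h.conv_x u (by simp)
  have hXne : X.Nonempty := by
    by_contra hX
    rw [Finset.not_nonempty_iff_eq_empty] at hX
    subst hX
    have := hall 0
    simp at this
  set y : F := ((0, 0), 1) with hy
  set C := X.sup' hXne (fun x => dot y x) with hC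
  have hb : ∀ x ∈ (X : Set F), dot y x ≤ C := fun x hx =>
    Finset.le_sup' (fun x => dot y x) hx
  have h1 := dot_le_of_mem_convexHull hb (hall ((0, 0), C + 1))
  simp [hy, dot, dot2] at h1
  linarith

end Inc

/-- The reverse inequality: Euler's relation for polar pairs. -/
theorem incidence_lower {X N : Finset F} (h : Pair X N) :
    2 * (X.card + N.card) ≤ ∑ n ∈ N, (tightPts X n).card + 4 := by
  classical
  obtain ⟨n₀, hn₀⟩ := nonempty_N h
  have hXcard : 3 ≤ X.card := by
    refine (three_le h hn₀).trans (Finset.card_le_card ?_)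
    intro x hx
    exact (mem_tightPts.1 hx).1
  obtain ⟨hh, hh0, hinj, -⟩ := exists_height h (by omega)
  have hXne : X.Nonempty := by
    rw [← Finset.card_pos]
    omega
  -- each facet has exactly two corners that are not mixed
  have hfacet : ∀ n ∈ N, (X.filter (fun x => Mix X hh n x)).card + 2 ≤ (tightPts X n).card := by
    intro n hn
    have hT3 := three_le h hn
    have hTne : (tightPts X n).Nonempty := by
      rw [← Finset.card_pos]
      omega
    obtain ⟨top, htop, htopm⟩ := Finset.exists_max_image _ (fun x => dot hh x) hTne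
    obtain ⟨bot, hbot, hbotm⟩ := Finset.exists_min_image _ (fun x => dot hh x) hTne
    have hne : top ≠ bot := by
      intro he
      obtain ⟨a, ha, b, hb, hab⟩ := Finset.one_lt_card.1 (by omega : 1 < (tightPts X n).card)
      apply hinj a (mem_tightPts.1 ha).1 b (mem_tightPts.1 hb).1 hab
      have h1 := htopm a ha
      have h2 := hbotm a ha
      have h3 := htopm b hb
      have h4 := hbotm b hb
      rw [he] at h1 h3
      linarith
    have hsub : X.filter (fun x => Mix X hh n x) ⊆ tightPts X n \ ({top, bot} : Finset F) := by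
      intro x hx
      obtain ⟨hxX, hnx, ⟨a, haX, hna, hxa⟩, ⟨b, hbX, hnb, hbx⟩⟩ := Finset.mem_filter.1 hx
      rw [Finset.mem_sdiff]
      refine ⟨mem_tightPts.2 ⟨hxX, hnx⟩, ?_⟩
      simp only [Finset.mem_insert, Finset.mem_singleton, not_or]
      constructor
      · rintro rfl
        have := htopm a (mem_tightPts.2 ⟨haX, hna⟩)
        linarith
      · rintro rfl
        have := hbotm b (mem_tightPts.2 ⟨hbX, hnb⟩)
        linarith
    have hsubs : ({top, bot} : Finset F) ⊆ tightPts X n := by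
      intro y hy
      simp only [Finset.mem_insert, Finset.mem_singleton] at hy
      rcases hy with rfl | rfl
      · exact htop
      · exact hbot
    have h3 := Finset.card_sdiff_add_card_eq_card hsubs
    rw [Finset.card_pair hne] at h3
    have h4 := Finset.card_le_card hsub
    omega
  -- the extreme vertices
  obtain ⟨xtop, hxtop, htopm⟩ := Finset.exists_max_image X (fun x => dot hh x) hXne
  obtain ⟨xbot, hxbot, hbotm⟩ := Finset.exists_min_image X (fun x => dot hh x) hXne
  have hne : xtop ≠ xbot := by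
    intro he
    obtain ⟨a, ha, b, hb, hab⟩ := Finset.one_lt_card.1 (by omega : 1 < X.card)
    apply hinj a ha b hb hab
    have h1 := htopm a ha
    have h2 := hbotm a ha
    have h3 := htopm b hb
    have h4 := hbotm b hb
    rw [he] at h1 h3
    linarith
  set f : F → ℕ := fun x => (N.filter (fun n => Mix X hh n x)).card with hf
  have hvertex : ∀ x ∈ X \ ({xtop, xbot} : Finset F), 2 ≤ f x := by
    intro x hx
    obtain ⟨hxX, hxn⟩ := Finset.mem_sdiff.1 hx
    simp only [Finset.mem_insert, Finset.mem_singleton, not_or] at hxn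
    have hxa : dot hh x < dot hh xtop :=
      lt_of_le_of_ne (htopm x hxX) (hinj x hxX xtop hxtop hxn.1)
    have hbx : dot hh xbot < dot hh x :=
      lt_of_le_of_ne (hbotm x hxX) (hinj xbot hxbot x hxX (Ne.symm hxn.2))
    obtain ⟨n₁, h1, n₂, h2, h12, m1, m2⟩ := two_mixed h hh0 hinj hxX hxtop hxbot hxa hbx
    exact Finset.one_lt_card.2 ⟨n₁, Finset.mem_filter.2 ⟨h1, m1⟩, n₂, Finset.mem_filter.2 ⟨h2, m2⟩, h12⟩
  have hsum : 2 * X.card ≤ ∑ x ∈ X, f x + 4 := by
    have h2 : (X \ ({xtop, xbot} : Finset F)).card • 2 ≤ ∑ x ∈ X \ ({xtop, xbot} : Finset F), f x :=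
      Finset.card_nsmul_le_sum _ _ _ hvertex
    have h1 : ∑ x ∈ X \ ({xtop, xbot} : Finset F), f x ≤ ∑ x ∈ X, f x :=
      Finset.sum_le_sum_of_subset Finset.sdiff_subset
    have hsubs : ({xtop, xbot} : Finset F) ⊆ X := by
      intro y hy
      simp only [Finset.mem_insert, Finset.mem_singleton] at hy
      rcases hy with rfl | rfl
      · exact hxtop
      · exact hxbot
    have h3 := Finset.card_sdiff_add_card_eq_card hsubs
    rw [Finset.card_pair hne] at h3
    simp only [smul_eq_mul] at h2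
    omega
  have hdouble : ∑ n ∈ N, (X.filter (fun x => Mix X hh n x)).card = ∑ x ∈ X, f x :=
    Finset.sum_card_bipartiteAbove_eq_sum_card_bipartiteBelow (fun n x => Mix X hh n x)
  have hfinal : ∑ n ∈ N, ((X.filter (fun x => Mix X hh n x)).card + 2)
      ≤ ∑ n ∈ N, (tightPts X n).card :=
    Finset.sum_le_sum hfacet
  rw [Finset.sum_add_distrib, hdouble, Finset.sum_const, smul_eq_mul] at hfinal
  omega

/-- Euler's relation for polar pairs. -/
theorem incidence_eq {X N : Finset F} (h : Pair X N) :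
    ∑ n ∈ N, (tightPts X n).card + 4 = 2 * (X.card + N.card) :=
  le_antisymm (incidence_bound h) (incidence_lower h)

end Vale.Agent.Lib.P248
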