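import Vale.Agent.Lib.P248.PairTheory

open MeasureTheory Set

namespace Vale.Agent.Lib.P248

/-- The standard simplex in three-space. -/
def Delta : Set F := {t | 0 ≤ t.1.1 ∧ 0 ≤ t.1.2 ∧ 0 ≤ t.2 ∧ t.1.1 + t.1.2 + t.2 ≤ 1}

lemma measurableSet_Delta : MeasurableSet Delta := by
  have : Delta = {t : F | 0 ≤ t.1.1} ∩ ({t : F | 0 ≤ t.1.2} ∩ ({t : F | 0 ≤ t.2} ∩
      {t : F | t.1.1 + t.1.2 + t.2 ≤ 1})) := by
    ext t
    simp [Delta]
  rw [this]
  refine (measurableSet_le measurable_const (by fun_prop)).inter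
    ((measurableSet_le measurable_const (by fun_prop)).inter
    ((measurableSet_le measurable_const (by fun_prop)).inter
    (measurableSet_le (by fun_prop) measurable_const)))

lemma lint_linear {c : ℝ} (hc : 0 ≤ c) :
    ∫⁻ s in Icc 0 c, ENNReal.ofReal (c - s) = ENNReal.ofReal (c ^ 2 / 2) := by
  have hint : IntegrableOn (fun s : ℝ => c - s) (Ioc 0 c) := by
    have : IntervalIntegrable (fun s : ℝ => c - s) volume 0 c := by
      apply Continuous.intervalIntegrable
      fun_prop
    exact (intervalIntegrable_iff_integrableOn_Ioc_of_le hc).1 this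
  have hnn : 0 ≤ᵐ[volume.restrict (Ioc 0 c)] (fun s : ℝ => c - s) := by
    filter_upwards [ae_restrict_mem measurableSet_Ioc] with s hs
    simpa using hs.2
  rw [setLIntegral_congr Ioc_ae_eq_Icc.symm, ← ofReal_integral_eq_lintegral_ofReal hint hnn,
    ← intervalIntegral.integral_of_le hc]
  congr 1
  have : ∀ s ∈ uIcc (0 : ℝ) c, HasDerivAt (fun s : ℝ => c * s - s ^ 2 / 2) (c - s) s := by
    intro s _
    have h1 := (hasDerivAt_id' s).const_mul c
    have h2 := ((hasDerivAt_id' s).fun_pow 2).div_const 2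
    refine (h1.fun_sub h2).congr_deriv ?_
    simp
  rw [intervalIntegral.integral_eq_sub_of_hasDerivAt this (by
    apply Continuous.intervalIntegrable
    fun_prop)]
  ring

lemma lint_quad :
    ∫⁻ s in Icc (0 : ℝ) 1, ENNReal.ofReal ((1 - s) ^ 2 / 2) = ENNReal.ofReal (1 / 6) := by
  have hint : IntegrableOn (fun s : ℝ => (1 - s) ^ 2 / 2) (Ioc 0 1) := by
    have : IntervalIntegrable (fun s : ℝ => (1 - s) ^ 2 / 2) volume 0 1 := by
      apply Continuous.intervalIntegrable
      fun_prop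
    exact (intervalIntegrable_iff_integrableOn_Ioc_of_le zero_le_one).1 this
  have hnn : 0 ≤ᵐ[volume.restrict (Ioc 0 1)] (fun s : ℝ => (1 - s) ^ 2 / 2) :=
    Filter.Eventually.of_forall fun s => by positivity
  rw [setLIntegral_congr Ioc_ae_eq_Icc.symm, ← ofReal_integral_eq_lintegral_ofReal hint hnn,
    ← intervalIntegral.integral_of_le zero_le_one]
  congr 1
  have : ∀ s ∈ uIcc (0 : ℝ) 1, HasDerivAt (fun s : ℝ => -(1 - s) ^ 3 / 6) ((1 - s) ^ 2 / 2) s := by
    intro s _
    have := ((hasDerivAt_id' s).const_sub (1 : ℝ)).fun_pow 3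
    have h2 := (this.fun_neg).div_const 6
    refine h2.congr_deriv ?_
    simp
    ring
  rw [intervalIntegral.integral_eq_sub_of_hasDerivAt this (by
    apply Continuous.intervalIntegrable
    fun_prop)]
  norm_num

lemma volume_Delta : volume Delta = ENNReal.ofReal (1 / 6) := by
  have m := measurableSet_Delta
  rw [Measure.volume_eq_prod, Measure.prod_apply m]
  have h1 : Measurable fun q : ℝ × ℝ => volume (Prod.mk q ⁻¹' Delta) :=
    measurable_measure_prodMk_left m
  rw [Measure.volume_eq_prod, lintegral_prod _ h1.aemeasurable, ← lint_quad,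
    ← lintegral_indicator measurableSet_Icc]
  apply lintegral_congr
  intro a
  have hs : ∀ b : ℝ, Prod.mk (a, b) ⁻¹' Delta =
      if 0 ≤ a ∧ 0 ≤ b then Icc 0 (1 - a - b) else ∅ := by
    intro b
    split_ifs with h
    · ext z
      simp only [mem_preimage, Delta, mem_ofPred_eq, mem_Icc]
      constructor
      · rintro ⟨_, _, h3, h4⟩
        exact ⟨h3, by linarith⟩
      · rintro ⟨h3, h4⟩
        exact ⟨h.1, h.2, h3, by linarith⟩
    · ext z
      simp only [mem_preimage, Delta, mem_ofPred_eq, mem_empty_iff_false, iff_false]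
      rintro ⟨h1, h2, _, _⟩
      exact h ⟨h1, h2⟩
  by_cases ha : a ∈ Icc (0 : ℝ) 1
  · rw [indicator_of_mem ha, ← lint_linear (by linarith [ha.2]),
      ← lintegral_indicator measurableSet_Icc]
    apply lintegral_congr
    intro b
    rw [hs b]
    by_cases hb : 0 ≤ b
    · simp only [ha.1, hb, and_self, if_true, Real.volume_Icc]
      by_cases hb2 : b ≤ 1 - a
      · rw [indicator_of_mem (show b ∈ Icc 0 (1 - a) from ⟨hb, hb2⟩)]
        congr 1
        ring
      · rw [indicator_of_notMem (by intro h; exact hb2 h.2)]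
        rw [ENNReal.ofReal_eq_zero]
        linarith
    · simp [hb, ha.1, indicator, mem_Icc]
  · rw [indicator_of_notMem ha]
    refine (lintegral_eq_zero_iff (h1.comp (by fun_prop))).2 (Filter.Eventually.of_forall ?_)
    intro b
    simp only [Function.comp, Pi.zero_apply]
    rw [hs b]
    by_cases hb : 0 ≤ a ∧ 0 ≤ b
    · have ha1 : 1 < a := by
        by_contra h
        exact ha ⟨hb.1, by linarith⟩
      simp only [hb, and_self, if_true, Real.volume_Icc]
      have := hb.2
      simpa using (by linarith : 1 - a - b - 0 ≤ 0)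
    · simp [hb]

/-- The linear map with given columns. -/
noncomputable def colMap (v1 v2 v3 : F) : F →ₗ[ℝ] F where
  toFun t := t.1.1 • v1 + t.1.2 • v2 + t.2 • v3
  map_add' := by
    intro a b
    simp only [Prod.fst_add, Prod.snd_add, add_smul]
    abel
  map_smul' := by
    intro c a
    simp only [Prod.smul_fst, Prod.smul_snd, smul_eq_mul, mul_smul, RingHom.id_apply, smul_add]

/-- Determinant of three vectors. -/
def det3 (v1 v2 v3 : F) : ℝ :=
  v1.1.1 * (v2.1.2 * v3.2 - v2.2 * v3.1.2) - v2.1.1 * (v1.1.2 * v3.2 - v1.2 * v3.1.2) +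
    v3.1.1 * (v1.1.2 * v2.2 - v1.2 * v2.1.2)

/-- Coordinates on three-space. -/
noncomputable def phi3 : F ≃ₗ[ℝ] (Fin 3 → ℝ) where
  toFun p := ![p.1.1, p.1.2, p.2]
  invFun v := ((v 0, v 1), v 2)
  map_add' := by
    intro a b
    ext i
    fin_cases i <;> simp
  map_smul' := by
    intro c a
    ext i
    fin_cases i <;> simp
  left_inv := by
    intro p
    simp
  right_inv := by
    intro v
    ext i
    fin_cases i <;> simp

lemma det_colMap (v1 v2 v3 : F) : LinearMap.det (colMap v1 v2 v3) = det3 v1 v2 v3 := by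
  rw [← LinearMap.det_conj (colMap v1 v2 v3) phi3]
  have : (phi3 : F →ₗ[ℝ] (Fin 3 → ℝ)) ∘ₗ colMap v1 v2 v3 ∘ₗ (phi3.symm : (Fin 3 → ℝ) →ₗ[ℝ] F) =
      Matrix.toLin' !![v1.1.1, v2.1.1, v3.1.1; v1.1.2, v2.1.2, v3.1.2; v1.2, v2.2, v3.2] := by
    apply LinearMap.ext
    intro v
    ext i
    fin_cases i <;>
      simp [phi3, colMap, Matrix.mulVec, dotProduct, Fin.sum_univ_three] <;> ring
  rw [this, LinearMap.det_toLin', Matrix.det_fin_three]
  simp [det3]
  ring

instance instHaarF : (volume : Measure F).IsAddHaarMeasure := by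
  rw [Measure.volume_eq_prod]
  infer_instance

lemma volume_image (c v1 v2 v3 : F) :
    volume ((fun t => c + colMap v1 v2 v3 t) '' Delta) =
      ENNReal.ofReal (|det3 v1 v2 v3|) * ENNReal.ofReal (1 / 6) := by
  have : (fun t => c + colMap v1 v2 v3 t) '' Delta =
      (fun x => -c + x) ⁻¹' (colMap v1 v2 v3 '' Delta) := by
    ext x
    simp only [mem_image, mem_preimage]
    constructor
    · rintro ⟨t, ht, rfl⟩
      exact ⟨t, ht, by simp⟩
    · rintro ⟨t, ht, h⟩
      exact ⟨t, ht, by rw [h]; simp⟩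
  rw [this, measure_preimage_add, Measure.addHaar_image_linearMap, det_colMap, volume_Delta]

lemma convex_four {C : Set F} (hC : Convex ℝ C) {x0 x1 x2 x3 : F}
    (h0 : x0 ∈ C) (h1 : x1 ∈ C) (h2 : x2 ∈ C) (h3 : x3 ∈ C) {a b c d : ℝ}
    (ha : 0 ≤ a) (hb : 0 ≤ b) (hc : 0 ≤ c) (hd : 0 ≤ d) (hs : a + b + c + d = 1) :
    a • x0 + b • x1 + c • x2 + d • x3 ∈ C := by
  have := hC.sum_mem (t := Finset.univ) (w := ![a, b, c, d]) (z := ![x0, x1, x2, x3])
    (by
      intro i _
      fin_cases i <;> simpa)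
    (by simp [Fin.sum_univ_four]; linarith)
    (by
      intro i _
      fin_cases i <;> simpa)
  simpa [Fin.sum_univ_four, add_assoc] using this

/-- Cross product. -/
def cross (u v : F) : F :=
  ((u.1.2 * v.2 - u.2 * v.1.2, u.2 * v.1.1 - u.1.1 * v.2), u.1.1 * v.1.2 - u.1.2 * v.1.1)

lemma amgm4 {a b c : ℝ} (ha : 0 < a) (hb : 0 < b) (hc : 0 < c) :
    256 * (a * b * c) ≤ (1 + a + b + c) ^ 4 := by
  have h1 : 4 * ((1 + a) * (b + c)) ≤ (1 + a + b + c) ^ 2 := by
    nlinarith [sq_nonneg (1 + a - b - c)]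
  have h2 : 4 * a ≤ (1 + a) ^ 2 := by nlinarith [sq_nonneg (1 - a)]
  have h3 : 4 * (b * c) ≤ (b + c) ^ 2 := by nlinarith [sq_nonneg (b - c)]
  have h4 : 16 * (a * (b * c)) ≤ ((1 + a) * (b + c)) ^ 2 := by
    have := mul_le_mul h2 h3 (by positivity) (by positivity)
    nlinarith
  have h5 : (4 * ((1 + a) * (b + c))) ^ 2 ≤ ((1 + a + b + c) ^ 2) ^ 2 :=
    pow_le_pow_left₀ (by positivity) h1 2
  nlinarith

lemma dual_exists {x1 x2 x3 : F} (hD : det3 x1 x2 x3 ≠ 0) :
    ∃ n1 n2 n3 : F,
      (dot n1 x1 = 1 ∧ dot n1 x2 = 0 ∧ dot n1 x3 = 0) ∧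
      (dot n2 x1 = 0 ∧ dot n2 x2 = 1 ∧ dot n2 x3 = 0) ∧
      (dot n3 x1 = 0 ∧ dot n3 x2 = 0 ∧ dot n3 x3 = 1) ∧
      (∀ p : F, p = dot n1 p • x1 + dot n2 p • x2 + dot n3 p • x3) ∧
      det3 n1 n2 n3 * det3 x1 x2 x3 = 1 := by
  set D := det3 x1 x2 x3 with hDdef
  refine ⟨D⁻¹ • cross x2 x3, D⁻¹ • cross x3 x1, D⁻¹ • cross x1 x2, ⟨?_, ?_, ?_⟩, ⟨?_, ?_, ?_⟩,
    ⟨?_, ?_, ?_⟩, ?_, ?_⟩
  · rw [dot_smul_left]
    have : dot (cross x2 x3) x1 = D := by
      simp only [hDdef, dot, dot2, cross, det3]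
      ring
    rw [this]
    exact inv_mul_cancel₀ hD
  · rw [dot_smul_left]
    have : dot (cross x2 x3) x2 = 0 := by
      simp only [dot, dot2, cross]
      ring
    rw [this, mul_zero]
  · rw [dot_smul_left]
    have : dot (cross x2 x3) x3 = 0 := by
      simp only [dot, dot2, cross]
      ring
    rw [this, mul_zero]
  · rw [dot_smul_left]
    have : dot (cross x3 x1) x1 = 0 := by
      simp only [dot, dot2, cross]
      ring
    rw [this, mul_zero]
  · rw [dot_smul_left]
    have : dot (cross x3 x1) x2 = D := by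
      simp only [hDdef, dot, dot2, cross, det3]
      ring
    rw [this]
    exact inv_mul_cancel₀ hD
  · rw [dot_smul_left]
    have : dot (cross x3 x1) x3 = 0 := by
      simp only [dot, dot2, cross]
      ring
    rw [this, mul_zero]
  · rw [dot_smul_left]
    have : dot (cross x1 x2) x1 = 0 := by
      simp only [dot, dot2, cross]
      ring
    rw [this, mul_zero]
  · rw [dot_smul_left]
    have : dot (cross x1 x2) x2 = 0 := by
      simp only [dot, dot2, cross]
      ring
    rw [this, mul_zero]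
  · rw [dot_smul_left]
    have : dot (cross x1 x2) x3 = D := by
      simp only [hDdef, dot, dot2, cross, det3]
      ring
    rw [this]
    exact inv_mul_cancel₀ hD
  · intro p
    rw [dot_smul_left, dot_smul_left, dot_smul_left]
    have e1 : ∀ a b c : ℝ, D⁻¹ * a + D⁻¹ * b + D⁻¹ * c = D⁻¹ * (a + b + c) := by
      intro a b c
      ring
    have c1 : dot (cross x2 x3) p * x1.1.1 + dot (cross x3 x1) p * x2.1.1 +
        dot (cross x1 x2) p * x3.1.1 = D * p.1.1 := by
      simp only [hDdef, dot, dot2, cross, det3]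
      ring
    have c2 : dot (cross x2 x3) p * x1.1.2 + dot (cross x3 x1) p * x2.1.2 +
        dot (cross x1 x2) p * x3.1.2 = D * p.1.2 := by
      simp only [hDdef, dot, dot2, cross, det3]
      ring
    have c3 : dot (cross x2 x3) p * x1.2 + dot (cross x3 x1) p * x2.2 +
        dot (cross x1 x2) p * x3.2 = D * p.2 := by
      simp only [hDdef, dot, dot2, cross, det3]
      ring
    ext
    · simp only [Prod.fst_add, Prod.smul_fst, smul_eq_mul]
      rw [mul_assoc, mul_assoc, mul_assoc, e1, c1, ← mul_assoc, inv_mul_cancel₀ hD, one_mul]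
    · simp only [Prod.fst_add, Prod.smul_fst, Prod.snd_add, Prod.smul_snd, smul_eq_mul]
      rw [mul_assoc, mul_assoc, mul_assoc, e1, c2, ← mul_assoc, inv_mul_cancel₀ hD, one_mul]
    · simp only [Prod.snd_add, Prod.smul_snd, smul_eq_mul]
      rw [mul_assoc, mul_assoc, mul_assoc, e1, c3, ← mul_assoc, inv_mul_cancel₀ hD, one_mul]
  · have h3 : det3 (cross x2 x3) (cross x3 x1) (cross x1 x2) = D ^ 2 := by
      simp only [hDdef, det3, cross]
      ring
    have h4 : det3 (D⁻¹ • cross x2 x3) (D⁻¹ • cross x3 x1) (D⁻¹ • cross x1 x2) =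
        D⁻¹ ^ 3 * det3 (cross x2 x3) (cross x3 x1) (cross x1 x2) := by
      simp only [det3, Prod.smul_fst, Prod.smul_snd, smul_eq_mul]
      ring
    rw [h4, h3]
    field_simp

lemma det3_shift (x1 x2 x3 : F) (b1 b2 b3 : ℝ) :
    det3 (x1 + (b1 • x1 + b2 • x2 + b3 • x3)) (x2 + (b1 • x1 + b2 • x2 + b3 • x3))
      (x3 + (b1 • x1 + b2 • x2 + b3 • x3)) = det3 x1 x2 x3 * (1 + b1 + b2 + b3) := by
  simp only [det3, Prod.fst_add, Prod.snd_add, Prod.smul_fst, Prod.smul_snd, smul_eq_mul]
  ring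

lemma det3_scale (n1 n2 n3 : F) (g1 g2 g3 : ℝ) :
    det3 (g1 • n1) (g2 • n2) (g3 • n3) = g1 * g2 * g3 * det3 n1 n2 n3 := by
  simp only [det3, Prod.smul_fst, Prod.smul_snd, smul_eq_mul]
  ring

lemma positive_spanning {X N : Finset F} (h : Pair X N) (y : F) (hy : y ≠ 0) :
    ∃ x ∈ X, 0 < dot y x := by
  by_contra hcon
  push Not at hcon
  obtain ⟨ρ, hρ, hball⟩ := h.ball
  have hd : 0 < dot y y := by
    have h1 : y.1.1 ≠ 0 ∨ y.1.2 ≠ 0 ∨ y.2 ≠ 0 := by
      by_contra hh
      push Not at hh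
      apply hy
      ext <;> simp [hh.1, hh.2.1, hh.2.2]
    simp only [dot, dot2]
    rcases h1 with h1 | h1 | h1
    · have := mul_self_pos.2 h1
      nlinarith [mul_self_nonneg y.1.2, mul_self_nonneg y.2]
    · have := mul_self_pos.2 h1
      nlinarith [mul_self_nonneg y.1.1, mul_self_nonneg y.2]
    · have := mul_self_pos.2 h1
      nlinarith [mul_self_nonneg y.1.1, mul_self_nonneg y.1.2]
  set c : ℝ := |y.1.1| + |y.1.2| + |y.2| + 1 with hc
  have hcpos : 0 < c := by positivity
  have hu : (ρ / c) • y ∈ convexHull ℝ (X : Set F) := by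
    apply hball
    simp only [Prod.smul_fst, Prod.smul_snd, smul_eq_mul, abs_mul]
    have e : |ρ / c| = ρ / c := abs_of_pos (by positivity)
    rw [e]
    have : ρ / c * |y.1.1| + ρ / c * |y.1.2| + ρ / c * |y.2| = ρ / c * (c - 1) := by
      rw [hc]
      ring
    rw [this]
    have h5 : ρ / c * (c - 1) = ρ - ρ / c := by
      field_simp
    rw [h5]
    have : 0 < ρ / c := by positivity
    linarith
  have h6 := dot_le_of_mem_convexHull (S := (X : Set F)) (y := y) (c := 0)
    (fun x hx => hcon x hx) hu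
  rw [dot_smul_right] at h6
  have : 0 < ρ / c * dot y y := by positivity
  linarith

/-- The simplex case of the volume product inequality. -/
theorem simplex_case {X N : Finset F} (h : Pair X N) (hc : X.card = 4) :
    ENNReal.ofReal (64 / 9) ≤
      volume (convexHull ℝ (X : Set F)) * volume (convexHull ℝ (N : Set F)) := by
  classical
  obtain ⟨x0, T, hx0T, rfl, hT⟩ := Finset.card_eq_succ.1 hc
  obtain ⟨x1, x2, x3, -, -, -, rfl⟩ := Finset.card_eq_three.1 hT
  have hA := positive_spanning h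
  have hmem : ∀ x, x ∈ (insert x0 {x1, x2, x3} : Finset F) ↔ x = x0 ∨ x = x1 ∨ x = x2 ∨ x = x3 := by
    intro x
    simp
  have hD : det3 x1 x2 x3 ≠ 0 := by
    intro hD0
    let M : Matrix (Fin 3) (Fin 3) ℝ :=
      !![x1.1.1, x1.1.2, x1.2; x2.1.1, x2.1.2, x2.2; x3.1.1, x3.1.2, x3.2]
    have hM : M.det = 0 := by
      rw [Matrix.det_fin_three]
      simp only [M, Matrix.of_apply, Matrix.cons_val', Matrix.cons_val_zero, Matrix.cons_val_one,
        Matrix.cons_val]
      simp only [det3] at hD0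
      linarith
    obtain ⟨v, hv0, hv⟩ := Matrix.exists_mulVec_eq_zero_iff.2 hM
    have hv1 := congrFun hv 0
    have hv2 := congrFun hv 1
    have hv3 := congrFun hv 2
    simp [M, Matrix.mulVec, dotProduct, Fin.sum_univ_three] at hv1 hv2 hv3
    let y : F := ((v 0, v 1), v 2)
    have hy0 : y ≠ 0 := by
      intro hy
      apply hv0
      have h0 : v 0 = 0 := congrArg (fun p : F => p.1.1) hy
      have h1 : v 1 = 0 := congrArg (fun p : F => p.1.2) hy
      have h2 : v 2 = 0 := congrArg (fun p : F => p.2) hy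
      ext i
      fin_cases i <;> simp [h0, h1, h2]
    have d1 : dot y x1 = 0 := by
      simp only [dot, dot2, y]
      linarith
    have d2 : dot y x2 = 0 := by
      simp only [dot, dot2, y]
      linarith
    have d3 : dot y x3 = 0 := by
      simp only [dot, dot2, y]
      linarith
    obtain ⟨x, hx, hpos⟩ := hA y hy0
    obtain ⟨x', hx', hpos'⟩ := hA (-y) (neg_ne_zero.2 hy0)
    rw [dot_neg_left] at hpos'
    have a1 : 0 < dot y x0 := by
      rcases (hmem x).1 hx with rfl | rfl | rfl | rfl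
      · exact hpos
      · linarith
      · linarith
      · linarith
    have a2 : dot y x0 < 0 := by
      rcases (hmem x').1 hx' with rfl | rfl | rfl | rfl
      · linarith
      · linarith
      · linarith
      · linarith
    linarith
  obtain ⟨n1, n2, n3, ⟨h11, h12, h13⟩, ⟨h21, h22, h23⟩, ⟨h31, h32, h33⟩, hexp, hdet⟩ :=
    dual_exists hD
  have hne : ∀ n : F, dot n x1 = 1 ∨ dot n x2 = 1 ∨ dot n x3 = 1 → n ≠ 0 := by
    rintro n hn rfl
    simp at hn
  have b1pos : 0 < -dot n1 x0 := by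
    obtain ⟨x, hx, hpos⟩ := hA (-n1) (neg_ne_zero.2 (hne n1 (Or.inl h11)))
    rw [dot_neg_left] at hpos
    rcases (hmem x).1 hx with rfl | rfl | rfl | rfl
    · exact hpos
    · linarith
    · linarith
    · linarith
  have b2pos : 0 < -dot n2 x0 := by
    obtain ⟨x, hx, hpos⟩ := hA (-n2) (neg_ne_zero.2 (hne n2 (Or.inr (Or.inl h22))))
    rw [dot_neg_left] at hpos
    rcases (hmem x).1 hx with rfl | rfl | rfl | rfl
    · exact hpos
    · linarith
    · linarith
    · linarith
  have b3pos : 0 < -dot n3 x0 := by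
    obtain ⟨x, hx, hpos⟩ := hA (-n3) (neg_ne_zero.2 (hne n3 (Or.inr (Or.inr h33))))
    rw [dot_neg_left] at hpos
    rcases (hmem x).1 hx with rfl | rfl | rfl | rfl
    · exact hpos
    · linarith
    · linarith
    · linarith
  set b1 := -dot n1 x0 with hb1
  set b2 := -dot n2 x0 with hb2
  set b3 := -dot n3 x0 with hb3
  have hx0 : x0 = -(b1 • x1 + b2 • x2 + b3 • x3) := by
    have := hexp x0
    rw [hb1, hb2, hb3]
    simp only [neg_smul, neg_neg]
    conv_lhs => rw [this]
    simp only [neg_add_rev, neg_neg]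
    abel
  set S := 1 + b1 + b2 + b3 with hS
  have hSpos : 0 < S := by positivity
  -- the first inclusion
  have i1 : (fun t => x0 + colMap (x1 - x0) (x2 - x0) (x3 - x0) t) '' Delta ⊆
      convexHull ℝ ((insert x0 {x1, x2, x3} : Finset F) : Set F) := by
    rintro _ ⟨t, ⟨ht1, ht2, ht3, ht4⟩, rfl⟩
    have := convex_four (convex_convexHull ℝ ((insert x0 {x1, x2, x3} : Finset F) : Set F))
      (subset_convexHull ℝ _ (by simp : x0 ∈ ((insert x0 {x1, x2, x3} : Finset F) : Set F)))
      (subset_convexHull ℝ _ (by simp : x1 ∈ ((insert x0 {x1, x2, x3} : Finset F) : Set F)))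
      (subset_convexHull ℝ _ (by simp : x2 ∈ ((insert x0 {x1, x2, x3} : Finset F) : Set F)))
      (subset_convexHull ℝ _ (by simp : x3 ∈ ((insert x0 {x1, x2, x3} : Finset F) : Set F)))
      (a := 1 - t.1.1 - t.1.2 - t.2) (b := t.1.1) (c := t.1.2) (d := t.2)
      (by linarith) ht1 ht2 ht3 (by ring)
    convert this using 1
    change x0 + (t.1.1 • (x1 - x0) + t.1.2 • (x2 - x0) + t.2 • (x3 - x0)) = _
    ext <;> simp <;> ring
  have v1 := volume_image x0 (x1 - x0) (x2 - x0) (x3 - x0)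
  have d1 : det3 (x1 - x0) (x2 - x0) (x3 - x0) = det3 x1 x2 x3 * S := by
    have := det3_shift x1 x2 x3 b1 b2 b3
    rw [← this, hx0]
    simp only [sub_neg_eq_add]
  -- the second inclusion
  set g1 := S / b1 with hg1
  set g2 := S / b2 with hg2
  set g3 := S / b3 with hg3
  have e1 : g1 * b1 = S := by rw [hg1]; field_simp
  have e2 : g2 * b2 = S := by rw [hg2]; field_simp
  have e3 : g3 * b3 = S := by rw [hg3]; field_simp
  have i2 : (fun t => (n1 + n2 + n3) + colMap ((-g1) • n1) ((-g2) • n2) ((-g3) • n3) t) '' Delta ⊆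
      convexHull ℝ (N : Set F) := by
    rw [h.conv_N_eq]
    rintro _ ⟨t, ⟨ht1, ht2, ht3, ht4⟩, rfl⟩
    change ∀ x ∈ ((insert x0 {x1, x2, x3} : Finset F) : Set F), _
    have key : ∀ x : F, dot ((n1 + n2 + n3) + colMap ((-g1) • n1) ((-g2) • n2) ((-g3) • n3) t) x =
        (1 - t.1.1 * g1) * dot n1 x + (1 - t.1.2 * g2) * dot n2 x + (1 - t.2 * g3) * dot n3 x := by
      intro x
      change dot ((n1 + n2 + n3) + (t.1.1 • ((-g1) • n1) + t.1.2 • ((-g2) • n2) +
        t.2 • ((-g3) • n3))) x = _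
      simp only [dot_add_left, dot_smul_left]
      ring
    have g1p : 0 < g1 := by positivity
    have g2p : 0 < g2 := by positivity
    have g3p : 0 < g3 := by positivity
    intro x hx
    rw [Finset.mem_coe] at hx
    rw [key]
    rcases (hmem x).1 hx with rfl | rfl | rfl | rfl
    · have c1 : dot n1 x = -b1 := by rw [hb1]; ring
      have c2 : dot n2 x = -b2 := by rw [hb2]; ring
      have c3 : dot n3 x = -b3 := by rw [hb3]; ring
      rw [c1, c2, c3]
      have : (1 - t.1.1 * g1) * -b1 + (1 - t.1.2 * g2) * -b2 + (1 - t.2 * g3) * -b3 =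
          -(b1 + b2 + b3) + (t.1.1 * (g1 * b1) + t.1.2 * (g2 * b2) + t.2 * (g3 * b3)) := by ring
      rw [this, e1, e2, e3]
      have : t.1.1 * S + t.1.2 * S + t.2 * S = (t.1.1 + t.1.2 + t.2) * S := by ring
      rw [this]
      have : (t.1.1 + t.1.2 + t.2) * S ≤ 1 * S := mul_le_mul_of_nonneg_right ht4 hSpos.le
      rw [hS] at this ⊢
      linarith
    · rw [h11, h21, h31]
      nlinarith [mul_nonneg ht1 g1p.le]
    · rw [h12, h22, h32]
      nlinarith [mul_nonneg ht2 g2p.le]
    · rw [h13, h23, h33]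
      nlinarith [mul_nonneg ht3 g3p.le]
  have v2 := volume_image (n1 + n2 + n3) ((-g1) • n1) ((-g2) • n2) ((-g3) • n3)
  have d2 : det3 ((-g1) • n1) ((-g2) • n2) ((-g3) • n3) = -(g1 * g2 * g3) * det3 n1 n2 n3 := by
    rw [det3_scale]
    ring
  have l1 := measure_mono (μ := volume) i1
  have l2 := measure_mono (μ := volume) i2
  rw [v1, d1] at l1
  rw [v2, d2] at l2
  refine le_trans ?_ (mul_le_mul' l1 l2)
  rw [← ENNReal.ofReal_mul (by positivity), ← ENNReal.ofReal_mul (by positivity),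
    ← ENNReal.ofReal_mul (by positivity)]
  apply ENNReal.ofReal_le_ofReal
  have g1p : 0 < g1 := by positivity
  have g2p : 0 < g2 := by positivity
  have g3p : 0 < g3 := by positivity
  have h8 : |det3 x1 x2 x3 * S| * |-(g1 * g2 * g3) * det3 n1 n2 n3| = S * (g1 * g2 * g3) := by
    rw [← abs_mul]
    have : (det3 x1 x2 x3 * S) * (-(g1 * g2 * g3) * det3 n1 n2 n3) = -(S * (g1 * g2 * g3)) := by
      linear_combination (-(S * (g1 * g2 * g3))) * hdet
    rw [this, abs_neg, abs_of_pos (by positivity)]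
  have h9 : S * (g1 * g2 * g3) = S ^ 4 / (b1 * b2 * b3) := by
    rw [hg1, hg2, hg3]
    field_simp
  have h10 : 256 ≤ S ^ 4 / (b1 * b2 * b3) := by
    rw [le_div_iff₀ (by positivity), hS]
    exact amgm4 b1pos b2pos b3pos
  have h11' : |det3 x1 x2 x3 * S| * (1 / 6) * (|-(g1 * g2 * g3) * det3 n1 n2 n3| * (1 / 6)) =
      (|det3 x1 x2 x3 * S| * |-(g1 * g2 * g3) * det3 n1 n2 n3|) / 36 := by ring
  rw [h11', h8, h9]
  linarith

end Vale.Agent.Lib.P248
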